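import Mathlib

/-! Random subsets of a finite ground set. -/

namespace Vale.Agent.P064

open Finset

variable {X : Type*} [DecidableEq X]

/-- Probability that the `p`-random subset of `E` equals `W`. -/
def wt (E : Finset X) (p : ℝ) (W : Finset X) : ℝ :=
  p ^ W.card * (1 - p) ^ (E.card - W.card)

/-- Expectation of `f` at the `p`-random subset of `E`. -/
def ex (E : Finset X) (p : ℝ) (f : Finset X → ℝ) : ℝ :=
  ∑ W ∈ E.powerset, wt E p W * f W

lemma wt_nonneg {E : Finset X} {p : ℝ} (h0 : 0 ≤ p) (h1 : p ≤ 1) (W : Finset X) :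
    0 ≤ wt E p W := mul_nonneg (pow_nonneg h0 _) (pow_nonneg (by linarith) _)

lemma ex_insert {E : Finset X} {x : X} (hx : x ∉ E) (p : ℝ) (f : Finset X → ℝ) :
    ex (insert x E) p f = (1 - p) * ex E p f + p * ex E p (fun W => f (insert x W)) := by
  unfold ex
  rw [Finset.sum_powerset_insert hx, Finset.mul_sum, Finset.mul_sum]
  congr 1 <;> refine Finset.sum_congr rfl fun W hW => ?_
  · have hWE := Finset.mem_powerset.1 hW
    have hc : (insert x E).card - W.card = (E.card - W.card) + 1 := by
      rw [Finset.card_insert_of_notMem hx]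
      have := Finset.card_le_card hWE
      omega
    simp only [wt, hc, pow_succ]
    ring
  · have hWE := Finset.mem_powerset.1 hW
    have hxW : x ∉ W := fun h => hx (hWE h)
    have hc : (insert x E).card - (insert x W).card = E.card - W.card := by
      rw [Finset.card_insert_of_notMem hx, Finset.card_insert_of_notMem hxW]
      omega
    simp only [wt]
    rw [hc, Finset.card_insert_of_notMem hxW, pow_succ]
    ring

lemma ex_empty (p : ℝ) (f : Finset X → ℝ) : ex ∅ p f = f ∅ := by
  simp [ex, wt]

lemma ex_const (E : Finset X) (p c : ℝ) : ex E p (fun _ => c) = c := by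
  induction E using Finset.induction_on with
  | empty => simp [ex_empty]
  | @insert x E hx ih => rw [ex_insert hx, ih]; ring

lemma ex_add (E : Finset X) (p : ℝ) (f g : Finset X → ℝ) :
    ex E p (fun W => f W + g W) = ex E p f + ex E p g := by
  simp [ex, mul_add, Finset.sum_add_distrib]

lemma ex_mul_left (E : Finset X) (p c : ℝ) (f : Finset X → ℝ) :
    ex E p (fun W => c * f W) = c * ex E p f := by
  simp only [ex, Finset.mul_sum]
  exact Finset.sum_congr rfl fun W _ => by ring

lemma ex_sum {ι : Type*} (E : Finset X) (p : ℝ) (s : Finset ι) (f : ι → Finset X → ℝ) :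
    ex E p (fun W => ∑ i ∈ s, f i W) = ∑ i ∈ s, ex E p (f i) := by
  simp only [ex, Finset.mul_sum]
  exact Finset.sum_comm

lemma ex_mono {E : Finset X} {p : ℝ} (h0 : 0 ≤ p) (h1 : p ≤ 1) {f g : Finset X → ℝ}
    (h : ∀ W ⊆ E, f W ≤ g W) : ex E p f ≤ ex E p g :=
  Finset.sum_le_sum fun W hW =>
    mul_le_mul_of_nonneg_left (h W (Finset.mem_powerset.1 hW)) (wt_nonneg h0 h1 W)

/-- The union of two independent random subsets is a random subset. -/
lemma ex_union (E : Finset X) (a b : ℝ) (f : Finset X → ℝ) :
    ex E a (fun W => ex E b (fun V => f (W ∪ V))) = ex E (a + b - a * b) f := by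
  induction E using Finset.induction_on generalizing f with
  | empty => simp [ex_empty]
  | @insert x E hx ih =>
    simp only [ex_insert hx, Finset.insert_union, Finset.union_insert, Finset.insert_idem,
      ex_add, ex_mul_left]
    rw [ih f, ih (fun W => f (insert x W))]
    ring

/-- A decreasing function has decreasing expectation. -/
lemma ex_antitone {E : Finset X} {p q : ℝ} (h0 : 0 ≤ p) (hpq : p ≤ q) (h1 : q ≤ 1)
    {f : Finset X → ℝ} (hf : ∀ A B : Finset X, A ⊆ B → B ⊆ E → f B ≤ f A) :
    ex E q f ≤ ex E p f := by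
  rcases eq_or_lt_of_le (hpq.trans h1) with hp | hp
  · have : q = p := le_antisymm (by linarith) hpq
    rw [this]
  · set b := (q - p) / (1 - p) with hb
    have h1p : 0 < 1 - p := by linarith
    have hb0 : 0 ≤ b := div_nonneg (by linarith) h1p.le
    have hb1 : b ≤ 1 := (div_le_one h1p).2 (by linarith)
    have hq : q = p + b - p * b := by
      rw [hb]; field_simp; ring
    rw [hq, ← ex_union]
    refine ex_mono h0 hp.le fun W hW => ?_
    calc ex E b (fun V => f (W ∪ V)) ≤ ex E b (fun _ => f W) :=
          ex_mono hb0 hb1 fun V hV =>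
            hf W (W ∪ V) Finset.subset_union_left (Finset.union_subset hW hV)
      _ = f W := ex_const _ _ _

/-- The probability of containing a given set. -/
lemma ex_superset {E : Finset X} (p : ℝ) {A : Finset X} (hA : A ⊆ E) :
    ex E p (fun W => if A ⊆ W then 1 else 0) = p ^ A.card := by
  induction E using Finset.induction_on generalizing A with
  | empty =>
    rw [Finset.subset_empty] at hA
    simp [ex_empty, hA]
  | @insert x E hx ih =>
    rw [ex_insert hx]
    by_cases hxA : x ∈ A
    · have h1 : ex E p (fun W => if A ⊆ W then (1:ℝ) else 0) = 0 := by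
        refine Finset.sum_eq_zero fun W hW => ?_
        have : ¬ A ⊆ W := fun h => hx (Finset.mem_powerset.1 hW (h hxA))
        simp [this]
      have h2 : A.erase x ⊆ E := Finset.subset_insert_iff.1 hA
      have h3 : ∀ W : Finset X, (A ⊆ insert x W) ↔ A.erase x ⊆ W := fun W =>
        Finset.subset_insert_iff
      simp only [h3, h1, mul_zero, zero_add]
      rw [ih h2, ← Finset.card_erase_add_one hxA, pow_succ]
      ring
    · have h2 : A ⊆ E := fun y hy => Finset.mem_of_mem_insert_of_ne (hA hy) (by rintro rfl; exact hxA hy)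
      have h3 : ∀ W : Finset X, (A ⊆ insert x W) ↔ A ⊆ W := fun W => by
        rw [Finset.subset_insert_iff, Finset.erase_eq_of_notMem hxA]
      simp only [h3]
      rw [ih h2]
      ring

end Vale.Agent.P064
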