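import Mathlib

/-! Sparse sets under a group action contain few translates of any set.

If every subset `U` of `H` has stabiliser at most `2 q^|U| |Γ|`, then every `F` satisfies
`|{g | g F ⊆ H}| ≤ |Γ| (K q |H|^(1/D))^|F|` with `K = 6144 (D+1)`. -/

namespace Vale.Agent.P064

open Finset

open scoped Pointwise

variable {Γ X : Type*} [Group Γ] [Fintype Γ] [DecidableEq X] [MulAction Γ X]

/-- Number of group elements moving `F` into `U`. -/
def cnt (Γ : Type*) {X : Type*} [Group Γ] [Fintype Γ] [DecidableEq X] [MulAction Γ X]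
    (F U : Finset X) : ℕ :=
  (Finset.univ.filter fun g : Γ => g • F ⊆ U).card

/-- Size of the stabiliser of `U`. -/
def stab (Γ : Type*) {X : Type*} [Group Γ] [Fintype Γ] [DecidableEq X] [MulAction Γ X]
    (U : Finset X) : ℕ :=
  (Finset.univ.filter fun g : Γ => g • U = U).card

/-- Every subset of `H` has expected count at least one half at density `q`. -/
def Sparse (Γ : Type*) {X : Type*} [Group Γ] [Fintype Γ] [DecidableEq X] [MulAction Γ X]
    (q : ℝ) (H : Finset X) : Prop :=
  ∀ U ⊆ H, (stab Γ U : ℝ) ≤ 2 * q ^ U.card * (Fintype.card Γ : ℝ)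

lemma cnt_le_card (F U : Finset X) : cnt Γ F U ≤ Fintype.card Γ :=
  Finset.card_le_univ _

lemma cnt_empty (U : Finset X) : cnt Γ ∅ U = Fintype.card Γ := by
  simp [cnt]

lemma cnt_mono (F : Finset X) {U V : Finset X} (h : U ⊆ V) : cnt Γ F U ≤ cnt Γ F V :=
  Finset.card_le_card fun g hg =>
    Finset.mem_filter.2 ⟨Finset.mem_univ _, (Finset.mem_filter.1 hg).2.trans h⟩

lemma cnt_smul (h : Γ) (F U : Finset X) : cnt Γ F (h • U) = cnt Γ F U := by
  refine Finset.card_bij' (fun g _ => h⁻¹ * g) (fun g _ => h * g) ?_ ?_ ?_ ?_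
  · intro g hg
    refine Finset.mem_filter.2 ⟨Finset.mem_univ _, ?_⟩
    rw [mul_smul, ← Finset.subset_smul_finset_iff]
    exact (Finset.mem_filter.1 hg).2
  · intro g hg
    refine Finset.mem_filter.2 ⟨Finset.mem_univ _, ?_⟩
    rw [mul_smul]
    exact Finset.smul_finset_subset_smul_finset (Finset.mem_filter.1 hg).2
  · intro g _; simp
  · intro g _; simp

lemma fiber_le_stab (U V : Finset X) :
    (Finset.univ.filter fun g : Γ => g • U = V).card ≤ stab Γ U := by
  rcases (Finset.univ.filter fun g : Γ => g • U = V).eq_empty_or_nonempty with h | ⟨g₀, hg₀⟩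
  · simp [h]
  · refine Finset.card_le_card_of_injOn (fun g => g₀⁻¹ * g) ?_ ?_
    · intro g hg
      have hg' := (Finset.mem_filter.1 hg).2
      have hg₀' := (Finset.mem_filter.1 hg₀).2
      refine Finset.mem_filter.2 ⟨Finset.mem_univ _, ?_⟩
      rw [mul_smul, hg', ← hg₀', inv_smul_smul]
    · intro a _ b _ hab
      exact mul_left_cancel hab

/-- Union of the translates of `F` by the entries of a tuple. -/
def un (F : Finset X) {k : ℕ} (t : Fin k → Γ) : Finset X :=
  Finset.univ.biUnion fun i => t i • F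

lemma un_smul (F : Finset X) {k : ℕ} (g : Γ) (t : Fin k → Γ) :
    g • un F t = un F (fun i => g * t i) := by
  ext x
  simp only [un, Finset.mem_biUnion, Finset.mem_univ, true_and, Finset.mem_smul_finset, mul_smul]
  constructor
  · rintro ⟨y, ⟨i, z, hz, rfl⟩, rfl⟩
    exact ⟨i, t i • z, ⟨z, hz, rfl⟩, rfl⟩
  · rintro ⟨i, y, ⟨z, hz, rfl⟩, rfl⟩
    exact ⟨t i • z, ⟨i, z, hz, rfl⟩, rfl⟩

lemma un_snoc (F : Finset X) {k : ℕ} (t : Fin k → Γ) (g : Γ) :
    un F (Fin.snoc t g) = un F t ∪ g • F := by
  ext x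
  simp only [un, Finset.mem_biUnion, Finset.mem_univ, true_and, Finset.mem_union,
    Fin.exists_fin_succ', Fin.snoc_castSucc, Fin.snoc_last]

open scoped Classical in
/-- Tuples whose union has `J` elements and is a translate of a subset of `H`. -/
noncomputable def goodTuples (F H : Finset X) (k J : ℕ) : Finset (Fin k → Γ) :=
  Finset.univ.filter fun t => (un F t).card = J ∧ ∃ h : Γ, h • un F t ⊆ H

/-- Tuples with union of size `J` are few, given the bound for proper subsets of `F`. -/
lemma good_bound {F H : Finset X} {p A : ℝ} (hp : 0 ≤ p) (hA : 0 ≤ A) {m : ℕ}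
    (hstep : ∀ U ⊆ H, U.card ≤ m → ∀ I ⊆ F, (cnt Γ I U : ℝ) * p ^ (F.card - I.card) ≤ A) :
    ∀ k J, J ≤ m →
      ((goodTuples (Γ := Γ) F H k J).card : ℝ) * p ^ J ≤ ((k * F.card).choose J : ℝ) * A ^ k := by
  classical
  intro k
  induction k with
  | zero =>
    intro J _
    rcases J with _ | J
    · have : (goodTuples (Γ := Γ) F H 0 0).card ≤ 1 := (Finset.card_le_univ _).trans (by simp)
      simpa using (show ((goodTuples (Γ := Γ) F H 0 0).card : ℝ) ≤ 1 by exact_mod_cast this)
    · have : goodTuples (Γ := Γ) F H 0 (J + 1) = ∅ := by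
        simp [goodTuples, un]
      simp [this]
  | succ k ih =>
    intro J' hJ'
    let Good : (Fin k → Γ) → Finset Γ := fun t =>
      Finset.univ.filter fun g => (un F t ∪ g • F).card = J' ∧ ∃ h : Γ, h • (un F t ∪ g • F) ⊆ H
    let Base : Finset (Fin k → Γ) :=
      Finset.univ.filter fun t => (Good t).Nonempty
    have hcard : (goodTuples (Γ := Γ) F H (k + 1) J').card ≤ ∑ t ∈ Base, (Good t).card := by
      rw [← Finset.card_sigma]
      refine Finset.card_le_card_of_injOn (fun t => ⟨Fin.init t, t (Fin.last k)⟩) ?_ ?_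
      · intro t ht
        have ht' := (Finset.mem_filter.1 ht).2
        rw [← Fin.snoc_init_self t, un_snoc] at ht'
        have hg : t (Fin.last k) ∈ Good (Fin.init t) :=
          Finset.mem_filter.2 ⟨Finset.mem_univ _, ht'⟩
        exact Finset.mem_sigma.2 ⟨Finset.mem_filter.2 ⟨Finset.mem_univ _, ⟨_, hg⟩⟩, hg⟩
      · intro a _ b _ hab
        simp only [Sigma.mk.injEq, heq_eq_eq] at hab
        rw [← Fin.snoc_init_self a, ← Fin.snoc_init_self b, hab.1, hab.2]
    have hJle : ∀ t ∈ Base, (un F t).card ≤ J' ∧ ∃ h : Γ, h • un F t ⊆ H := by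
      intro t ht
      obtain ⟨g, hg⟩ := (Finset.mem_filter.1 ht).2
      obtain ⟨hc, h, hh⟩ := (Finset.mem_filter.1 hg).2
      exact ⟨hc ▸ Finset.card_le_card Finset.subset_union_left,
        h, (Finset.smul_finset_subset_smul_finset Finset.subset_union_left).trans hh⟩
    have hone : ∀ t ∈ Base, ((Good t).card : ℝ) * p ^ (J' - (un F t).card) ≤
        (F.card.choose (J' - (un F t).card) : ℝ) * A := by
      intro t ht
      set U := un F t
      set j := J' - U.card with hj
      obtain ⟨hU', h, hh⟩ := hJle t ht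
      have hUU : U.card = (un F t).card := rfl
      have hmaps : ∀ g ∈ Good t, F.filter (fun x => g • x ∉ U) ∈ F.powersetCard j := by
        intro g hg
        obtain ⟨hc, -⟩ := (Finset.mem_filter.1 hg).2
        refine Finset.mem_powersetCard.2 ⟨Finset.filter_subset _ _, ?_⟩
        have himg : (F.filter fun x => g • x ∉ U).image (fun x => g • x) = g • F \ U := by
          ext y
          simp only [Finset.mem_image, Finset.mem_filter, Finset.mem_sdiff, Finset.mem_smul_finset]
          aesop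
        have h1 := congrArg Finset.card himg
        rw [Finset.card_image_of_injective _ (MulAction.injective g)] at h1
        have h2 := Finset.card_sdiff_add_card (g • F) U
        rw [Finset.union_comm, hc] at h2
        omega
      have hcnt : ((Good t).card : ℝ) = ∑ S ∈ F.powersetCard j,
          (((Good t).filter fun g => F.filter (fun x => g • x ∉ U) = S).card : ℝ) := by
        exact_mod_cast Finset.card_eq_sum_card_fiberwise hmaps
      rw [hcnt, Finset.sum_mul]
      refine (Finset.sum_le_card_nsmul _ _ A fun S hS => ?_).trans (le_of_eq ?_)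
      · obtain ⟨hSF, hSc⟩ := Finset.mem_powersetCard.1 hS
        have hb := hstep (h • U) hh (by rw [Finset.card_smul_finset]; omega) (F \ S)
          Finset.sdiff_subset
        rw [cnt_smul] at hb
        have hexp : F.card - (F \ S).card = j := by
          rw [Finset.card_sdiff_of_subset hSF]
          have := Finset.card_le_card hSF
          omega
        rw [hexp] at hb
        refine le_trans ?_ hb
        refine mul_le_mul_of_nonneg_right (Nat.cast_le.2 (Finset.card_le_card ?_))
          (pow_nonneg hp _)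
        intro g hg
        refine Finset.mem_filter.2 ⟨Finset.mem_univ _, fun y hy => ?_⟩
        obtain ⟨x, hx, rfl⟩ := Finset.mem_smul_finset.1 hy
        obtain ⟨hxF, hxS⟩ := Finset.mem_sdiff.1 hx
        by_contra hxU
        exact hxS ((Finset.mem_filter.1 hg).2 ▸ Finset.mem_filter.2 ⟨hxF, hxU⟩)
      · rw [Finset.card_powersetCard, nsmul_eq_mul]
    calc ((goodTuples (Γ := Γ) F H (k + 1) J').card : ℝ) * p ^ J'
        ≤ (∑ t ∈ Base, ((Good t).card : ℝ)) * p ^ J' :=
          mul_le_mul_of_nonneg_right (by exact_mod_cast hcard) (pow_nonneg hp _)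
      _ = ∑ J ∈ Finset.range (J' + 1), ∑ t ∈ Base.filter (fun t => (un F t).card = J),
            p ^ J * (((Good t).card : ℝ) * p ^ (J' - J)) := by
          rw [Finset.sum_mul,
            ← Finset.sum_fiberwise_of_maps_to (g := fun t => (un F t).card)
              (t := Finset.range (J' + 1))
              (fun t ht => Finset.mem_range.2 (Nat.lt_succ_of_le (hJle t ht).1))]
          refine Finset.sum_congr rfl fun J hJ => Finset.sum_congr rfl fun t _ => ?_
          have : J ≤ J' := Nat.le_of_lt_succ (Finset.mem_range.1 hJ)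
          rw [show p ^ J' = p ^ J * p ^ (J' - J) by rw [← pow_add, Nat.add_sub_cancel' this]]
          ring
      _ ≤ ∑ J ∈ Finset.range (J' + 1),
            ((k * F.card).choose J : ℝ) * (F.card.choose (J' - J) : ℝ) * A ^ (k + 1) := by
          refine Finset.sum_le_sum fun J hJ => ?_
          have hJm : J ≤ m := (Nat.le_of_lt_succ (Finset.mem_range.1 hJ)).trans hJ'
          calc ∑ t ∈ Base.filter (fun t => (un F t).card = J),
                p ^ J * (((Good t).card : ℝ) * p ^ (J' - J))
              ≤ ∑ _t ∈ Base.filter (fun t => (un F t).card = J),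
                p ^ J * ((F.card.choose (J' - J) : ℝ) * A) := by
                refine Finset.sum_le_sum fun t ht => mul_le_mul_of_nonneg_left ?_ (pow_nonneg hp _)
                obtain ⟨ht1, ht2⟩ := Finset.mem_filter.1 ht
                subst ht2
                exact hone t ht1
            _ = ((Base.filter (fun t => (un F t).card = J)).card : ℝ) * p ^ J *
                ((F.card.choose (J' - J) : ℝ) * A) := by
                rw [Finset.sum_const, nsmul_eq_mul]; ring
            _ ≤ ((goodTuples (Γ := Γ) F H k J).card : ℝ) * p ^ J *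
                ((F.card.choose (J' - J) : ℝ) * A) := by
                refine mul_le_mul_of_nonneg_right (mul_le_mul_of_nonneg_right
                  (Nat.cast_le.2 (Finset.card_le_card fun t ht => ?_)) (pow_nonneg hp _))
                  (by positivity)
                obtain ⟨ht1, ht2⟩ := Finset.mem_filter.1 ht
                exact Finset.mem_filter.2 ⟨Finset.mem_univ _, ht2, (hJle t ht1).2⟩
            _ ≤ ((k * F.card).choose J : ℝ) * A ^ k * ((F.card.choose (J' - J) : ℝ) * A) :=
                mul_le_mul_of_nonneg_right (ih J hJm) (by positivity)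
            _ = _ := by ring
      _ = (((k + 1) * F.card).choose J' : ℝ) * A ^ (k + 1) := by
          rw [← Finset.sum_mul, Nat.succ_mul, Nat.add_choose_eq,
            Finset.Nat.sum_antidiagonal_eq_sum_range_succ_mk]
          push_cast
          rfl

/-- Number of tuples with union exactly `U`, for `U` inside `H`. -/
lemma tuples_eq_bound {F H U : Finset X} {q : ℝ} (hq : 0 ≤ q) (hH : Sparse Γ q H) (hU : U ⊆ H)
    (k : ℕ) :
    ((Finset.univ.filter fun t : Fin k → Γ => un F t = U).card : ℝ) ≤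
      2 * q ^ U.card * ((goodTuples (Γ := Γ) F H k U.card).card : ℝ) := by
  classical
  set T := Finset.univ.filter fun t : Fin k → Γ => un F t = U with hT
  set N := goodTuples (Γ := Γ) F H k U.card with hN
  have key : Fintype.card Γ * T.card ≤ stab Γ U * N.card := by
    have h1 : ((Finset.univ : Finset Γ) ×ˢ T).card ≤
        (N.sigma fun s => Finset.univ.filter fun g : Γ => g • U = un F s).card := by
      refine Finset.card_le_card_of_injOn (fun z => ⟨fun i => z.1 * z.2 i, z.1⟩) ?_ ?_
      · intro z hz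
        have hz' : un F z.2 = U := (Finset.mem_filter.1 (Finset.mem_product.1 hz).2).2
        refine Finset.mem_sigma.2 ⟨Finset.mem_filter.2 ⟨Finset.mem_univ _, ?_, z.1⁻¹, ?_⟩,
          Finset.mem_filter.2 ⟨Finset.mem_univ _, ?_⟩⟩
        · rw [← un_smul, hz', Finset.card_smul_finset]
        · rw [← un_smul, hz', inv_smul_smul]; exact hU
        · rw [← un_smul, hz']
      · intro a _ b _ hab
        simp only [Sigma.mk.injEq, heq_eq_eq] at hab
        refine Prod.ext hab.2 (funext fun i => ?_)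
        have := congrFun hab.1 i
        rw [hab.2] at this
        exact mul_left_cancel this
    rw [Finset.card_product, Finset.card_univ, Finset.card_sigma] at h1
    refine h1.trans ((Finset.sum_le_card_nsmul _ _ _ fun s _ => fiber_le_stab U _).trans ?_)
    rw [smul_eq_mul, mul_comm]
  have hΓ : (0 : ℝ) < (Fintype.card Γ : ℝ) := by exact_mod_cast Fintype.card_pos
  refine le_of_mul_le_mul_left ?_ hΓ
  calc (Fintype.card Γ : ℝ) * (T.card : ℝ) ≤ (stab Γ U : ℝ) * (N.card : ℝ) := by
        exact_mod_cast key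
    _ ≤ 2 * q ^ U.card * (Fintype.card Γ : ℝ) * (N.card : ℝ) :=
        mul_le_mul_of_nonneg_right (hH U hU) (Nat.cast_nonneg _)
    _ = _ := by ring

lemma choose_mul_le (a J : ℕ) (ha : 0 < a) : ((a * J).choose J : ℝ) ≤ (3 * (a : ℝ)) ^ J := by
  have ha' : (0 : ℝ) < a := by exact_mod_cast ha
  rcases Nat.eq_zero_or_pos J with rfl | hJ
  · simp
  have h1 : ((1 : ℝ) / a) ^ J * ((a * J).choose J : ℝ) ≤ ((1 : ℝ) / a + 1) ^ (a * J) := by
    rw [add_pow]
    refine le_trans (le_of_eq ?_) (Finset.single_le_sum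
      (f := fun i => ((1 : ℝ) / a) ^ i * 1 ^ (a * J - i) * ((a * J).choose i : ℝ))
      (fun i _ => by positivity)
      (Finset.mem_range.2 (show J < a * J + 1 by
        have := Nat.le_mul_of_pos_left J ha; omega)))
    simp
  have h2 : ((1 : ℝ) / a + 1) ^ a ≤ 3 := by
    have hb := pow_le_pow_left₀ (by positivity) (Real.add_one_le_exp ((1 : ℝ) / a)) a
    rw [← Real.exp_nat_mul, mul_one_div_cancel ha'.ne'] at hb
    linarith [Real.exp_one_lt_d9]
  have h3 : ((a * J).choose J : ℝ) ≤ (a : ℝ) ^ J * (3 : ℝ) ^ J := by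
    have := h1.trans (le_of_eq (pow_mul _ a J)) |>.trans (pow_le_pow_left₀ (by positivity) h2 J)
    rw [div_pow, one_pow, div_mul_eq_mul_div, one_mul, div_le_iff₀ (pow_pos ha' J)] at this
    linarith
  rw [mul_pow]
  linarith

/-- The main copy bound: translates of `F` inside a sparse set are few. -/
theorem copy_bound {H : Finset X} {q : ℝ} (hq : 0 ≤ q) (hH : Sparse Γ q H) {D : ℕ} (hD : 0 < D)
    (F : Finset X) : ∀ U ⊆ H, (cnt Γ F U : ℝ) ≤ (Fintype.card Γ : ℝ) *
      (6144 * ((D : ℝ) + 1) * q * (U.card : ℝ) ^ ((D : ℝ)⁻¹)) ^ F.card := by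
  classical
  induction F using Finset.strongInduction with
  | _ F ihF =>
  intro U₀ hU₀
  rcases F.eq_empty_or_nonempty with rfl | hF
  · simp [cnt_empty]
  set K : ℝ := 6144 * ((D : ℝ) + 1) with hK
  have hK0 : 0 < K := by positivity
  set p := K * q with hp
  have hp0 : 0 ≤ p := mul_nonneg hK0.le hq
  set e := F.card with he
  have he0 : 0 < e := hF.card_pos
  set w : ℕ → ℝ := fun m => (m : ℝ) ^ ((D : ℝ)⁻¹) with hw
  have hw0 : ∀ m, 0 ≤ w m := fun m => Real.rpow_nonneg (Nat.cast_nonneg _) _
  have hwD : ∀ m, w m ^ D = (m : ℝ) := fun m =>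
    Real.rpow_inv_natCast_pow (Nat.cast_nonneg _) hD.ne'
  have hwmono : ∀ {a b : ℕ}, a ≤ b → w a ≤ w b := fun {a b} h =>
    Real.rpow_le_rpow (Nat.cast_nonneg _) (Nat.cast_le.2 h) (by positivity)
  set N : ℝ := (Fintype.card Γ : ℝ) with hN
  have hN0 : 0 < N := by rw [hN]; exact_mod_cast Fintype.card_pos
  show (cnt Γ F U₀ : ℝ) ≤ N * (p * w U₀.card) ^ e
  by_contra hcon
  rw [not_le] at hcon
  set ratio : Finset X → ℝ := fun U => (cnt Γ F U : ℝ) / w U.card ^ e with hratio
  obtain ⟨G, hG, hGmax⟩ := Finset.exists_max_image H.powerset ratio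
    ⟨U₀, Finset.mem_powerset.2 hU₀⟩
  rw [Finset.mem_powerset] at hG
  have hzero : ∀ U : Finset X, U.card = 0 → cnt Γ F U = 0 := by
    intro U hU
    refine Finset.card_eq_zero.2 (Finset.filter_eq_empty_iff.2 fun g _ hg => ?_)
    rw [Finset.card_eq_zero.1 hU, Finset.subset_empty, Finset.smul_finset_eq_empty] at hg
    exact hF.ne_empty hg
  have hwpos : ∀ m, 0 < m → 0 < w m := fun m hm =>
    Real.rpow_pos_of_pos (Nat.cast_pos.2 hm) _
  have hU₀pos : 0 < U₀.card := by
    rcases Nat.eq_zero_or_pos U₀.card with h | h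
    · rw [hzero _ h] at hcon
      have : 0 ≤ N * (p * w U₀.card) ^ e :=
        mul_nonneg hN0.le (pow_nonneg (mul_nonneg hp0 (hw0 _)) _)
      push_cast at hcon
      linarith
    · exact h
  set z := ratio G with hz
  have hzbig : N * p ^ e < z := by
    refine lt_of_lt_of_le ?_ (hGmax U₀ (Finset.mem_powerset.2 hU₀))
    simp only [hratio]
    rw [lt_div_iff₀ (pow_pos (hwpos _ hU₀pos) e)]
    calc N * p ^ e * w U₀.card ^ e = N * (p * w U₀.card) ^ e := by
          rw [mul_pow p (w U₀.card) e, mul_assoc]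
      _ < _ := hcon
  have hzpos : 0 < z := lt_of_le_of_lt (mul_nonneg hN0.le (pow_nonneg hp0 _)) hzbig
  set m := G.card with hm
  have hmpos : 0 < m := by
    rcases Nat.eq_zero_or_pos m with h | h
    · rw [hz, hratio] at hzpos
      simp only [hzero G h, Nat.cast_zero, zero_div] at hzpos
      exact absurd hzpos (lt_irrefl _)
    · exact h
  set Xc : ℝ := (cnt Γ F G : ℝ) with hXc
  have hXeq : z * w m ^ e = Xc := by
    rw [hz, hratio]
    exact div_mul_cancel₀ _ (pow_pos (hwpos m hmpos) e).ne'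
  have hXpos : 0 < Xc := hXeq ▸ mul_pos hzpos (pow_pos (hwpos m hmpos) e)
  have hmax : ∀ U ⊆ H, (cnt Γ F U : ℝ) ≤ z * w U.card ^ e := by
    intro U hU
    rcases Nat.eq_zero_or_pos U.card with h | h
    · rw [hzero U h, Nat.cast_zero]
      exact mul_nonneg hzpos.le (pow_nonneg (hw0 _) _)
    · exact (div_le_iff₀ (pow_pos (hwpos _ h) e)).1 (hGmax U (Finset.mem_powerset.2 hU))
  have hw1 : 1 ≤ w m := Real.one_le_rpow (by exact_mod_cast hmpos) (by positivity)
  have hstep : ∀ U ⊆ H, U.card ≤ m → ∀ I ⊆ F,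
      (cnt Γ I U : ℝ) * p ^ (F.card - I.card) ≤ Xc := by
    intro U hU hUm I hI
    by_cases hIF : I = F
    · subst hIF
      simp only [Nat.sub_self, pow_zero, mul_one]
      exact (hmax U hU).trans (hXeq ▸ mul_le_mul_of_nonneg_left
        (pow_le_pow_left₀ (hw0 _) (hwmono hUm) _) hzpos.le)
    · have hb := ihF I (Finset.ssubset_iff_subset_ne.2 ⟨hI, hIF⟩) U hU
      have hb' : (cnt Γ I U : ℝ) ≤ N * (p * w U.card) ^ I.card := hb
      have hIe : I.card ≤ F.card := Finset.card_le_card hI
      calc (cnt Γ I U : ℝ) * p ^ (F.card - I.card)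
          ≤ N * (p * w U.card) ^ I.card * p ^ (F.card - I.card) :=
            mul_le_mul_of_nonneg_right hb' (pow_nonneg hp0 _)
        _ = N * p ^ e * w U.card ^ I.card := by
            rw [mul_pow, he, show F.card = I.card + (F.card - I.card) by omega, pow_add]
            simp only [Nat.add_sub_cancel_left]
            ring
        _ ≤ z * w m ^ e := by
            refine mul_le_mul hzbig.le ?_ (pow_nonneg (hw0 _) _) hzpos.le
            exact (pow_le_pow_left₀ (hw0 _) (hwmono hUm) _).trans
              (pow_le_pow_right₀ hw1 hIe)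
        _ = Xc := hXeq
  -- the tuples
  set k := D * m / e + 1 with hk
  have hkl : D * m ≤ k * e := by
    rw [hk, Nat.succ_mul]
    have h1 := Nat.mod_add_div (D * m) e
    have h2 := Nat.mod_lt (D * m) he0
    have h3 : D * m / e * e = e * (D * m / e) := Nat.mul_comm _ _
    omega
  have hem : e ≤ m := by
    obtain ⟨g, hg⟩ := Finset.card_pos.1 (show 0 < cnt Γ F G by
      have h' : (0 : ℝ) < (cnt Γ F G : ℝ) := hXpos
      exact_mod_cast h')
    rw [he, ← Finset.card_smul_finset g F]
    exact Finset.card_le_card (Finset.mem_filter.1 hg).2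
  have hkr : k * e ≤ (D + 1) * m := by
    rw [hk, Nat.succ_mul, Nat.succ_mul]
    have h1 := Nat.div_mul_le_self (D * m) e
    omega
  set S := Fintype.piFinset (fun _ : Fin k => Finset.univ.filter fun g : Γ => g • F ⊆ G) with hS
  have hScard : (S.card : ℝ) = Xc ^ k := by
    rw [hS, Fintype.card_piFinset_const, hXc, cnt]
    push_cast
    rfl
  have hunG : ∀ t ∈ S, un F t ⊆ G := fun t ht => Finset.biUnion_subset.2 fun i _ =>
    (Finset.mem_filter.1 (Fintype.mem_piFinset.1 ht i)).2
  have havoid : ∀ x ∈ G, ((S.filter fun t => x ∉ un F t).card : ℝ) ≤ 1 / 2 * Xc ^ k := by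
    intro x hx
    have hsub : (S.filter fun t => x ∉ un F t) ⊆ Fintype.piFinset
        (fun _ : Fin k => Finset.univ.filter fun g : Γ => g • F ⊆ G.erase x) := by
      intro t ht
      obtain ⟨ht1, ht2⟩ := Finset.mem_filter.1 ht
      refine Fintype.mem_piFinset.2 fun i => Finset.mem_filter.2 ⟨Finset.mem_univ _, fun y hy => ?_⟩
      refine Finset.mem_erase.2 ⟨?_, (Finset.mem_filter.1 (Fintype.mem_piFinset.1 ht1 i)).2 hy⟩
      rintro rfl
      exact ht2 (Finset.mem_biUnion.2 ⟨i, Finset.mem_univ _, hy⟩)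
    have hc : ((S.filter fun t => x ∉ un F t).card : ℝ) ≤ (cnt Γ F (G.erase x) : ℝ) ^ k := by
      have := Finset.card_le_card hsub
      rw [Fintype.card_piFinset_const] at this
      exact_mod_cast this
    refine hc.trans ?_
    have h1 := hmax (G.erase x) ((Finset.erase_subset _ _).trans hG)
    rw [Finset.card_erase_of_mem hx] at h1
    set r := w (m - 1) / w m with hr
    have hr0 : 0 ≤ r := div_nonneg (hw0 _) (hw0 _)
    have hr1 : r ≤ 1 := (div_le_one (hwpos m hmpos)).2 (hwmono (Nat.sub_le _ _))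
    have h2 : (cnt Γ F (G.erase x) : ℝ) ≤ Xc * r ^ e := by
      refine h1.trans (le_of_eq ?_)
      rw [← hXeq, mul_assoc, ← mul_pow, mul_div_cancel₀ _ (hwpos m hmpos).ne']
    refine (pow_le_pow_left₀ (Nat.cast_nonneg _) h2 k).trans ?_
    rw [mul_pow, mul_comm (Xc ^ k), ← pow_mul, mul_comm e k]
    refine mul_le_mul_of_nonneg_right ?_ (pow_nonneg hXpos.le _)
    refine (pow_le_pow_of_le_one hr0 hr1 hkl).trans ?_
    rw [pow_mul, div_pow, hwD, hwD]
    have hm' : (0 : ℝ) < m := by exact_mod_cast hmpos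
    have h3 : ((m - 1 : ℕ) : ℝ) / m ≤ Real.exp (-(1 / m)) := by
      refine le_trans (le_of_eq ?_) (Real.add_one_le_exp _)
      rw [Nat.cast_sub (Nat.one_le_iff_ne_zero.2 hmpos.ne'), sub_div, div_self hm'.ne']
      push_cast
      ring
    have h4 := pow_le_pow_left₀ (by positivity) h3 m
    rw [← Real.exp_nat_mul, mul_neg, mul_one_div_cancel hm'.ne'] at h4
    exact h4.trans (by linarith [Real.exp_neg_one_lt_d9])
  set Big := S.filter fun t => m ≤ 4 * (un F t).card with hBig
  have hbiglower : 1 / 4 * Xc ^ k ≤ (Big.card : ℝ) := by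
    have hswap : ∑ t ∈ S, ((G.filter fun x => x ∉ un F t).card : ℝ) =
        ∑ x ∈ G, ((S.filter fun t => x ∉ un F t).card : ℝ) := by
      exact_mod_cast Finset.sum_card_bipartiteAbove_eq_sum_card_bipartiteBelow
        (r := fun t x => x ∉ un F t) (s := S) (t := G)
    have hup : ∑ x ∈ G, ((S.filter fun t => x ∉ un F t).card : ℝ) ≤
        (m : ℝ) * (1 / 2 * Xc ^ k) := by
      refine (Finset.sum_le_card_nsmul _ _ _ havoid).trans (le_of_eq ?_)
      rw [nsmul_eq_mul]
    have hlow : ∀ t ∈ S \ Big, 3 / 4 * (m : ℝ) ≤ ((G.filter fun x => x ∉ un F t).card : ℝ) := by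
      intro t ht
      obtain ⟨ht1, ht2⟩ := Finset.mem_sdiff.1 ht
      have hsm : 4 * (un F t).card < m := not_le.1 fun h => ht2 (Finset.mem_filter.2 ⟨ht1, h⟩)
      have hfeq : (G.filter fun x => x ∉ un F t) = G \ un F t := by ext; simp
      rw [hfeq, Finset.card_sdiff_of_subset (hunG t ht1),
        Nat.cast_sub (Finset.card_le_card (hunG t ht1))]
      have : (4 : ℝ) * ((un F t).card : ℝ) ≤ m := by exact_mod_cast hsm.le
      linarith
    have h1 : ((S \ Big).card : ℝ) * (3 / 4 * m) ≤ (m : ℝ) * (1 / 2 * Xc ^ k) := by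
      refine le_trans ?_ ((le_of_eq hswap).trans hup)
      refine le_trans ?_ (Finset.sum_le_sum_of_subset_of_nonneg (Finset.sdiff_subset : S \ Big ⊆ S)
        fun _ _ _ => Nat.cast_nonneg _)
      refine le_trans (le_of_eq ?_) (Finset.card_nsmul_le_sum _ _ _ hlow)
      rw [nsmul_eq_mul]
    have hsplit : ((S \ Big).card : ℝ) + Big.card = Xc ^ k := by
      rw [← hScard, ← Nat.cast_add, Finset.card_sdiff_add_card_eq_card (Finset.filter_subset _ _)]
    have hm' : (0 : ℝ) < m := by exact_mod_cast hmpos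
    have h2 : ((S \ Big).card : ℝ) * (3 / 4) ≤ 1 / 2 * Xc ^ k := by
      refine le_of_mul_le_mul_left ?_ hm'
      linarith
    have := pow_pos hXpos k
    linarith
  have hbigupper : (Big.card : ℝ) ≤ 2 * (∑ J ∈ Finset.Ioc 0 m, (1 / 32 : ℝ) ^ J) * Xc ^ k := by
    have hmaps : ∀ t ∈ Big, (un F t).card ∈ Finset.Ioc 0 m := by
      intro t ht
      obtain ⟨ht1, ht2⟩ := Finset.mem_filter.1 ht
      exact Finset.mem_Ioc.2 ⟨by omega, Finset.card_le_card (hunG t ht1)⟩
    rw [Finset.card_eq_sum_card_fiberwise hmaps, Nat.cast_sum, Finset.mul_sum, Finset.sum_mul]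
    refine Finset.sum_le_sum fun J hJ => ?_
    obtain ⟨hJ0, hJm⟩ := Finset.mem_Ioc.1 hJ
    set BJ := Big.filter fun t => (un F t).card = J with hBJ
    rcases BJ.eq_empty_or_nonempty with h | ⟨t₀, ht₀⟩
    · simp only [h, Finset.card_empty, Nat.cast_zero]; positivity
    have h4J : m ≤ 4 * J := by
      obtain ⟨h1, h2⟩ := Finset.mem_filter.1 ht₀
      exact h2 ▸ (Finset.mem_filter.1 h1).2
    have hmaps' : ∀ t ∈ BJ, un F t ∈ G.powersetCard J := fun t ht => Finset.mem_powersetCard.2
      ⟨hunG t (Finset.mem_filter.1 (Finset.mem_filter.1 ht).1).1, (Finset.mem_filter.1 ht).2⟩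
    have hb : ∀ U ∈ G.powersetCard J, ((BJ.filter fun t => un F t = U).card : ℝ) ≤
        2 * q ^ J * ((goodTuples (Γ := Γ) F H k J).card : ℝ) := by
      intro U hU
      obtain ⟨hUG, hUc⟩ := Finset.mem_powersetCard.1 hU
      refine le_trans (Nat.cast_le.2 (Finset.card_le_card ?_))
        (hUc ▸ tuples_eq_bound hq hH (hUG.trans hG) k)
      exact fun t ht => Finset.mem_filter.2 ⟨Finset.mem_univ _, (Finset.mem_filter.1 ht).2⟩
    have hgood := good_bound (Γ := Γ) hp0 hXpos.le hstep k J hJm
    rw [hp, mul_pow] at hgood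
    have hc1 : (m.choose J : ℝ) ≤ (16 : ℝ) ^ J := by
      calc (m.choose J : ℝ) ≤ (2 : ℝ) ^ m := by exact_mod_cast Nat.choose_le_two_pow m J
        _ ≤ (2 : ℝ) ^ (4 * J) := pow_le_pow_right₀ (by norm_num) h4J
        _ = 16 ^ J := by rw [pow_mul]; norm_num
    have hc2 : ((k * e).choose J : ℝ) ≤ (3 * ((4 * (D + 1) : ℕ) : ℝ)) ^ J := by
      refine le_trans (Nat.cast_le.2 (Nat.choose_le_choose J (hkr.trans ?_)))
        (choose_mul_le (4 * (D + 1)) J (by omega))
      rw [Nat.mul_comm 4, Nat.mul_assoc]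
      exact Nat.mul_le_mul_left _ h4J
    have hkey : ((BJ.card : ℝ)) * K ^ J ≤
        2 * (16 : ℝ) ^ J * (3 * ((4 * (D + 1) : ℕ) : ℝ)) ^ J * Xc ^ k := by
      calc (BJ.card : ℝ) * K ^ J
          ≤ (m.choose J : ℝ) * (2 * q ^ J * ((goodTuples (Γ := Γ) F H k J).card : ℝ)) * K ^ J := by
            refine mul_le_mul_of_nonneg_right ?_ (pow_nonneg hK0.le _)
            rw [Finset.card_eq_sum_card_fiberwise hmaps', Nat.cast_sum]
            refine (Finset.sum_le_card_nsmul _ _ _ hb).trans (le_of_eq ?_)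
            rw [nsmul_eq_mul, Finset.card_powersetCard, hm]
        _ = 2 * (m.choose J : ℝ) *
              (((goodTuples (Γ := Γ) F H k J).card : ℝ) * (K ^ J * q ^ J)) := by ring
        _ ≤ 2 * (m.choose J : ℝ) * (((k * e).choose J : ℝ) * Xc ^ k) :=
            mul_le_mul_of_nonneg_left hgood (by positivity)
        _ ≤ 2 * (16 : ℝ) ^ J * ((3 * ((4 * (D + 1) : ℕ) : ℝ)) ^ J * Xc ^ k) := by
            gcongr
        _ = _ := by ring
    rw [← le_div_iff₀ (pow_pos hK0 J)] at hkey
    refine hkey.trans (le_of_eq ?_)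
    rw [div_pow, one_pow, hK]
    push_cast
    rw [show (6144 : ℝ) * ((D : ℝ) + 1) = 32 * (16 * (3 * (4 * ((D : ℝ) + 1)))) by ring,
      mul_pow, mul_pow]
    field_simp
    simp only [mul_pow]
    ring
  have hsum : ∑ J ∈ Finset.Ioc 0 m, (1 / 32 : ℝ) ^ J ≤ 1 / 31 := by
    have : ∀ a : ℕ, ∑ J ∈ Finset.Ioc 0 a, (1 / 32 : ℝ) ^ J = (1 - (1 / 32) ^ a) / 31 := by
      intro a
      induction a with
      | zero => simp
      | succ a ih => rw [Finset.sum_Ioc_succ_top (Nat.zero_le a), ih, pow_succ]; ring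
    rw [this]
    have : (0 : ℝ) ≤ (1 / 32) ^ m := by positivity
    linarith
  have := pow_pos hXpos k
  nlinarith

end Vale.Agent.P064
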