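import Mathlib
import Vale.Agent.P064.Defs
import Vale.Agent.P064.Bernoulli
import Vale.Agent.P064.CopyBound

/-! Copies of a graph as pairs (vertex image, edge image). -/

namespace Vale.Agent.P064

open Finset SimpleGraph

open scoped Pointwise

/-- Permutations act on unordered pairs. -/
noncomputable instance permSym2Action (A : Type*) : MulAction (Equiv.Perm A) (Sym2 A) where
  smul g e := e.map g
  one_smul e := by
    show e.map (1 : Equiv.Perm A) = e
    simp
  mul_smul g h e := by
    show e.map (g * h : Equiv.Perm A) = (e.map h).map g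
    rw [Sym2.map_map]; rfl

lemma perm_sym2_smul {A : Type*} (g : Equiv.Perm A) (e : Sym2 A) : g • e = e.map g := rfl

section

open scoped Classical

variable {A W : Type} [Fintype A] [DecidableEq A] [Fintype W]

/-- The vertex image and the edge image of an injection. -/
noncomputable def key (F : SimpleGraph W) (f : W ↪ A) : Finset A × Finset (Sym2 A) :=
  (Finset.univ.image f, F.edgeFinset.image (Sym2.map f))

/-- All possible copies of `F` on the vertex type `A`. -/
noncomputable def keys (A : Type) [Fintype A] [DecidableEq A] (F : SimpleGraph W) :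
    Finset (Finset A × Finset (Sym2 A)) :=
  (Finset.univ : Finset (W ↪ A)).image (key F)

lemma key_card (F : SimpleGraph W) (f : W ↪ A) :
    (key F f).2.card = F.edgeFinset.card :=
  Finset.card_image_of_injective _ (Sym2.map.injective f.injective)

lemma keys_card_edge {F : SimpleGraph W} {κ : Finset A × Finset (Sym2 A)} (h : κ ∈ keys A F) :
    κ.2.card = F.edgeFinset.card := by
  obtain ⟨f, -, rfl⟩ := Finset.mem_image.1 h
  exact key_card F f

lemma key_edges_subset_iff (F : SimpleGraph W) (f : W ↪ A) (G : SimpleGraph A) :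
    (key F f).2 ⊆ G.edgeFinset ↔ ∀ a b, F.Adj a b → G.Adj (f a) (f b) := by
  constructor
  · intro h a b hab
    have := h (Finset.mem_image.2 ⟨s(a, b), SimpleGraph.mem_edgeFinset.2 hab, rfl⟩)
    simpa using this
  · intro h e he
    obtain ⟨e', he', rfl⟩ := Finset.mem_image.1 he
    induction e' using Sym2.ind with
    | _ a b => simpa using h a b (by simpa using he')

/-- The number of copies of `F` in `G`. -/
lemma copyCount_eq_keys (F : SimpleGraph W) (G : SimpleGraph A) :
    G.copyCount F = ((keys A F).filter fun κ => κ.2 ⊆ G.edgeFinset).card := by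
  rw [SimpleGraph.copyCount_eq_card_image_copyToSubgraph]
  refine Finset.card_bij (fun S _ => (S.verts.toFinset, S.edgeSet.toFinset)) ?_ ?_ ?_
  · intro S hS
    obtain ⟨c, -, rfl⟩ := Finset.mem_image.1 hS
    refine Finset.mem_filter.2 ⟨Finset.mem_image.2 ⟨c.toEmbedding, Finset.mem_univ _, ?_⟩, ?_⟩
    · refine Prod.ext ?_ ?_
      · ext a
        simp [key, SimpleGraph.Copy.toEmbedding, SimpleGraph.Copy.toSubgraph]
      · ext e
        induction e using Sym2.ind with
        | _ a b =>
          simp only [key, Finset.mem_image, SimpleGraph.mem_edgeFinset, Set.mem_toFinset,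
            SimpleGraph.Subgraph.mem_edgeSet]
          constructor
          · rintro ⟨e', he', hmap⟩
            induction e' using Sym2.ind with
            | _ x y =>
              simp only [Sym2.map_mk, Sym2.eq_iff] at hmap
              rcases hmap with ⟨rfl, rfl⟩ | ⟨rfl, rfl⟩
              · exact ⟨x, y, he', rfl, rfl⟩
              · exact ⟨y, x, (show F.Adj x y from he').symm, rfl, rfl⟩
          · rintro ⟨x, y, hxy, rfl, rfl⟩
            exact ⟨s(x, y), hxy, rfl⟩
    · intro e he
      rw [Set.mem_toFinset] at he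
      exact SimpleGraph.mem_edgeFinset.2 (SimpleGraph.Subgraph.edgeSet_subset _ he)
  · intro S _ T _ h
    simp only [Prod.mk.injEq, Set.toFinset_inj] at h
    refine SimpleGraph.Subgraph.ext h.1 (funext fun a => funext fun b => propext ?_)
    rw [← SimpleGraph.Subgraph.mem_edgeSet, h.2, SimpleGraph.Subgraph.mem_edgeSet]
  · intro κ hκ
    obtain ⟨hκ1, hκ2⟩ := Finset.mem_filter.1 hκ
    obtain ⟨f, -, rfl⟩ := Finset.mem_image.1 hκ1
    let c : SimpleGraph.Copy F G :=
      ⟨⟨f, fun {a b} h => (key_edges_subset_iff F f G).1 hκ2 a b h⟩, f.injective⟩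
    refine ⟨c.toSubgraph, Finset.mem_image.2 ⟨c, Finset.mem_univ _, rfl⟩, ?_⟩
    refine Prod.ext ?_ ?_
    · ext a
      simp [key, c, SimpleGraph.Copy.toSubgraph]
    · ext e
      induction e using Sym2.ind with
      | _ a b =>
        simp only [key, Finset.mem_image, SimpleGraph.mem_edgeFinset, Set.mem_toFinset,
          SimpleGraph.Subgraph.mem_edgeSet]
        constructor
        · rintro ⟨x, y, hxy, rfl, rfl⟩
          exact ⟨s(x, y), hxy, rfl⟩
        · rintro ⟨e', he', hmap⟩
          induction e' using Sym2.ind with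
          | _ x y =>
            simp only [Sym2.map_mk, Sym2.eq_iff] at hmap
            rcases hmap with ⟨rfl, rfl⟩ | ⟨rfl, rfl⟩
            · exact ⟨x, y, he', rfl, rfl⟩
            · exact ⟨y, x, (show F.Adj x y from he').symm, rfl, rfl⟩

variable (n : ℕ)

/-- The edges of `K_n`. -/
noncomputable def allEdges : Finset (Sym2 (Fin n)) := (⊤ : SimpleGraph (Fin n)).edgeFinset

lemma allEdges_card : (allEdges n).card = n.choose 2 := by
  rw [allEdges, SimpleGraph.card_edgeFinset_top_eq_card_choose_two, Fintype.card_fin]

lemma sum_graphs (p : ℝ) (φ : Finset (Sym2 (Fin n)) → ℝ) :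
    ∑ G : SimpleGraph (Fin n), gnpWeight n p G * φ G.edgeFinset = ex (allEdges n) p φ := by
  refine Finset.sum_bij (fun G _ => G.edgeFinset) ?_ ?_ ?_ ?_
  · intro G _
    exact Finset.mem_powerset.2 (SimpleGraph.edgeFinset_mono le_top)
  · intro G _ G' _ h
    exact SimpleGraph.edgeFinset_inj.1 h
  · intro W hW
    refine ⟨SimpleGraph.fromEdgeSet (W : Set (Sym2 (Fin n))), Finset.mem_univ _, ?_⟩
    ext e
    simp only [SimpleGraph.mem_edgeFinset, SimpleGraph.edgeSet_fromEdgeSet, Set.mem_diff,
      Finset.mem_coe]
    constructor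
    · exact fun h => h.1
    · intro he
      refine ⟨he, ?_⟩
      have := Finset.mem_powerset.1 hW he
      simpa [allEdges] using this
  · intro G _
    simp [gnpWeight, wt, allEdges_card]

variable {n}

lemma keys_subset_allEdges {F : SimpleGraph W} {κ : Finset (Fin n) × Finset (Sym2 (Fin n))}
    (h : κ ∈ keys (Fin n) F) : κ.2 ⊆ allEdges n := by
  obtain ⟨f, -, rfl⟩ := Finset.mem_image.1 h
  intro e he
  have := (key_edges_subset_iff F f ⊤).2 (fun a b hab => f.injective.ne hab.ne) he
  simpa [allEdges] using this

/-- Number of possible copies lying in the edge set `E`. -/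
noncomputable def keyIndicator (F : SimpleGraph W) (E : Finset (Sym2 (Fin n))) : ℝ :=
  ∑ κ ∈ keys (Fin n) F, if κ.2 ⊆ E then (1 : ℝ) else 0

lemma copyCount_eq_indicator (F : SimpleGraph W) (G : SimpleGraph (Fin n)) :
    (G.copyCount F : ℝ) = keyIndicator F G.edgeFinset := by
  rw [keyIndicator, Finset.sum_boole, copyCount_eq_keys F G]

/-- The expected number of copies is the number of possible copies times `p^e`. -/
lemma expCopies_eq (p : ℝ) (F : SimpleGraph W) :
    expCopies n p F = ((keys (Fin n) F).card : ℝ) * p ^ F.edgeFinset.card := by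
  have h1 : expCopies n p F =
      ∑ G : SimpleGraph (Fin n), gnpWeight n p G * keyIndicator F G.edgeFinset := by
    unfold expCopies
    exact Finset.sum_congr rfl fun G _ => by rw [copyCount_eq_indicator F G]
  rw [h1, sum_graphs n p (keyIndicator F)]
  unfold keyIndicator
  rw [ex_sum, Finset.sum_congr rfl (fun κ hκ => ?_), Finset.sum_const, nsmul_eq_mul]
  rw [ex_superset p (keys_subset_allEdges hκ), keys_card_edge hκ]

end

end Vale.Agent.P064
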