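import Mathlib
import Vale.Agent.P064.Keys

/-! Translates of an edge set inside a sparse edge set of bounded degree.

A maximal disjoint family of translates of a connected set is small by sparsity, every translate
meets it, and few connected sets of a given size contain a given edge. Components are then
combined through the number of injective placements. -/

namespace Vale.Agent.P064.BDeg

open Finset

open scoped Pointwise

/-! ### Connected sets containing a point -/

section trees

variable {X : Type*} [DecidableEq X]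

/-- Sets swept out by trees with `k` steps from `x` along `nb`. -/
noncomputable def trees (nb : X → Finset X) : ℕ → X → Finset (Finset X)
  | 0, x => {{x}}
  | k + 1, x => (Finset.univ : Finset (Fin (k + 1))).biUnion fun i => (nb x).biUnion fun y =>
      (trees nb (i : ℕ) x ×ˢ trees nb (k - (i : ℕ)) y).image fun z => z.1 ∪ z.2
  termination_by k => k
  decreasing_by all_goals omega

lemma mem_trees_succ {nb : X → Finset X} {k : ℕ} {x : X} {S : Finset X} :
    S ∈ trees nb (k + 1) x ↔ ∃ i : ℕ, i ≤ k ∧ ∃ y ∈ nb x, ∃ A ∈ trees nb i x,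
      ∃ B ∈ trees nb (k - i) y, A ∪ B = S := by
  rw [trees]
  simp only [Finset.mem_biUnion, Finset.mem_univ, true_and, Finset.mem_image, Finset.mem_product,
    Prod.exists]
  constructor
  · rintro ⟨i, y, hy, A, B, ⟨hA, hB⟩, rfl⟩
    exact ⟨i, Nat.le_of_lt_succ i.2, y, hy, A, hA, B, hB, rfl⟩
  · rintro ⟨i, hi, y, hy, A, hA, B, hB, rfl⟩
    exact ⟨⟨i, Nat.lt_succ_of_le hi⟩, y, hy, A, B, ⟨hA, hB⟩, rfl⟩

lemma mem_trees_zero {nb : X → Finset X} {x : X} {S : Finset X} :
    S ∈ trees nb 0 x ↔ S = {x} := by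
  rw [trees, Finset.mem_singleton]

lemma trees_grow (nb : X → Finset X) : ∀ (k : ℕ) (x : X) (S : Finset X), S ∈ trees nb k x →
    ∀ a ∈ S, ∀ b ∈ nb a, insert b S ∈ trees nb (k + 1) x := by
  intro k
  induction k using Nat.strong_induction_on with
  | _ k ih =>
    intro x S hS a ha b hb
    rcases k with _ | k
    · rw [mem_trees_zero] at hS
      subst hS
      rw [Finset.mem_singleton] at ha
      subst ha
      refine mem_trees_succ.2 ⟨0, le_rfl, b, hb, {a}, mem_trees_zero.2 rfl, {b},
        mem_trees_zero.2 rfl, ?_⟩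
      rw [Finset.union_comm, ← Finset.insert_eq]
    · obtain ⟨i, hi, y, hy, A, hA, B, hB, rfl⟩ := mem_trees_succ.1 hS
      rcases Finset.mem_union.1 ha with h | h
      · refine mem_trees_succ.2 ⟨i + 1, by omega, y, hy, insert b A,
          ih i (by omega) x A hA a h b hb, B, ?_, Finset.insert_union b A B⟩
        rw [show k + 1 - (i + 1) = k - i by omega]
        exact hB
      · refine mem_trees_succ.2 ⟨i, by omega, y, hy, A, hA, insert b B, ?_,
          Finset.union_insert b A B⟩
        rw [show k + 1 - i = k - i + 1 by omega]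
        exact ih (k - i) (by omega) y B hB a h b hb

lemma trees_card_le (nb : X → Finset X) {d : ℕ} (hd : ∀ x, (nb x).card ≤ d) :
    ∀ (k : ℕ) (x : X), (trees nb k x).card ≤ catalan k * d ^ k := by
  intro k
  induction k using Nat.strong_induction_on with
  | _ k ih =>
    intro x
    rcases k with _ | k
    · rw [trees]; simp
    · rw [trees, catalan_succ, Finset.sum_mul]
      refine Finset.card_biUnion_le.trans (Finset.sum_le_sum fun i _ => ?_)
      refine Finset.card_biUnion_le.trans ?_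
      have hi : (i : ℕ) ≤ k := Nat.le_of_lt_succ i.2
      calc ∑ y ∈ nb x, ((trees nb (i : ℕ) x ×ˢ trees nb (k - (i : ℕ)) y).image
            fun z => z.1 ∪ z.2).card
          ≤ ∑ _y ∈ nb x, (catalan i * d ^ (i : ℕ)) * (catalan (k - i) * d ^ (k - (i : ℕ))) := by
            refine Finset.sum_le_sum fun y _ => Finset.card_image_le.trans ?_
            rw [Finset.card_product]
            exact Nat.mul_le_mul (ih i (by omega) x) (ih (k - i) (by omega) y)
        _ ≤ d * ((catalan i * d ^ (i : ℕ)) * (catalan (k - i) * d ^ (k - (i : ℕ)))) := by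
            rw [Finset.sum_const, smul_eq_mul]
            exact Nat.mul_le_mul_right _ (hd x)
        _ = catalan i * catalan (k - i) * (d ^ ((i : ℕ) + (k - i)) * d) := by
            rw [pow_add]; ring
        _ = catalan i * catalan (k - i) * d ^ (k + 1) := by
            rw [Nat.add_sub_cancel' hi, pow_succ]

lemma catalan_le (k : ℕ) : catalan k ≤ 4 ^ k := by
  rw [catalan_eq_centralBinom_div, Nat.centralBinom]
  refine (Nat.div_le_self _ _).trans ((Nat.choose_le_two_pow _ _).trans (le_of_eq ?_))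
  rw [pow_mul]
  norm_num

end trees

/-! ### Edge sets -/

open scoped Classical

variable {n : ℕ}

/-- The vertices covered by an edge set. -/
def vset (F : Finset (Sym2 (Fin n))) : Finset (Fin n) :=
  Finset.univ.filter fun a => ∃ e ∈ F, a ∈ e

lemma mem_vset {F : Finset (Sym2 (Fin n))} {a : Fin n} :
    a ∈ vset F ↔ ∃ e ∈ F, a ∈ e := by simp [vset]

lemma vset_card_le (F : Finset (Sym2 (Fin n))) : (vset F).card ≤ 2 * F.card := by
  have h : vset F ⊆ F.biUnion fun e => e.toFinset := fun a ha => by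
    obtain ⟨e, he, hae⟩ := mem_vset.1 ha
    exact Finset.mem_biUnion.2 ⟨e, he, Sym2.mem_toFinset.2 hae⟩
  refine (Finset.card_le_card h).trans ?_
  rw [mul_comm]
  refine Finset.card_biUnion_le_card_mul _ _ _ fun e _ => ?_
  induction e using Sym2.ind with
  | _ a b =>
    rw [Sym2.toFinset_mk_eq]
    exact Finset.card_le_two

/-- Two edges share an endpoint. -/
def Touch (a b : Sym2 (Fin n)) : Prop := ∃ v, v ∈ a ∧ v ∈ b

/-- No proper split of the edge set into two parts without a common vertex. -/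
def Conn (F : Finset (Sym2 (Fin n))) : Prop :=
  ∀ S ⊆ F, S.Nonempty → (F \ S).Nonempty → ∃ a ∈ S, ∃ b ∈ F \ S, Touch a b

lemma Conn.smul {F : Finset (Sym2 (Fin n))} (hF : Conn F) (g : Equiv.Perm (Fin n)) :
    Conn (g • F) := by
  intro S hS hne hne'
  have hS' : g⁻¹ • S ⊆ F := by
    rw [← inv_smul_smul g F]
    exact Finset.smul_finset_subset_smul_finset hS
  have hd : F \ g⁻¹ • S = g⁻¹ • (g • F \ S) := by
    rw [Finset.smul_finset_sdiff, inv_smul_smul]
  obtain ⟨a, ha, b, hb, v, hva, hvb⟩ := hF _ hS' hne.smul_finset (hd ▸ hne'.smul_finset)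
  have hmap : ∀ c : Sym2 (Fin n), v ∈ c → g v ∈ g • c := fun c hc => by
    rw [perm_sym2_smul]
    exact Sym2.mem_map.2 ⟨v, hc, rfl⟩
  refine ⟨g • a, ?_, g • b, ?_, g v, hmap a hva, hmap b hvb⟩
  · exact Finset.mem_inv_smul_finset_iff.1 ha
  · rw [hd] at hb; exact Finset.mem_inv_smul_finset_iff.1 hb

lemma exists_tree {F E : Finset (Sym2 (Fin n))} (hF : Conn F) (hFE : F ⊆ E)
    {x : Sym2 (Fin n)} (hx : x ∈ F) :
    F ∈ trees (fun a => E.filter (Touch a)) (F.card - 1) x := by
  have key : ∀ k, k < F.card → ∃ S, S ⊆ F ∧ x ∈ S ∧ S.card = k + 1 ∧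
      S ∈ trees (fun a => E.filter (Touch a)) k x := by
    intro k
    induction k with
    | zero =>
      intro _
      exact ⟨{x}, Finset.singleton_subset_iff.2 hx, Finset.mem_singleton_self x,
        Finset.card_singleton x, mem_trees_zero.2 rfl⟩
    | succ k ih =>
      intro hk
      obtain ⟨S, hSF, hxS, hSc, hST⟩ := ih (by omega)
      have hne : (F \ S).Nonempty := by
        rw [← Finset.card_pos, Finset.card_sdiff_of_subset hSF]
        omega
      obtain ⟨a, ha, b, hb, hab⟩ := hF S hSF ⟨x, hxS⟩ hne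
      obtain ⟨hbF, hbS⟩ := Finset.mem_sdiff.1 hb
      refine ⟨insert b S, Finset.insert_subset hbF hSF, Finset.mem_insert_of_mem hxS, ?_,
        trees_grow _ k x S hST a ha b (Finset.mem_filter.2 ⟨hFE hbF, hab⟩)⟩
      rw [Finset.card_insert_of_notMem hbS, hSc]
  have hpos : 0 < F.card := Finset.card_pos.2 ⟨x, hx⟩
  obtain ⟨S, hSF, -, hSc, hST⟩ := key (F.card - 1) (by omega)
  have : S = F := Finset.eq_of_subset_of_card_le hSF (by omega)
  exact this ▸ hST

lemma touch_card_le {E : Finset (Sym2 (Fin n))} {Δ : ℕ}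
    (hdeg : ∀ v, (E.filter fun e => v ∈ e).card ≤ Δ) (a : Sym2 (Fin n)) :
    (E.filter (Touch a)).card ≤ 2 * Δ := by
  induction a using Sym2.ind with
  | _ u w =>
    refine (Finset.card_le_card (t := (E.filter fun e => u ∈ e) ∪ (E.filter fun e => w ∈ e))
      fun e he => ?_).trans
      ((Finset.card_union_le _ _).trans (by have := hdeg u; have := hdeg w; omega))
    obtain ⟨heE, v, hv, hve⟩ := Finset.mem_filter.1 he
    rcases Sym2.mem_iff.1 hv with rfl | rfl
    · exact Finset.mem_union_left _ (Finset.mem_filter.2 ⟨heE, hve⟩)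
    · exact Finset.mem_union_right _ (Finset.mem_filter.2 ⟨heE, hve⟩)

/-! ### Orbits and placements -/

/-- Orbit size times stabiliser size is the group size. -/
lemma orbit_mul_stab (F : Finset (Sym2 (Fin n))) :
    ((Finset.univ : Finset (Equiv.Perm (Fin n))).image fun g => g • F).card *
      stab (Equiv.Perm (Fin n)) F = Fintype.card (Equiv.Perm (Fin n)) := by
  have h : ∀ Y ∈ (Finset.univ : Finset (Equiv.Perm (Fin n))).image (fun g => g • F),
      ((Finset.univ : Finset (Equiv.Perm (Fin n))).filter fun g => g • F = Y).card =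
        stab (Equiv.Perm (Fin n)) F := by
    intro Y hY
    obtain ⟨g₀, -, rfl⟩ := Finset.mem_image.1 hY
    refine le_antisymm (fiber_le_stab F _) (Finset.card_le_card_of_injOn (fun g => g₀ * g) ?_ ?_)
    · intro g hg
      refine Finset.mem_filter.2 ⟨Finset.mem_univ _, ?_⟩
      rw [mul_smul, (Finset.mem_filter.1 hg).2]
    · intro a _ b _ hab
      exact mul_left_cancel hab
  rw [← Finset.card_univ, Finset.card_eq_sum_card_image (fun g => g • F) Finset.univ,
    Finset.sum_congr rfl h, Finset.sum_const, smul_eq_mul]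

/-- Placements of a vertex set coming from permutations moving `F` into `E`. -/
noncomputable def restr (F E : Finset (Sym2 (Fin n))) (S : Finset (Fin n)) :
    Finset (↥S → Fin n) :=
  ((Finset.univ : Finset (Equiv.Perm (Fin n))).filter fun g => g • F ⊆ E).image
    fun g a => g a

lemma smul_congr {F : Finset (Sym2 (Fin n))} {g h : Equiv.Perm (Fin n)}
    (hgh : ∀ a ∈ vset F, g a = h a) : g • F = h • F :=
  Finset.image_congr fun e he => by
    simp only [perm_sym2_smul]
    exact Sym2.map_congr fun a ha => hgh a (mem_vset.2 ⟨e, he, ha⟩)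

lemma fix_card (S : Finset (Fin n)) :
    ((Finset.univ : Finset (Equiv.Perm (Fin n))).filter fun g => ∀ a ∈ S, g a = a).card =
      (n - S.card).factorial := by
  rw [← Fintype.card_subtype]
  have e := Equiv.Perm.subtypeEquivSubtypePerm (fun a : Fin n => a ∉ S)
  have e' : {g : Equiv.Perm (Fin n) // ∀ a ∈ S, g a = a} ≃
      {f : Equiv.Perm (Fin n) // ∀ a, ¬a ∉ S → f a = a} :=
    Equiv.subtypeEquivRight fun g => by simp only [not_not]
  rw [Fintype.card_congr (e'.trans e.symm), Fintype.card_perm, Fintype.card_subtype_compl,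
    Fintype.card_fin, Fintype.card_coe]

lemma cnt_eq_restr {F E : Finset (Sym2 (Fin n))} {S : Finset (Fin n)} (hS : vset F ⊆ S) :
    cnt (Equiv.Perm (Fin n)) F E = (restr F E S).card * (n - S.card).factorial := by
  unfold cnt restr
  set G := (Finset.univ : Finset (Equiv.Perm (Fin n))).filter fun g => g • F ⊆ E with hG
  rw [Finset.card_eq_sum_card_image (fun g (a : ↥S) => g a) G,
    Finset.sum_congr rfl (fun f hf => ?_), Finset.sum_const, smul_eq_mul]
  obtain ⟨g₀, hg₀, rfl⟩ := Finset.mem_image.1 hf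
  rw [← fix_card S]
  refine Finset.card_bij' (fun g _ => g₀⁻¹ * g) (fun g _ => g₀ * g) ?_ ?_ ?_ ?_
  · intro g hg
    refine Finset.mem_filter.2 ⟨Finset.mem_univ _, fun a ha => ?_⟩
    have := congrFun (Finset.mem_filter.1 hg).2 ⟨a, ha⟩
    show g₀⁻¹ (g a) = a
    rw [this]
    exact g₀.symm_apply_apply a
  · intro g hg
    have hfix := (Finset.mem_filter.1 hg).2
    have hagree : ∀ a ∈ S, (g₀ * g) a = g₀ a := fun a ha => congrArg g₀ (hfix a ha)
    refine Finset.mem_filter.2 ⟨Finset.mem_filter.2 ⟨Finset.mem_univ _, ?_⟩,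
      funext fun a => hagree a a.2⟩
    rw [smul_congr fun a ha => hagree a (hS ha)]
    exact (Finset.mem_filter.1 hg₀).2
  · intro g _; simp
  · intro g _; simp

lemma cnt_smul_left (h : Equiv.Perm (Fin n)) (F E : Finset (Sym2 (Fin n))) :
    cnt (Equiv.Perm (Fin n)) (h • F) E = cnt (Equiv.Perm (Fin n)) F E := by
  refine Finset.card_bij' (fun g _ => g * h) (fun g _ => g * h⁻¹) ?_ ?_ ?_ ?_
  · intro g hg
    refine Finset.mem_filter.2 ⟨Finset.mem_univ _, ?_⟩
    rw [mul_smul]
    exact (Finset.mem_filter.1 hg).2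
  · intro g hg
    refine Finset.mem_filter.2 ⟨Finset.mem_univ _, ?_⟩
    rw [mul_smul, inv_smul_smul]
    exact (Finset.mem_filter.1 hg).2
  · intro g _; simp
  · intro g _; simp

/-! ### The bound -/

/-- A connected set has few translates in a sparse set of bounded degree. -/
lemma conn_bound {E : Finset (Sym2 (Fin n))} {q : ℝ} (hq : 0 ≤ q)
    (hE : Sparse (Equiv.Perm (Fin n)) q E) {Δ : ℕ} (hΔ : 1 ≤ Δ)
    (hdeg : ∀ v, (E.filter fun e => v ∈ e).card ≤ Δ)
    {F : Finset (Sym2 (Fin n))} (hF : Conn F) (hne : F.Nonempty) :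
    (cnt (Equiv.Perm (Fin n)) F E : ℝ) ≤
      (Fintype.card (Equiv.Perm (Fin n)) : ℝ) * (96 * Δ * q) ^ F.card := by
  set N := Fintype.card (Equiv.Perm (Fin n)) with hN
  set e := F.card with he
  set O := (Finset.univ : Finset (Equiv.Perm (Fin n))).image fun g => g • F with hO
  set T := O.filter fun Y => Y ⊆ E with hT
  set s := stab (Equiv.Perm (Fin n)) F with hs
  have he1 : 1 ≤ e := hne.card_pos
  have hmemO : ∀ Y ∈ O, ∃ g : Equiv.Perm (Fin n), g • F = Y := fun Y hY => by
    obtain ⟨g, -, hg⟩ := Finset.mem_image.1 hY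
    exact ⟨g, hg⟩
  have hcardY : ∀ Y ∈ O, Y.card = e := fun Y hY => by
    obtain ⟨g, rfl⟩ := hmemO Y hY
    exact Finset.card_smul_finset g F
  have hcnt : cnt (Equiv.Perm (Fin n)) F E ≤ T.card * s := by
    unfold cnt
    rw [Finset.card_eq_sum_card_fiberwise (f := fun g => g • F) (t := T) (fun g hg =>
      Finset.mem_filter.2 ⟨Finset.mem_image.2 ⟨g, Finset.mem_univ _, rfl⟩,
        (Finset.mem_filter.1 hg).2⟩), ← smul_eq_mul]
    refine Finset.sum_le_card_nsmul _ _ _ fun Y _ => le_trans
      (Finset.card_le_card (Finset.filter_subset_filter _ (Finset.filter_subset _ _))) ?_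
    exact fiber_le_stab F Y
  obtain ⟨P, hP, hPmax⟩ := Finset.exists_max_image
    (T.powerset.filter fun P : Finset (Finset (Sym2 (Fin n))) => (P : Set (Finset (Sym2 (Fin n)))).PairwiseDisjoint id)
    Finset.card ⟨∅, by simp⟩
  obtain ⟨hPT, hPd⟩ := Finset.mem_filter.1 hP
  rw [Finset.mem_powerset] at hPT
  set U := P.biUnion id with hU
  have hUc : U.card = P.card * e := by
    rw [hU, Finset.card_biUnion hPd, Finset.sum_congr rfl fun Y hY =>
      (show (id Y).card = e from hcardY Y (Finset.mem_filter.1 (hPT hY)).1),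
      Finset.sum_const, smul_eq_mul]
  have hUE : U ⊆ E := Finset.biUnion_subset.2 fun Y hY => (Finset.mem_filter.1 (hPT hY)).2
  have hmeet : ∀ Y ∈ T, ∃ x ∈ U, x ∈ Y := by
    intro Y hY
    have hYne : Y.Nonempty := Finset.card_pos.1 (by
      rw [hcardY Y (Finset.mem_filter.1 hY).1]; omega)
    by_contra hcon
    push Not at hcon
    have hYP : Y ∉ P := fun h => by
      obtain ⟨x, hx⟩ := hYne
      exact hcon x (Finset.mem_biUnion.2 ⟨Y, h, hx⟩) hx
    have hd : ((insert Y P : Finset _) : Set (Finset (Sym2 (Fin n)))).PairwiseDisjoint id := by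
      rw [Finset.coe_insert]
      refine hPd.insert fun Z hZ _ => Finset.disjoint_left.2 fun x hxY hxZ => ?_
      exact hcon x (Finset.mem_biUnion.2 ⟨Z, hZ, hxZ⟩) hxY
    have := hPmax (insert Y P) (Finset.mem_filter.2
      ⟨Finset.mem_powerset.2 (Finset.insert_subset hY hPT), hd⟩)
    rw [Finset.card_insert_of_notMem hYP] at this
    omega
  -- every translate meets `U`
  have hTle : T.card ≤ P.card * e * (8 * Δ) ^ e := by
    calc T.card ≤ (U.biUnion fun x => T.filter fun Y => x ∈ Y).card := by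
          refine Finset.card_le_card fun Y hY => ?_
          obtain ⟨x, hx, hxY⟩ := hmeet Y hY
          exact Finset.mem_biUnion.2 ⟨x, hx, Finset.mem_filter.2 ⟨hY, hxY⟩⟩
      _ ≤ U.card * (8 * Δ) ^ e := by
          refine Finset.card_biUnion_le_card_mul _ _ _ fun x _ => ?_
          calc (T.filter fun Y => x ∈ Y).card
              ≤ (trees (fun a => E.filter (Touch a)) (e - 1) x).card := by
                refine Finset.card_le_card fun Y hY => ?_
                obtain ⟨hYT, hxY⟩ := Finset.mem_filter.1 hY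
                obtain ⟨hYO, hYE⟩ := Finset.mem_filter.1 hYT
                obtain ⟨g, rfl⟩ := hmemO Y hYO
                have := exists_tree (hF.smul g) hYE hxY
                rwa [hcardY _ hYO] at this
            _ ≤ catalan (e - 1) * (2 * Δ) ^ (e - 1) :=
                trees_card_le _ (touch_card_le hdeg) _ _
            _ ≤ 4 ^ (e - 1) * (2 * Δ) ^ (e - 1) := Nat.mul_le_mul_right _ (catalan_le _)
            _ = (8 * Δ) ^ (e - 1) := by rw [← mul_pow, ← mul_assoc]; norm_num
            _ ≤ (8 * Δ) ^ e := Nat.pow_le_pow_right (by omega) (by omega)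
      _ = _ := by rw [hUc]
  -- sparsity bounds the packing
  set μ : ℝ := (O.card : ℝ) * q ^ e with hμ
  have hμ0 : 0 ≤ μ := by positivity
  have hm : (P.card : ℝ) ≤ 6 * μ := by
    rcases Nat.eq_zero_or_pos P.card with h0 | hpos
    · rw [h0, Nat.cast_zero]; linarith
    set m := P.card with hmdef
    set OU := (Finset.univ : Finset (Equiv.Perm (Fin n))).image fun g => g • U with hOU
    have hOUle : OU.card ≤ O.card.choose m := by
      rw [← Finset.card_powersetCard m O]
      refine (Finset.card_le_card (t := (O.powersetCard m).image fun Q => Q.biUnion id)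
        fun Z hZ => ?_).trans Finset.card_image_le
      obtain ⟨g, -, rfl⟩ := Finset.mem_image.1 hZ
      refine Finset.mem_image.2 ⟨P.image (fun Y => g • Y),
        Finset.mem_powersetCard.2 ⟨fun Y hY => ?_, ?_⟩, ?_⟩
      · obtain ⟨Y', hY', rfl⟩ := Finset.mem_image.1 hY
        obtain ⟨h, rfl⟩ := hmemO Y' (Finset.mem_filter.1 (hPT hY')).1
        exact Finset.mem_image.2 ⟨g * h, Finset.mem_univ _, mul_smul g h F⟩
      · exact Finset.card_image_of_injective _ (MulAction.injective g)
      · ext x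
        simp only [hU, Finset.mem_biUnion, Finset.mem_image, id, Finset.mem_smul_finset]
        constructor
        · rintro ⟨_, ⟨Y, hY, rfl⟩, hx⟩
          obtain ⟨y, hy, rfl⟩ := Finset.mem_smul_finset.1 hx
          exact ⟨y, ⟨Y, hY, hy⟩, rfl⟩
        · rintro ⟨y, ⟨Y, hY, hy⟩, rfl⟩
          exact ⟨g • Y, ⟨Y, hY, rfl⟩, Finset.smul_mem_smul_finset hy⟩
    have h1 : (N : ℝ) ≤ (O.card.choose m : ℝ) * (2 * q ^ U.card * (N : ℝ)) := by
      calc (N : ℝ) = (OU.card : ℝ) * (stab (Equiv.Perm (Fin n)) U : ℝ) := by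
            exact_mod_cast (orbit_mul_stab U).symm
        _ ≤ (O.card.choose m : ℝ) * (stab (Equiv.Perm (Fin n)) U : ℝ) :=
            mul_le_mul_of_nonneg_right (by exact_mod_cast hOUle) (Nat.cast_nonneg _)
        _ ≤ _ := mul_le_mul_of_nonneg_left (hE U hUE) (Nat.cast_nonneg _)
    have hN0 : (0 : ℝ) < (N : ℝ) := by
      exact_mod_cast (Fintype.card_pos : 0 < Fintype.card (Equiv.Perm (Fin n)))
    have h2 : (1 : ℝ) ≤ (O.card.choose m : ℝ) * (2 * q ^ U.card) := by
      refine le_of_mul_le_mul_right ?_ hN0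
      rw [one_mul]; linarith
    have h3 : (O.card.choose m : ℝ) ≤ (O.card : ℝ) ^ m / (m.factorial : ℝ) :=
      Nat.choose_le_pow_div m O.card
    have hm0 : (0 : ℝ) < m := by exact_mod_cast hpos
    have h4 : (1 : ℝ) / (m.factorial : ℝ) ≤ (3 / (m : ℝ)) ^ m := by
      have hb := Real.pow_div_factorial_le_exp (m : ℝ) hm0.le m
      have hexp : Real.exp (m : ℝ) ≤ (3 : ℝ) ^ m := by
        rw [← mul_one (m : ℝ), Real.exp_nat_mul]
        exact pow_le_pow_left₀ (Real.exp_pos 1).le (by linarith [Real.exp_one_lt_d9]) m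
      rw [div_pow, le_div_iff₀ (pow_pos hm0 m)]
      refine le_of_eq_of_le ?_ (hb.trans hexp)
      ring
    have h5 : (1 : ℝ) ≤ 2 * (3 * μ / m) ^ m := by
      refine h2.trans ?_
      calc (O.card.choose m : ℝ) * (2 * q ^ U.card)
          ≤ (O.card : ℝ) ^ m / (m.factorial : ℝ) * (2 * q ^ U.card) :=
            mul_le_mul_of_nonneg_right h3 (by positivity)
        _ = 2 * (μ ^ m * (1 / (m.factorial : ℝ))) := by
            rw [hμ, hUc, mul_pow, ← pow_mul, mul_comm e m]; ring
        _ ≤ 2 * (μ ^ m * (3 / (m : ℝ)) ^ m) := by gcongr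
        _ = _ := by rw [← mul_pow]; ring
    by_contra hcon
    push Not at hcon
    have hlt : 3 * μ / m < 1 / 2 := by rw [div_lt_iff₀ hm0]; linarith
    have : (3 * μ / m) ^ m ≤ 3 * μ / m :=
      pow_le_of_le_one (by positivity) (by linarith) (by omega)
    linarith
  have hOs : (O.card : ℝ) * (s : ℝ) = (N : ℝ) := by exact_mod_cast orbit_mul_stab F
  have h6e : (6 : ℝ) * e ≤ 12 ^ e := by
    have h2e : (e : ℝ) ≤ 2 ^ e := by exact_mod_cast (Nat.lt_two_pow_self (n := e)).le
    have h6 : (6 : ℝ) ≤ 6 ^ e := le_self_pow₀ (by norm_num) (by omega)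
    calc (6 : ℝ) * e ≤ 6 ^ e * 2 ^ e := mul_le_mul h6 h2e (Nat.cast_nonneg _) (by positivity)
      _ = 12 ^ e := by rw [← mul_pow]; norm_num
  calc (cnt (Equiv.Perm (Fin n)) F E : ℝ) ≤ (T.card : ℝ) * (s : ℝ) := by exact_mod_cast hcnt
    _ ≤ (P.card : ℝ) * e * (8 * (Δ : ℝ)) ^ e * (s : ℝ) :=
        mul_le_mul_of_nonneg_right (by exact_mod_cast hTle) (Nat.cast_nonneg _)
    _ ≤ 6 * μ * e * (8 * (Δ : ℝ)) ^ e * (s : ℝ) := by gcongr
    _ = (O.card : ℝ) * (s : ℝ) * (6 * (e : ℝ)) * ((8 * (Δ : ℝ)) ^ e * q ^ e) := by rw [hμ]; ring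
    _ ≤ (N : ℝ) * 12 ^ e * ((8 * (Δ : ℝ)) ^ e * q ^ e) := by
        rw [hOs]; gcongr
    _ = _ := by rw [← mul_pow, mul_assoc, ← mul_pow]; ring

/-- Powers against descending factorials. -/
lemma pow_le_desc {n v : ℕ} (h : v ≤ n) :
    (n : ℝ) ^ v * ((n - v).factorial : ℝ) ≤ 3 ^ v * (n.factorial : ℝ) := by
  have hN : n ^ v * v.factorial ≤ v ^ v * n.descFactorial v := by
    have hc : ∀ c : ℕ, c ^ v = ∏ _i ∈ Finset.range v, c := fun c => by simp
    rw [← Nat.descFactorial_self v, Nat.descFactorial_eq_prod_range,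
      Nat.descFactorial_eq_prod_range, hc n, hc v,
      ← Finset.prod_mul_distrib, ← Finset.prod_mul_distrib]
    refine Finset.prod_le_prod (fun i _ => Nat.zero_le _) fun i _ => ?_
    rw [Nat.mul_sub, Nat.mul_sub, Nat.mul_comm n v]
    exact Nat.sub_le_sub_left (Nat.mul_le_mul_right i h) _
  have hvv : (v : ℝ) ^ v ≤ 3 ^ v * (v.factorial : ℝ) := by
    have hb := Real.pow_div_factorial_le_exp (v : ℝ) (Nat.cast_nonneg v) v
    have hexp : Real.exp (v : ℝ) ≤ (3 : ℝ) ^ v := by
      rw [← mul_one (v : ℝ), Real.exp_nat_mul]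
      exact pow_le_pow_left₀ (Real.exp_pos 1).le (by linarith [Real.exp_one_lt_d9]) v
    exact (div_le_iff₀ (by positivity)).1 (hb.trans hexp)
  have hvf : (0 : ℝ) < (v.factorial : ℝ) := by exact_mod_cast v.factorial_pos
  have h1 : (n : ℝ) ^ v ≤ 3 ^ v * (n.descFactorial v : ℝ) := by
    refine le_of_mul_le_mul_right ?_ hvf
    calc (n : ℝ) ^ v * (v.factorial : ℝ) ≤ (v : ℝ) ^ v * (n.descFactorial v : ℝ) := by
          exact_mod_cast hN
      _ ≤ 3 ^ v * (v.factorial : ℝ) * (n.descFactorial v : ℝ) :=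
          mul_le_mul_of_nonneg_right hvv (Nat.cast_nonneg _)
      _ = _ := by ring
  calc (n : ℝ) ^ v * ((n - v).factorial : ℝ)
      ≤ 3 ^ v * (n.descFactorial v : ℝ) * ((n - v).factorial : ℝ) :=
        mul_le_mul_of_nonneg_right h1 (Nat.cast_nonneg _)
    _ = 3 ^ v * (((n - v).factorial * n.descFactorial v : ℕ) : ℝ) := by push_cast; ring
    _ = _ := by rw [Nat.factorial_mul_descFactorial h]

/-- Placements of any subset of a sparse set of bounded degree. -/
lemma restr_bound {E : Finset (Sym2 (Fin n))} {q : ℝ} (hq : 0 ≤ q)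
    (hE : Sparse (Equiv.Perm (Fin n)) q E) {Δ : ℕ} (hΔ : 1 ≤ Δ)
    (hdeg : ∀ v, (E.filter fun e => v ∈ e).card ≤ Δ) (F : Finset (Sym2 (Fin n))) :
    ((restr F E (vset F)).card : ℝ) ≤ (n : ℝ) ^ (vset F).card * (96 * Δ * q) ^ F.card := by
  induction F using Finset.strongInduction with
  | _ F ih =>
  rcases F.eq_empty_or_nonempty with rfl | hne
  · have hv : vset (∅ : Finset (Sym2 (Fin n))) = ∅ := by simp [vset]
    rw [hv]
    simpa using Finset.card_le_one_of_subsingleton (restr (∅ : Finset (Sym2 (Fin n))) E ∅)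
  set K : ℝ := 96 * Δ * q with hK
  have hK0 : 0 ≤ K := by positivity
  by_cases hF : Conn F
  · have hb := conn_bound hq hE hΔ hdeg hF hne
    rw [cnt_eq_restr (Finset.Subset.refl (vset F)), ← hK] at hb
    push_cast at hb
    set v := (vset F).card
    have hv : v ≤ n := (Finset.card_le_univ _).trans (le_of_eq (Fintype.card_fin n))
    have hfac : (Fintype.card (Equiv.Perm (Fin n)) : ℝ) ≤
        (n : ℝ) ^ v * ((n - v).factorial : ℝ) := by
      rw [Fintype.card_perm, Fintype.card_fin, ← Nat.factorial_mul_descFactorial hv,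
        mul_comm ((n : ℝ) ^ v)]
      exact_mod_cast Nat.mul_le_mul_left _ (Nat.descFactorial_le_pow n v)
    refine le_of_mul_le_mul_right ?_ (show (0 : ℝ) < ((n - v).factorial : ℝ) by positivity)
    calc ((restr F E (vset F)).card : ℝ) * ((n - v).factorial : ℝ)
        ≤ (Fintype.card (Equiv.Perm (Fin n)) : ℝ) * K ^ F.card := hb
      _ ≤ (n : ℝ) ^ v * ((n - v).factorial : ℝ) * K ^ F.card :=
          mul_le_mul_of_nonneg_right hfac (pow_nonneg hK0 _)
      _ = _ := by ring
  · simp only [Conn, not_forall, not_exists, not_and] at hF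
    obtain ⟨S, hSF, hSne, hSne', hno⟩ := hF
    set R := F \ S with hR
    have hdis : Disjoint (vset S) (vset R) := Finset.disjoint_left.2 fun a ha hb => by
      obtain ⟨x, hx, hax⟩ := mem_vset.1 ha
      obtain ⟨y, hy, hay⟩ := mem_vset.1 hb
      exact hno x hx y hy ⟨a, hax, hay⟩
    have hunion : vset F = vset S ∪ vset R := by
      ext a
      simp only [Finset.mem_union, mem_vset, hR, Finset.mem_sdiff]
      constructor
      · rintro ⟨x, hx, hax⟩
        by_cases hxS : x ∈ S
        · exact Or.inl ⟨x, hxS, hax⟩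
        · exact Or.inr ⟨x, ⟨hx, hxS⟩, hax⟩
      · rintro (⟨x, hx, hax⟩ | ⟨x, ⟨hx, -⟩, hax⟩)
        · exact ⟨x, hSF hx, hax⟩
        · exact ⟨x, hx, hax⟩
    have hSs : S ⊂ F := by
      refine Finset.ssubset_iff_subset_ne.2 ⟨hSF, fun h => ?_⟩
      rw [hR, h, Finset.sdiff_self] at hSne'
      exact Finset.not_nonempty_empty hSne'
    have hRs : R ⊂ F := Finset.sdiff_ssubset hSF hSne
    have hinj : (restr F E (vset F)).card ≤
        (restr S E (vset S)).card * (restr R E (vset R)).card := by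
      rw [← Finset.card_product]
      have hl : ∀ a, a ∈ vset S → a ∈ vset F := fun a h => by
        rw [hunion]; exact Finset.mem_union_left _ h
      have hr : ∀ a, a ∈ vset R → a ∈ vset F := fun a h => by
        rw [hunion]; exact Finset.mem_union_right _ h
      refine Finset.card_le_card_of_injOn
        (fun f => (fun a => f ⟨a.1, hl a.1 a.2⟩, fun a => f ⟨a.1, hr a.1 a.2⟩)) ?_ ?_
      · intro f hf
        obtain ⟨g, hg, rfl⟩ := Finset.mem_image.1 hf
        have hg' := (Finset.mem_filter.1 hg).2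
        refine Finset.mem_product.2 ⟨Finset.mem_image.2 ⟨g, Finset.mem_filter.2
          ⟨Finset.mem_univ _, ?_⟩, rfl⟩, Finset.mem_image.2 ⟨g, Finset.mem_filter.2
          ⟨Finset.mem_univ _, ?_⟩, rfl⟩⟩
        · exact (Finset.smul_finset_subset_smul_finset hSF).trans hg'
        · exact (Finset.smul_finset_subset_smul_finset Finset.sdiff_subset).trans hg'
      · intro f _ f' _ hff
        simp only [Prod.mk.injEq] at hff
        funext a
        have ha : (a : Fin n) ∈ vset S ∪ vset R := hunion ▸ a.2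
        rcases Finset.mem_union.1 ha with h | h
        · exact congrFun hff.1 ⟨a.1, h⟩
        · exact congrFun hff.2 ⟨a.1, h⟩
    have hcard : F.card = S.card + R.card := by
      rw [hR, Finset.card_sdiff_of_subset hSF, Nat.add_sub_cancel' (Finset.card_le_card hSF)]
    calc ((restr F E (vset F)).card : ℝ)
        ≤ ((restr S E (vset S)).card : ℝ) * ((restr R E (vset R)).card : ℝ) := by
          exact_mod_cast hinj
      _ ≤ (n : ℝ) ^ (vset S).card * K ^ S.card * ((n : ℝ) ^ (vset R).card * K ^ R.card) :=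
          mul_le_mul (ih S hSs) (ih R hRs) (Nat.cast_nonneg _) (by positivity)
      _ = _ := by
          rw [hunion, Finset.card_union_of_disjoint hdis, hcard, pow_add, pow_add]; ring

/-- Translates of any edge set inside a sparse set of bounded degree. -/
theorem cnt_le_degree {E : Finset (Sym2 (Fin n))} {q : ℝ} (hq : 0 ≤ q)
    (hE : Sparse (Equiv.Perm (Fin n)) q E) {Δ : ℕ} (hΔ : 1 ≤ Δ)
    (hdeg : ∀ v, (E.filter fun e => v ∈ e).card ≤ Δ) (F : Finset (Sym2 (Fin n))) :
    (cnt (Equiv.Perm (Fin n)) F E : ℝ) ≤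
      (Fintype.card (Equiv.Perm (Fin n)) : ℝ) * (864 * Δ * q) ^ F.card := by
  set v := (vset F).card with hv'
  have hv : v ≤ n := (Finset.card_le_univ _).trans (le_of_eq (Fintype.card_fin n))
  have hb := restr_bound hq hE hΔ hdeg F
  rw [cnt_eq_restr (Finset.Subset.refl (vset F))]
  push_cast
  calc ((restr F E (vset F)).card : ℝ) * ((n - v).factorial : ℝ)
      ≤ (n : ℝ) ^ v * (96 * Δ * q) ^ F.card * ((n - v).factorial : ℝ) :=
        mul_le_mul_of_nonneg_right hb (Nat.cast_nonneg _)
    _ = (n : ℝ) ^ v * ((n - v).factorial : ℝ) * (96 * Δ * q) ^ F.card := by ring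
    _ ≤ 3 ^ v * (n.factorial : ℝ) * (96 * Δ * q) ^ F.card :=
        mul_le_mul_of_nonneg_right (pow_le_desc hv) (by positivity)
    _ ≤ 3 ^ (2 * F.card) * (n.factorial : ℝ) * (96 * Δ * q) ^ F.card := by
        gcongr
        · norm_num
        · exact vset_card_le F
    _ = _ := by
        rw [Fintype.card_perm, Fintype.card_fin, pow_mul, mul_comm _ (n.factorial : ℝ),
          mul_assoc, ← mul_pow]
        ring

end Vale.Agent.P064.BDeg
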