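import Mathlib
import Vale.Agent.P064.CopyBound

/-! The copy bound with the ratio `|U| / |F|` in place of `|U|`. -/

namespace Vale.Agent.P064

open Finset

open scoped Pointwise

variable {Γ X : Type*} [Group Γ] [Fintype Γ] [DecidableEq X] [MulAction Γ X]

/-- The copy bound relative to the ratio `|U| / |F|`: translates of `F` inside a sparse set are few. -/
theorem copy_bound_ratio {H : Finset X} {q : ℝ} (hq : 0 ≤ q) (hH : Sparse Γ q H) {D : ℕ} (hD : 0 < D)
    (F : Finset X) : ∀ U ⊆ H, (cnt Γ F U : ℝ) ≤ (Fintype.card Γ : ℝ) *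
      (3 * (6144 * ((D : ℝ) + 1) * q) * (U.card : ℝ) ^ ((D : ℝ)⁻¹) /
        (F.card : ℝ) ^ ((D : ℝ)⁻¹)) ^ F.card := by
  classical
  induction F using Finset.strongInduction with
  | _ F ihF =>
  intro U₀ hU₀
  rcases F.eq_empty_or_nonempty with rfl | hF
  · simp [cnt_empty]
  set K : ℝ := 6144 * ((D : ℝ) + 1) with hK
  have hK0 : 0 < K := by positivity
  set p := K * q with hp
  have hp0 : 0 ≤ p := mul_nonneg hK0.le hq
  set e := F.card with he
  have he0 : 0 < e := hF.card_pos
  set w : ℕ → ℝ := fun m => (m : ℝ) ^ ((D : ℝ)⁻¹) with hw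
  have hw0 : ∀ m, 0 ≤ w m := fun m => Real.rpow_nonneg (Nat.cast_nonneg _) _
  have hwD : ∀ m, w m ^ D = (m : ℝ) := fun m =>
    Real.rpow_inv_natCast_pow (Nat.cast_nonneg _) hD.ne'
  have hwmono : ∀ {a b : ℕ}, a ≤ b → w a ≤ w b := fun {a b} h =>
    Real.rpow_le_rpow (Nat.cast_nonneg _) (Nat.cast_le.2 h) (by positivity)
  set N : ℝ := (Fintype.card Γ : ℝ) with hN
  have hN0 : 0 < N := by rw [hN]; exact_mod_cast Fintype.card_pos
  show (cnt Γ F U₀ : ℝ) ≤ N * (3 * p * w U₀.card / w e) ^ e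
  by_contra hcon
  rw [not_le] at hcon
  set ratio : Finset X → ℝ := fun U => (cnt Γ F U : ℝ) / w U.card ^ e with hratio
  obtain ⟨G, hG, hGmax⟩ := Finset.exists_max_image H.powerset ratio
    ⟨U₀, Finset.mem_powerset.2 hU₀⟩
  rw [Finset.mem_powerset] at hG
  have hzero : ∀ U : Finset X, U.card = 0 → cnt Γ F U = 0 := by
    intro U hU
    refine Finset.card_eq_zero.2 (Finset.filter_eq_empty_iff.2 fun g _ hg => ?_)
    rw [Finset.card_eq_zero.1 hU, Finset.subset_empty, Finset.smul_finset_eq_empty] at hg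
    exact hF.ne_empty hg
  have hwpos : ∀ m, 0 < m → 0 < w m := fun m hm =>
    Real.rpow_pos_of_pos (Nat.cast_pos.2 hm) _
  have hU₀pos : 0 < U₀.card := by
    rcases Nat.eq_zero_or_pos U₀.card with h | h
    · rw [hzero _ h] at hcon
      have : 0 ≤ N * (3 * p * w U₀.card / w e) ^ e :=
        mul_nonneg hN0.le (pow_nonneg (div_nonneg
          (mul_nonneg (mul_nonneg (by norm_num) hp0) (hw0 _)) (hw0 _)) _)
      push_cast at hcon
      linarith
    · exact h
  set z := ratio G with hz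
  have hzbig : N * (3 * p / w e) ^ e < z := by
    refine lt_of_lt_of_le ?_ (hGmax U₀ (Finset.mem_powerset.2 hU₀))
    simp only [hratio]
    rw [lt_div_iff₀ (pow_pos (hwpos _ hU₀pos) e)]
    calc N * (3 * p / w e) ^ e * w U₀.card ^ e = N * (3 * p * w U₀.card / w e) ^ e := by
          rw [mul_assoc, ← mul_pow]; ring
      _ < _ := hcon
  have hzpos : 0 < z := lt_of_le_of_lt (mul_nonneg hN0.le
    (pow_nonneg (div_nonneg (mul_nonneg (by norm_num) hp0) (hw0 _)) _)) hzbig
  set m := G.card with hm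
  have hmpos : 0 < m := by
    rcases Nat.eq_zero_or_pos m with h | h
    · rw [hz, hratio] at hzpos
      simp only [hzero G h, Nat.cast_zero, zero_div] at hzpos
      exact absurd hzpos (lt_irrefl _)
    · exact h
  set Xc : ℝ := (cnt Γ F G : ℝ) with hXc
  have hXeq : z * w m ^ e = Xc := by
    rw [hz, hratio]
    exact div_mul_cancel₀ _ (pow_pos (hwpos m hmpos) e).ne'
  have hXpos : 0 < Xc := hXeq ▸ mul_pos hzpos (pow_pos (hwpos m hmpos) e)
  have hmax : ∀ U ⊆ H, (cnt Γ F U : ℝ) ≤ z * w U.card ^ e := by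
    intro U hU
    rcases Nat.eq_zero_or_pos U.card with h | h
    · rw [hzero U h, Nat.cast_zero]
      exact mul_nonneg hzpos.le (pow_nonneg (hw0 _) _)
    · exact (div_le_iff₀ (pow_pos (hwpos _ h) e)).1 (hGmax U (Finset.mem_powerset.2 hU))
  have hw1 : 1 ≤ w m := Real.one_le_rpow (by exact_mod_cast hmpos) (by positivity)
  have hem : e ≤ m := by
    obtain ⟨g, hg⟩ := Finset.card_pos.1 (show 0 < cnt Γ F G by
      have h' : (0 : ℝ) < (cnt Γ F G : ℝ) := hXpos
      exact_mod_cast h')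
    rw [he, ← Finset.card_smul_finset g F]
    exact Finset.card_le_card (Finset.mem_filter.1 hg).2
  have hgap : ∀ i : ℕ, i ≤ e → (w e / w i) ^ i ≤ (3 : ℝ) ^ (e - i) := by
    intro i hi
    rcases Nat.eq_zero_or_pos i with rfl | hi0
    · rw [pow_zero]; exact one_le_pow₀ (by norm_num)
    have hi' : (0 : ℝ) < i := by exact_mod_cast hi0
    have h1 : 1 ≤ w e / w i := by rw [le_div_iff₀ (hwpos i hi0), one_mul]; exact hwmono hi
    have h2 : w e / w i ≤ Real.exp ((e : ℝ) / i - 1) := by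
      refine (le_self_pow₀ h1 hD.ne').trans ?_
      rw [div_pow, hwD, hwD]
      have := Real.add_one_le_exp ((e : ℝ) / i - 1)
      linarith
    refine (pow_le_pow_left₀ (by linarith) h2 i).trans ?_
    rw [← Real.exp_nat_mul]
    have h3 : (i : ℝ) * ((e : ℝ) / i - 1) = ((e - i : ℕ) : ℝ) * 1 := by
      rw [Nat.cast_sub hi]; field_simp
    rw [h3, Real.exp_nat_mul]
    exact pow_le_pow_left₀ (Real.exp_pos 1).le (by linarith [Real.exp_one_lt_d9]) _
  have hstep : ∀ U ⊆ H, U.card ≤ m → ∀ I ⊆ F,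
      (cnt Γ I U : ℝ) * p ^ (F.card - I.card) ≤ Xc := by
    intro U hU hUm I hI
    by_cases hIF : I = F
    · subst hIF
      simp only [Nat.sub_self, pow_zero, mul_one]
      exact (hmax U hU).trans (hXeq ▸ mul_le_mul_of_nonneg_left
        (pow_le_pow_left₀ (hw0 _) (hwmono hUm) _) hzpos.le)
    · have hb := ihF I (Finset.ssubset_iff_subset_ne.2 ⟨hI, hIF⟩) U hU
      have hb' : (cnt Γ I U : ℝ) ≤ N * (3 * p * w U.card / w I.card) ^ I.card := hb
      have hIe : I.card ≤ e := Finset.card_le_card hI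
      have hwe : 0 < w e := hwpos e he0
      have hme : 1 ≤ w m / w e := by rw [le_div_iff₀ hwe, one_mul]; exact hwmono hem
      rcases Nat.eq_zero_or_pos I.card with hI0 | hI0
      · rw [hI0, pow_zero, mul_one] at hb'
        rw [hI0, Nat.sub_zero]
        calc (cnt Γ I U : ℝ) * p ^ e ≤ N * p ^ e :=
              mul_le_mul_of_nonneg_right hb' (pow_nonneg hp0 _)
          _ ≤ N * (3 * p / w e) ^ e * w m ^ e := by
              rw [mul_assoc, ← mul_pow]
              refine mul_le_mul_of_nonneg_left (pow_le_pow_left₀ hp0 ?_ _) hN0.le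
              rw [show 3 * p / w e * w m = 3 * p * (w m / w e) by ring]
              nlinarith
          _ ≤ Xc := hXeq ▸ mul_le_mul_of_nonneg_right hzbig.le (pow_nonneg (hw0 _) _)
      have hwi : 0 < w I.card := hwpos _ hI0
      calc (cnt Γ I U : ℝ) * p ^ (e - I.card)
          ≤ N * (3 * p * w U.card / w I.card) ^ I.card * p ^ (e - I.card) :=
            mul_le_mul_of_nonneg_right hb' (pow_nonneg hp0 _)
        _ = N * p ^ e * 3 ^ I.card * ((w U.card / w e) ^ I.card * (w e / w I.card) ^ I.card) := by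
            rw [← mul_pow (w U.card / w e), show w U.card / w e * (w e / w I.card) =
              w U.card / w I.card by field_simp, show 3 * p * w U.card / w I.card =
              p * 3 * (w U.card / w I.card) by ring, mul_pow, mul_pow]
            conv_rhs => rw [show e = I.card + (e - I.card) by omega, pow_add]
            ring
        _ ≤ N * p ^ e * 3 ^ I.card * ((w m / w e) ^ e * 3 ^ (e - I.card)) := by
            refine mul_le_mul_of_nonneg_left (mul_le_mul ?_ (hgap _ hIe)
              (pow_nonneg (div_nonneg (hw0 _) (hw0 _)) _) (pow_nonneg (by linarith) _))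
              (mul_nonneg (mul_nonneg hN0.le (pow_nonneg hp0 _)) (by positivity))
            exact (pow_le_pow_left₀ (div_nonneg (hw0 _) (hw0 _))
              (div_le_div_of_nonneg_right (hwmono hUm) hwe.le) _).trans
              (pow_le_pow_right₀ hme hIe)
        _ = N * (3 * p / w e) ^ e * w m ^ e := by
            have h3 : (3 : ℝ) ^ e = 3 ^ I.card * 3 ^ (e - I.card) := by
              rw [← pow_add, Nat.add_sub_cancel' hIe]
            rw [div_pow, div_pow, mul_pow (3 : ℝ) p e, h3]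
            ring
        _ ≤ Xc := hXeq ▸ mul_le_mul_of_nonneg_right hzbig.le (pow_nonneg (hw0 _) _)
  -- the tuples
  set k := D * m / e + 1 with hk
  have hkl : D * m ≤ k * e := by
    rw [hk, Nat.succ_mul]
    have h1 := Nat.mod_add_div (D * m) e
    have h2 := Nat.mod_lt (D * m) he0
    have h3 : D * m / e * e = e * (D * m / e) := Nat.mul_comm _ _
    omega
  have hkr : k * e ≤ (D + 1) * m := by
    rw [hk, Nat.succ_mul, Nat.succ_mul]
    have h1 := Nat.div_mul_le_self (D * m) e
    omega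
  set S := Fintype.piFinset (fun _ : Fin k => Finset.univ.filter fun g : Γ => g • F ⊆ G) with hS
  have hScard : (S.card : ℝ) = Xc ^ k := by
    rw [hS, Fintype.card_piFinset_const, hXc, cnt]
    push_cast
    rfl
  have hunG : ∀ t ∈ S, un F t ⊆ G := fun t ht => Finset.biUnion_subset.2 fun i _ =>
    (Finset.mem_filter.1 (Fintype.mem_piFinset.1 ht i)).2
  have havoid : ∀ x ∈ G, ((S.filter fun t => x ∉ un F t).card : ℝ) ≤ 1 / 2 * Xc ^ k := by
    intro x hx
    have hsub : (S.filter fun t => x ∉ un F t) ⊆ Fintype.piFinset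
        (fun _ : Fin k => Finset.univ.filter fun g : Γ => g • F ⊆ G.erase x) := by
      intro t ht
      obtain ⟨ht1, ht2⟩ := Finset.mem_filter.1 ht
      refine Fintype.mem_piFinset.2 fun i => Finset.mem_filter.2 ⟨Finset.mem_univ _, fun y hy => ?_⟩
      refine Finset.mem_erase.2 ⟨?_, (Finset.mem_filter.1 (Fintype.mem_piFinset.1 ht1 i)).2 hy⟩
      rintro rfl
      exact ht2 (Finset.mem_biUnion.2 ⟨i, Finset.mem_univ _, hy⟩)
    have hc : ((S.filter fun t => x ∉ un F t).card : ℝ) ≤ (cnt Γ F (G.erase x) : ℝ) ^ k := by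
      have := Finset.card_le_card hsub
      rw [Fintype.card_piFinset_const] at this
      exact_mod_cast this
    refine hc.trans ?_
    have h1 := hmax (G.erase x) ((Finset.erase_subset _ _).trans hG)
    rw [Finset.card_erase_of_mem hx] at h1
    set r := w (m - 1) / w m with hr
    have hr0 : 0 ≤ r := div_nonneg (hw0 _) (hw0 _)
    have hr1 : r ≤ 1 := (div_le_one (hwpos m hmpos)).2 (hwmono (Nat.sub_le _ _))
    have h2 : (cnt Γ F (G.erase x) : ℝ) ≤ Xc * r ^ e := by
      refine h1.trans (le_of_eq ?_)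
      rw [← hXeq, mul_assoc, ← mul_pow, mul_div_cancel₀ _ (hwpos m hmpos).ne']
    refine (pow_le_pow_left₀ (Nat.cast_nonneg _) h2 k).trans ?_
    rw [mul_pow, mul_comm (Xc ^ k), ← pow_mul, mul_comm e k]
    refine mul_le_mul_of_nonneg_right ?_ (pow_nonneg hXpos.le _)
    refine (pow_le_pow_of_le_one hr0 hr1 hkl).trans ?_
    rw [pow_mul, div_pow, hwD, hwD]
    have hm' : (0 : ℝ) < m := by exact_mod_cast hmpos
    have h3 : ((m - 1 : ℕ) : ℝ) / m ≤ Real.exp (-(1 / m)) := by
      refine le_trans (le_of_eq ?_) (Real.add_one_le_exp _)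
      rw [Nat.cast_sub (Nat.one_le_iff_ne_zero.2 hmpos.ne'), sub_div, div_self hm'.ne']
      push_cast
      ring
    have h4 := pow_le_pow_left₀ (by positivity) h3 m
    rw [← Real.exp_nat_mul, mul_neg, mul_one_div_cancel hm'.ne'] at h4
    exact h4.trans (by linarith [Real.exp_neg_one_lt_d9])
  set Big := S.filter fun t => m ≤ 4 * (un F t).card with hBig
  have hbiglower : 1 / 4 * Xc ^ k ≤ (Big.card : ℝ) := by
    have hswap : ∑ t ∈ S, ((G.filter fun x => x ∉ un F t).card : ℝ) =
        ∑ x ∈ G, ((S.filter fun t => x ∉ un F t).card : ℝ) := by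
      exact_mod_cast Finset.sum_card_bipartiteAbove_eq_sum_card_bipartiteBelow
        (r := fun t x => x ∉ un F t) (s := S) (t := G)
    have hup : ∑ x ∈ G, ((S.filter fun t => x ∉ un F t).card : ℝ) ≤
        (m : ℝ) * (1 / 2 * Xc ^ k) := by
      refine (Finset.sum_le_card_nsmul _ _ _ havoid).trans (le_of_eq ?_)
      rw [nsmul_eq_mul]
    have hlow : ∀ t ∈ S \ Big, 3 / 4 * (m : ℝ) ≤ ((G.filter fun x => x ∉ un F t).card : ℝ) := by
      intro t ht
      obtain ⟨ht1, ht2⟩ := Finset.mem_sdiff.1 ht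
      have hsm : 4 * (un F t).card < m := not_le.1 fun h => ht2 (Finset.mem_filter.2 ⟨ht1, h⟩)
      have hfeq : (G.filter fun x => x ∉ un F t) = G \ un F t := by ext; simp
      rw [hfeq, Finset.card_sdiff_of_subset (hunG t ht1),
        Nat.cast_sub (Finset.card_le_card (hunG t ht1))]
      have : (4 : ℝ) * ((un F t).card : ℝ) ≤ m := by exact_mod_cast hsm.le
      linarith
    have h1 : ((S \ Big).card : ℝ) * (3 / 4 * m) ≤ (m : ℝ) * (1 / 2 * Xc ^ k) := by
      refine le_trans ?_ ((le_of_eq hswap).trans hup)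
      refine le_trans ?_ (Finset.sum_le_sum_of_subset_of_nonneg (Finset.sdiff_subset : S \ Big ⊆ S)
        fun _ _ _ => Nat.cast_nonneg _)
      refine le_trans (le_of_eq ?_) (Finset.card_nsmul_le_sum _ _ _ hlow)
      rw [nsmul_eq_mul]
    have hsplit : ((S \ Big).card : ℝ) + Big.card = Xc ^ k := by
      rw [← hScard, ← Nat.cast_add, Finset.card_sdiff_add_card_eq_card (Finset.filter_subset _ _)]
    have hm' : (0 : ℝ) < m := by exact_mod_cast hmpos
    have h2 : ((S \ Big).card : ℝ) * (3 / 4) ≤ 1 / 2 * Xc ^ k := by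
      refine le_of_mul_le_mul_left ?_ hm'
      linarith
    have := pow_pos hXpos k
    linarith
  have hbigupper : (Big.card : ℝ) ≤ 2 * (∑ J ∈ Finset.Ioc 0 m, (1 / 32 : ℝ) ^ J) * Xc ^ k := by
    have hmaps : ∀ t ∈ Big, (un F t).card ∈ Finset.Ioc 0 m := by
      intro t ht
      obtain ⟨ht1, ht2⟩ := Finset.mem_filter.1 ht
      exact Finset.mem_Ioc.2 ⟨by omega, Finset.card_le_card (hunG t ht1)⟩
    rw [Finset.card_eq_sum_card_fiberwise hmaps, Nat.cast_sum, Finset.mul_sum, Finset.sum_mul]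
    refine Finset.sum_le_sum fun J hJ => ?_
    obtain ⟨hJ0, hJm⟩ := Finset.mem_Ioc.1 hJ
    set BJ := Big.filter fun t => (un F t).card = J with hBJ
    rcases BJ.eq_empty_or_nonempty with h | ⟨t₀, ht₀⟩
    · simp only [h, Finset.card_empty, Nat.cast_zero]; positivity
    have h4J : m ≤ 4 * J := by
      obtain ⟨h1, h2⟩ := Finset.mem_filter.1 ht₀
      exact h2 ▸ (Finset.mem_filter.1 h1).2
    have hmaps' : ∀ t ∈ BJ, un F t ∈ G.powersetCard J := fun t ht => Finset.mem_powersetCard.2
      ⟨hunG t (Finset.mem_filter.1 (Finset.mem_filter.1 ht).1).1, (Finset.mem_filter.1 ht).2⟩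
    have hb : ∀ U ∈ G.powersetCard J, ((BJ.filter fun t => un F t = U).card : ℝ) ≤
        2 * q ^ J * ((goodTuples (Γ := Γ) F H k J).card : ℝ) := by
      intro U hU
      obtain ⟨hUG, hUc⟩ := Finset.mem_powersetCard.1 hU
      refine le_trans (Nat.cast_le.2 (Finset.card_le_card ?_))
        (hUc ▸ tuples_eq_bound hq hH (hUG.trans hG) k)
      exact fun t ht => Finset.mem_filter.2 ⟨Finset.mem_univ _, (Finset.mem_filter.1 ht).2⟩
    have hgood := good_bound (Γ := Γ) hp0 hXpos.le hstep k J hJm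
    rw [hp, mul_pow] at hgood
    have hc1 : (m.choose J : ℝ) ≤ (16 : ℝ) ^ J := by
      calc (m.choose J : ℝ) ≤ (2 : ℝ) ^ m := by exact_mod_cast Nat.choose_le_two_pow m J
        _ ≤ (2 : ℝ) ^ (4 * J) := pow_le_pow_right₀ (by norm_num) h4J
        _ = 16 ^ J := by rw [pow_mul]; norm_num
    have hc2 : ((k * e).choose J : ℝ) ≤ (3 * ((4 * (D + 1) : ℕ) : ℝ)) ^ J := by
      refine le_trans (Nat.cast_le.2 (Nat.choose_le_choose J (hkr.trans ?_)))
        (choose_mul_le (4 * (D + 1)) J (by omega))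
      rw [Nat.mul_comm 4, Nat.mul_assoc]
      exact Nat.mul_le_mul_left _ h4J
    have hkey : ((BJ.card : ℝ)) * K ^ J ≤
        2 * (16 : ℝ) ^ J * (3 * ((4 * (D + 1) : ℕ) : ℝ)) ^ J * Xc ^ k := by
      calc (BJ.card : ℝ) * K ^ J
          ≤ (m.choose J : ℝ) * (2 * q ^ J * ((goodTuples (Γ := Γ) F H k J).card : ℝ)) * K ^ J := by
            refine mul_le_mul_of_nonneg_right ?_ (pow_nonneg hK0.le _)
            rw [Finset.card_eq_sum_card_fiberwise hmaps', Nat.cast_sum]
            refine (Finset.sum_le_card_nsmul _ _ _ hb).trans (le_of_eq ?_)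
            rw [nsmul_eq_mul, Finset.card_powersetCard, hm]
        _ = 2 * (m.choose J : ℝ) *
              (((goodTuples (Γ := Γ) F H k J).card : ℝ) * (K ^ J * q ^ J)) := by ring
        _ ≤ 2 * (m.choose J : ℝ) * (((k * e).choose J : ℝ) * Xc ^ k) :=
            mul_le_mul_of_nonneg_left hgood (by positivity)
        _ ≤ 2 * (16 : ℝ) ^ J * ((3 * ((4 * (D + 1) : ℕ) : ℝ)) ^ J * Xc ^ k) := by
            gcongr
        _ = _ := by ring
    rw [← le_div_iff₀ (pow_pos hK0 J)] at hkey
    refine hkey.trans (le_of_eq ?_)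
    rw [div_pow, one_pow, hK]
    push_cast
    rw [show (6144 : ℝ) * ((D : ℝ) + 1) = 32 * (16 * (3 * (4 * ((D : ℝ) + 1)))) by ring,
      mul_pow, mul_pow]
    field_simp
    simp only [mul_pow]
    ring
  have hsum : ∑ J ∈ Finset.Ioc 0 m, (1 / 32 : ℝ) ^ J ≤ 1 / 31 := by
    have : ∀ a : ℕ, ∑ J ∈ Finset.Ioc 0 a, (1 / 32 : ℝ) ^ J = (1 - (1 / 32) ^ a) / 31 := by
      intro a
      induction a with
      | zero => simp
      | succ a ih => rw [Finset.sum_Ioc_succ_top (Nat.zero_le a), ih, pow_succ]; ring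
    rw [this]
    have : (0 : ℝ) ≤ (1 / 32) ^ m := by positivity
    linarith
  have := pow_pos hXpos k
  nlinarith

end Vale.Agent.P064
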