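import Mathlib
import Vale.Agent.P064.CopyRatio

/-! Merge trees over tuples of translates.

A tuple of translates is weighted by the likelihood ratio of the overlaps met while merging its
children one at a time. The weights average to at most one over free tuples, while on tuples inside
a sparse set they are large, so there are few of the latter. -/

namespace Vale.Agent.P064.Merge

open Finset

open scoped Pointwise

variable {Γ X : Type*} [Group Γ] [Fintype Γ] [DecidableEq X] [MulAction Γ X]
  {ι : Type*} [Fintype ι]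

/-- Union of the translates of `F` by a tuple. -/
def uni (F : Finset X) (t : ι → Γ) : Finset X := Finset.univ.biUnion fun i => t i • F

lemma mem_uni {F : Finset X} {t : ι → Γ} {x : X} : x ∈ uni F t ↔ ∃ i, x ∈ t i • F := by
  simp [uni]

lemma uni_smul (F : Finset X) (h : Γ) (t : ι → Γ) :
    uni F (fun i => h * t i) = h • uni F t := by
  ext x
  rw [mem_uni, ← Finset.inv_smul_mem_iff, mem_uni]
  refine exists_congr fun i => ?_
  rw [mul_smul, Finset.inv_smul_mem_iff]

lemma uni_card_le (F : Finset X) (t : ι → Γ) :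
    (uni F t).card ≤ Fintype.card ι * F.card := by
  refine Finset.card_biUnion_le_card_mul _ _ _ fun i _ => ?_
  rw [Finset.card_smul_finset]

/-- Union of all children. -/
def past (F : Finset X) {G : ℕ} (t : Fin G → ι → Γ) : Finset X :=
  Finset.univ.biUnion fun j => uni F (t j)

/-- Points lying in at least two children. -/
def two (F : Finset X) {G : ℕ} (t : Fin G → ι → Γ) : Finset X :=
  (past F t).filter fun y => 2 ≤ (Finset.univ.filter fun j => y ∈ uni F (t j)).card

lemma past_smul (F : Finset X) {G : ℕ} (h : Γ) (t : Fin G → ι → Γ) :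
    past F (fun j i => h * t j i) = h • past F t := by
  ext x
  rw [← Finset.inv_smul_mem_iff]
  simp only [past, Finset.mem_biUnion, Finset.mem_univ, true_and, uni_smul,
    ← Finset.inv_smul_mem_iff]

lemma mem_two_smul (F : Finset X) {G : ℕ} (h : Γ) (t : Fin G → ι → Γ) (y : X) :
    h • y ∈ two F (fun j i => h * t j i) ↔ y ∈ two F t := by
  simp only [two, Finset.mem_filter, past_smul, uni_smul, Finset.smul_mem_smul_finset_iff]

lemma past_succ (F : Finset X) {G : ℕ} (t : Fin (G + 1) → ι → Γ) :
    past F t = past F (Fin.init t) ∪ uni F (t (Fin.last G)) := by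
  ext y
  simp only [past, Finset.mem_biUnion, Finset.mem_univ, true_and, Finset.mem_union,
    Fin.exists_fin_succ', Fin.init]

lemma card_children_succ (F : Finset X) {G : ℕ} (t : Fin (G + 1) → ι → Γ) (y : X) :
    (Finset.univ.filter fun j => y ∈ uni F (t j)).card =
      (Finset.univ.filter fun j => y ∈ uni F (Fin.init t j)).card +
        if y ∈ uni F (t (Fin.last G)) then 1 else 0 := by
  rw [Finset.card_filter, Finset.card_filter, Fin.sum_univ_castSucc]
  rfl

lemma two_succ_subset (F : Finset X) {G : ℕ} (t : Fin (G + 1) → ι → Γ) :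
    two F (Fin.init t) ∪ (past F (Fin.init t) ∩ uni F (t (Fin.last G))) ⊆ two F t := by
  intro y hy
  simp only [two, Finset.mem_union, Finset.mem_filter, Finset.mem_inter] at hy
  refine Finset.mem_filter.2 ⟨?_, ?_⟩
  · rw [past_succ]
    exact Finset.mem_union_left _ (by tauto)
  · rw [card_children_succ]
    rcases hy with ⟨-, h⟩ | ⟨hp, hu⟩
    · omega
    · rw [if_pos hu]
      have : 0 < (Finset.univ.filter fun j => y ∈ uni F (Fin.init t j)).card := by
        obtain ⟨j, -, hj⟩ := Finset.mem_biUnion.1 hp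
        exact Finset.card_pos.2 ⟨j, Finset.mem_filter.2 ⟨Finset.mem_univ _, hj⟩⟩
      omega

/-- Normalisation of a merge. -/
noncomputable def norm' (a : X → ℝ) (P U : Finset X) : ℝ :=
  (∑ g : Γ, ∏ y ∈ P ∩ g • U, (1 + a y)) / (Fintype.card Γ : ℝ)

lemma norm'_pos {a : X → ℝ} (ha : ∀ y, 0 ≤ a y) (P U : Finset X) :
    0 < norm' (Γ := Γ) a P U := by
  refine div_pos (Finset.sum_pos (fun g _ => Finset.prod_pos fun y _ => ?_) Finset.univ_nonempty)
    (by exact_mod_cast Fintype.card_pos)
  linarith [ha y]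

/-- The weight of merging one more child. -/
noncomputable def merge (F : Finset X) (α β : ℝ) {G : ℕ} (t : Fin G → ι → Γ) (x : ι → Γ) : ℝ :=
  (∏ y ∈ past F t ∩ uni F x, (1 + if y ∈ two F t then α else β)) /
    norm' (Γ := Γ) (fun y => if y ∈ two F t then α else β) (past F t) (uni F x)

/-- The weight of a node. -/
noncomputable def node (F : Finset X) (α β : ℝ) (Ψ : (ι → Γ) → ℝ) :
    (G : ℕ) → (Fin G → ι → Γ) → ℝ
  | 0, _ => 1
  | G + 1, t => node F α β Ψ G (Fin.init t) *
      (Ψ (t (Fin.last G)) * merge F α β (Fin.init t) (t (Fin.last G)))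

variable {F : Finset X} {α β : ℝ} {Ψ : (ι → Γ) → ℝ}

lemma coeff_nonneg (hα : 0 ≤ α) (hβ : 0 ≤ β) {G : ℕ} (t : Fin G → ι → Γ) (y : X) :
    0 ≤ (if y ∈ two F t then α else β) := by split <;> assumption

lemma merge_pos (hα : 0 ≤ α) (hβ : 0 ≤ β) {G : ℕ} (t : Fin G → ι → Γ) (x : ι → Γ) :
    0 < merge F α β t x :=
  div_pos (Finset.prod_pos fun y _ => by linarith [coeff_nonneg (F := F) hα hβ t y])
    (norm'_pos (coeff_nonneg hα hβ t) _ _)

lemma node_pos (hα : 0 ≤ α) (hβ : 0 ≤ β) (hΨ : ∀ x, 0 < Ψ x) :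
    ∀ G (t : Fin G → ι → Γ), 0 < node F α β Ψ G t
  | 0, _ => one_pos
  | G + 1, _ => mul_pos (node_pos hα hβ hΨ G _) (mul_pos (hΨ _) (merge_pos hα hβ _ _))

lemma merge_smul (h : Γ) {G : ℕ} (t : Fin G → ι → Γ) (x : ι → Γ) :
    merge F α β (fun j i => h * t j i) (fun i => h * x i) = merge F α β t x := by
  have hprod : ∀ A B : Finset X,
      (∏ y ∈ h • A ∩ h • B, (1 + if y ∈ two F (fun j i => h * t j i) then α else β)) =
        ∏ y ∈ A ∩ B, (1 + if y ∈ two F t then α else β) := by
    intro A B
    rw [← Finset.smul_finset_inter, Finset.smul_finset_def,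
      Finset.prod_image (fun _ _ _ _ hh => MulAction.injective h hh)]
    simp only [mem_two_smul]
  unfold merge norm'
  rw [past_smul, uni_smul, hprod]
  congr 2
  refine Fintype.sum_equiv (MulAut.conj h⁻¹).toEquiv _ _ fun g => ?_
  rw [← hprod]
  simp only [MulEquiv.toEquiv_eq_coe, EquivLike.coe_coe, MulAut.conj_apply, inv_inv, smul_smul]
  congr 3
  group

lemma node_smul (hΨ : ∀ (h : Γ) x, Ψ (fun i => h * x i) = Ψ x) (h : Γ) :
    ∀ G (t : Fin G → ι → Γ), node F α β Ψ G (fun j i => h * t j i) = node F α β Ψ G t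
  | 0, _ => rfl
  | G + 1, t => by
    simp only [node]
    rw [hΨ]
    have e : Fin.init (fun j i => h * t j i) = fun j i => h * Fin.init t j i := rfl
    rw [e, node_smul hΨ h G, merge_smul]

/-- Averaged over translations of the new child, a merge has weight one. -/
lemma sum_merge (hα : 0 ≤ α) (hβ : 0 ≤ β) {G : ℕ} (t : Fin G → ι → Γ) (x : ι → Γ) :
    ∑ h : Γ, merge F α β t (fun i => h * x i) = (Fintype.card Γ : ℝ) := by
  set a := fun y => if y ∈ two F t then α else β with ha
  have hz : ∀ h : Γ, norm' (Γ := Γ) a (past F t) (uni F fun i => h * x i) =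
      norm' (Γ := Γ) a (past F t) (uni F x) := by
    intro h
    unfold norm'
    congr 1
    exact Fintype.sum_equiv (Equiv.mulRight h) _ _ fun g => by
      rw [Equiv.coe_mulRight, uni_smul, mul_smul]
  have hpos := norm'_pos (Γ := Γ) (coeff_nonneg (F := F) hα hβ t) (past F t) (uni F x)
  unfold merge
  simp only [ha] at hz
  simp only [hz, ← Finset.sum_div]
  rw [div_eq_iff hpos.ne']
  unfold norm'
  rw [mul_div_cancel₀ _ (by exact_mod_cast Fintype.card_ne_zero)]
  simp only [uni_smul]

lemma sum_node_le [DecidableEq ι] (hα : 0 ≤ α) (hβ : 0 ≤ β) (hΨ : ∀ x, 0 < Ψ x)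
    (hinv : ∀ (h : Γ) x, Ψ (fun i => h * x i) = Ψ x) {B : ℝ} (hB : ∑ x : ι → Γ, Ψ x ≤ B) :
    ∀ G, ∑ t : Fin G → ι → Γ, node F α β Ψ G t ≤ B ^ G := by
  intro G
  induction G with
  | zero => simp [node]
  | succ G ih =>
    have hinner : ∀ t : Fin G → ι → Γ, ∑ x : ι → Γ, Ψ x * merge F α β t x ≤ B := by
      intro t
      have hN : (0 : ℝ) < Fintype.card Γ := by exact_mod_cast Fintype.card_pos
      have hh : ∀ h : Γ, ∑ x : ι → Γ, Ψ x * merge F α β t x =
          ∑ x : ι → Γ, Ψ x * merge F α β t (fun i => h * x i) := by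
        intro h
        symm
        exact Fintype.sum_equiv (Equiv.piCongrRight fun _ => Equiv.mulLeft h)
          (fun x : ι → Γ => Ψ x * merge F α β t (fun i => h * x i))
          (fun x => Ψ x * merge F α β t x) fun x => by
          show _ = Ψ (fun i => h * x i) * merge F α β t (fun i => h * x i)
          rw [hinv]
      have h2 : (Fintype.card Γ : ℝ) * ∑ x : ι → Γ, Ψ x * merge F α β t x =
          (∑ x : ι → Γ, Ψ x) * (Fintype.card Γ : ℝ) := by
        rw [← nsmul_eq_mul, ← Finset.card_univ, ← Finset.sum_const,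
          Finset.sum_congr rfl (fun h _ => hh h), Finset.sum_comm, Finset.sum_mul]
        refine Finset.sum_congr rfl fun x _ => ?_
        rw [← Finset.mul_sum, sum_merge hα hβ, Finset.card_univ]
      rw [mul_comm] at h2
      exact (mul_right_cancel₀ hN.ne' h2).trans_le hB
    have hB0 : 0 ≤ B := (Finset.sum_nonneg fun x _ => (hΨ x).le).trans hB
    rw [← (Fin.snocEquiv fun _ : Fin (G + 1) => ι → Γ).sum_comp]
    simp only [Fintype.sum_prod_type, node, Fin.snocEquiv, Equiv.coe_fn_mk, Fin.init_snoc,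
      Fin.snoc_last]
    rw [Finset.sum_comm, pow_succ]
    simp only [← Finset.mul_sum]
    calc ∑ t : Fin G → ι → Γ, node F α β Ψ G t * ∑ x : ι → Γ, Ψ x * merge F α β t x
        ≤ ∑ t : Fin G → ι → Γ, node F α β Ψ G t * B :=
          Finset.sum_le_sum fun t _ =>
            mul_le_mul_of_nonneg_left (hinner t) (node_pos hα hβ hΨ G t).le
      _ ≤ B ^ G * B := by
          rw [← Finset.sum_mul]; exact mul_le_mul_of_nonneg_right ih hB0

/-- The spread factor of the ratio copy bound. -/
noncomputable def lamOf (D : ℕ) (q : ℝ) : ℝ := 55296 * ((D : ℝ) + 1) * q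

lemma cnt_le_lam {H : Finset X} {q : ℝ} (hq : 0 ≤ q) (hH : Sparse Γ q H) {D : ℕ} (hD : 0 < D)
    (S : Finset X) {U : Finset X} (hU : U ⊆ H) :
    (cnt Γ S U : ℝ) ≤ (Fintype.card Γ : ℝ) * lamOf D q ^ S.card *
      Real.exp ((U.card : ℝ) * Real.exp (-(D : ℝ))) := by
  refine (copy_bound_ratio hq hH hD S U hU).trans ?_
  conv_rhs => rw [mul_assoc]
  refine mul_le_mul_of_nonneg_left ?_ (Nat.cast_nonneg (α := ℝ) _)
  rcases Nat.eq_zero_or_pos S.card with hs | hs
  · rw [hs, pow_zero, pow_zero, one_mul]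
    exact Real.one_le_exp (mul_nonneg (Nat.cast_nonneg _) (Real.exp_pos _).le)
  set t : ℝ := (S.card : ℝ) with ht
  have ht0 : 0 < t := by rw [ht]; exact_mod_cast hs
  set u : ℝ := (U.card : ℝ) with hu
  have hu0 : 0 ≤ u := Nat.cast_nonneg _
  set ε := Real.exp (-(D : ℝ)) with hε
  have hD0 : (1 : ℝ) ≤ D := by exact_mod_cast hD
  have key : u ^ ((D : ℝ)⁻¹) / t ^ ((D : ℝ)⁻¹) ≤ 3 * Real.exp (u / t * ε) := by
    rw [← Real.div_rpow hu0 ht0.le]
    have hz : 0 ≤ u / t := div_nonneg hu0 ht0.le
    have h1 : u / t ≤ Real.exp ((D : ℝ) + u / t * ε) := by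
      rw [Real.exp_add]
      have h := Real.add_one_le_exp (u / t * ε)
      calc u / t = Real.exp (D : ℝ) * (u / t * ε) := by
            rw [hε, Real.exp_neg]; field_simp
        _ ≤ _ := mul_le_mul_of_nonneg_left (by linarith) (Real.exp_pos _).le
    refine (Real.rpow_le_rpow hz h1 (by positivity)).trans ?_
    rw [← Real.exp_mul]
    refine le_trans ((Real.exp_le_exp (y := 1 + u / t * ε)).2 ?_) ?_
    · rw [add_mul, mul_inv_cancel₀ (by linarith)]
      refine add_le_add le_rfl (mul_le_of_le_one_right (by positivity) ?_)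
      exact inv_le_one_of_one_le₀ hD0
    · rw [Real.exp_add]
      exact mul_le_mul_of_nonneg_right (by linarith [Real.exp_one_lt_d9]) (Real.exp_pos _).le
  have hrw : Real.exp (u * ε) = Real.exp (u / t * ε) ^ S.card := by
    rw [← Real.exp_nat_mul, ← ht]
    congr 1
    field_simp
  rw [hrw, ← mul_pow]
  refine pow_le_pow_left₀ (by positivity) ?_ _
  rw [mul_div_assoc]
  refine (mul_le_mul_of_nonneg_left key (by positivity)).trans (le_of_eq ?_)
  unfold lamOf
  ring

/-- The normalisation is small when the new child lies inside the sparse set. -/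
lemma norm'_le {H : Finset X} {q : ℝ} (hq : 0 ≤ q) (hH : Sparse Γ q H) {D : ℕ} (hD : 0 < D)
    {a : X → ℝ} (ha : ∀ y, 0 ≤ a y) (P : Finset X) {U : Finset X} (hU : U ⊆ H) :
    norm' (Γ := Γ) a P U ≤
      Real.exp ((U.card : ℝ) * Real.exp (-(D : ℝ)) + lamOf D q * ∑ y ∈ P, a y) := by
  classical
  have hN : (0 : ℝ) < Fintype.card Γ := by exact_mod_cast Fintype.card_pos
  have hlam : 0 ≤ lamOf D q := by unfold lamOf; positivity
  have hcount : ∀ S : Finset X,
      ((Finset.univ.filter fun g : Γ => S ⊆ g • U).card : ℝ) = (cnt Γ S U : ℝ) := by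
    intro S
    rw [cnt]
    norm_cast
    refine Finset.card_bij' (fun g _ => g⁻¹) (fun g _ => g⁻¹) ?_ ?_ ?_ ?_
    · intro g hg
      refine Finset.mem_filter.2 ⟨Finset.mem_univ _, ?_⟩
      rw [← Finset.subset_smul_finset_iff]
      exact (Finset.mem_filter.1 hg).2
    · intro g hg
      refine Finset.mem_filter.2 ⟨Finset.mem_univ _, ?_⟩
      rw [← inv_smul_smul g S]
      exact Finset.smul_finset_subset_smul_finset (Finset.mem_filter.1 hg).2
    · intro g _; simp
    · intro g _; simp
  have hexpand : ∑ g : Γ, ∏ y ∈ P ∩ g • U, (1 + a y) =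
      ∑ S ∈ P.powerset, (cnt Γ S U : ℝ) * ∏ y ∈ S, a y := by
    have h1 : ∀ g : Γ, ∏ y ∈ P ∩ g • U, (1 + a y) =
        ∑ S ∈ P.powerset, if S ⊆ g • U then ∏ y ∈ S, a y else 0 := by
      intro g
      rw [Finset.prod_one_add, ← Finset.sum_filter]
      refine Finset.sum_congr ?_ fun _ _ => rfl
      ext S
      rw [Finset.mem_powerset, Finset.mem_filter, Finset.mem_powerset, Finset.subset_inter_iff]
    simp only [h1]
    rw [Finset.sum_comm]
    refine Finset.sum_congr rfl fun S _ => ?_
    rw [← Finset.sum_filter, Finset.sum_const, nsmul_eq_mul, hcount]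
  unfold norm'
  rw [hexpand, div_le_iff₀ hN]
  calc ∑ S ∈ P.powerset, (cnt Γ S U : ℝ) * ∏ y ∈ S, a y
      ≤ ∑ S ∈ P.powerset, (Fintype.card Γ : ℝ) * lamOf D q ^ S.card *
          Real.exp ((U.card : ℝ) * Real.exp (-(D : ℝ))) * ∏ y ∈ S, a y :=
        Finset.sum_le_sum fun S _ => mul_le_mul_of_nonneg_right (cnt_le_lam hq hH hD S hU)
          (Finset.prod_nonneg fun y _ => ha y)
    _ = (Fintype.card Γ : ℝ) * Real.exp ((U.card : ℝ) * Real.exp (-(D : ℝ))) *
          ∏ y ∈ P, (1 + lamOf D q * a y) := by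
        rw [Finset.prod_one_add, Finset.mul_sum]
        refine Finset.sum_congr rfl fun S _ => ?_
        rw [Finset.prod_mul_distrib, Finset.prod_const]
        ring
    _ ≤ (Fintype.card Γ : ℝ) * Real.exp ((U.card : ℝ) * Real.exp (-(D : ℝ))) *
          Real.exp (lamOf D q * ∑ y ∈ P, a y) := by
        refine mul_le_mul_of_nonneg_left ?_ (mul_nonneg hN.le (Real.exp_pos _).le)
        rw [Finset.mul_sum, Real.exp_sum]
        refine Finset.prod_le_prod (fun y _ => ?_) fun y _ => ?_
        · have := mul_nonneg hlam (ha y); linarith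
        · linarith [Real.add_one_le_exp (lamOf D q * a y)]
    _ = _ := by rw [Real.exp_add]; ring

/-- Pointwise lower bound for the weight of a node inside the sparse set. -/
lemma log_node_ge {H : Finset X} {q : ℝ} (hq : 0 < q) (hH : Sparse Γ q H) {D : ℕ} (hD : 0 < D)
    {Gp M : ℝ} (hG : 1 ≤ Gp) (hM : 1 ≤ M) (hΨ : ∀ x, 0 < Ψ x) :
    ∀ G (t : Fin G → ι → Γ), (∀ j, uni F (t j) ⊆ H) →
      ∑ j, Real.log (Ψ (t j)) +
        (-Real.log (lamOf D q * Gp)) * (∑ j, ((uni F (t j)).card : ℝ) - (past F t).card) -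
        Real.log M * (two F t).card - Real.exp (-(D : ℝ)) * ∑ j, ((uni F (t j)).card : ℝ) -
        (G : ℝ) / Gp * ((two F t).card + (past F t).card / M) ≤
      Real.log (node F (1 / (lamOf D q * Gp)) (1 / (lamOf D q * Gp * M)) Ψ G t) := by
  set lam := lamOf D q with hlam
  have hlam0 : 0 < lam := by rw [hlam]; unfold lamOf; positivity
  set α := 1 / (lam * Gp) with hα
  set β := 1 / (lam * Gp * M) with hβ
  have hα0 : 0 < α := by positivity
  have hβ0 : 0 < β := by positivity
  set c := -Real.log (lam * Gp) with hc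
  have hlogM : 0 ≤ Real.log M := Real.log_nonneg hM
  intro G
  induction G with
  | zero => intro t _; simp [node, two, past]
  | succ G ih =>
    intro t ht
    have hih := ih (Fin.init t) fun j => ht j.castSucc
    set P := past F (Fin.init t) with hP
    set T := two F (Fin.init t) with hT
    set u := uni F (t (Fin.last G)) with hu
    set a : X → ℝ := fun y => if y ∈ T then α else β with ha
    have ha0 : ∀ y, 0 ≤ a y := fun y => by rw [ha]; dsimp only; split <;> positivity
    have hnode : Real.log (node F α β Ψ (G + 1) t) = Real.log (node F α β Ψ G (Fin.init t)) +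
        (Real.log (Ψ (t (Fin.last G))) + Real.log (merge F α β (Fin.init t) (t (Fin.last G)))) := by
      rw [node, Real.log_mul (node_pos hα0.le hβ0.le hΨ _ _).ne'
        (mul_pos (hΨ _) (merge_pos hα0.le hβ0.le _ _)).ne',
        Real.log_mul (hΨ _).ne' (merge_pos hα0.le hβ0.le _ _).ne']
    have hmerge : ∑ y ∈ P ∩ u, Real.log (a y) -
        ((u.card : ℝ) * Real.exp (-(D : ℝ)) + lam * ∑ y ∈ P, a y) ≤
        Real.log (merge F α β (Fin.init t) (t (Fin.last G))) := by
      unfold merge
      rw [Real.log_div (Finset.prod_ne_zero_iff.2 fun y _ => by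
        have := ha0 y; simp only [ha] at this; linarith) (norm'_pos ha0 P u).ne',
        Real.log_prod (fun y _ => by have := ha0 y; simp only [ha] at this; linarith)]
      refine sub_le_sub (Finset.sum_le_sum fun y _ => ?_) ?_
      · refine Real.log_le_log ?_ ?_
        · rw [ha]; dsimp only; split <;> assumption
        · exact le_add_of_nonneg_left zero_le_one
      · exact (Real.log_le_iff_le_exp (norm'_pos ha0 P u)).2
          (norm'_le hq.le hH hD ha0 P (ht _))
    have hlogsum : c * ((P ∩ u).card : ℝ) - Real.log M * (((P ∩ u) \ T).card : ℝ) =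
        ∑ y ∈ P ∩ u, Real.log (a y) := by
      have hla : ∀ y, Real.log (a y) = c - if y ∈ T then 0 else Real.log M := by
        intro y
        simp only [ha]
        split
        · rw [hα, one_div, Real.log_inv, sub_zero]
        · rw [hβ, one_div, Real.log_inv, Real.log_mul (by positivity) (by linarith), neg_add, hc]
          ring
      simp only [hla, Finset.sum_sub_distrib, Finset.sum_const, nsmul_eq_mul, Finset.sum_ite,
        zero_add, mul_zero]
      rw [Finset.filter_notMem_eq_sdiff]
      ring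
    have hTP : T ⊆ P := Finset.filter_subset _ _
    have hsumP : lam * ∑ y ∈ P, a y ≤ ((T.card : ℝ) + (P.card : ℝ) / M) / Gp := by
      have h1 : ∑ y ∈ P, a y ≤ (T.card : ℝ) * α + (P.card : ℝ) * β := by
        simp only [ha, Finset.sum_ite, Finset.sum_const, nsmul_eq_mul]
        refine add_le_add (mul_le_mul_of_nonneg_right ?_ hα0.le)
          (mul_le_mul_of_nonneg_right ?_ hβ0.le)
        · exact_mod_cast Finset.card_le_card fun y hy => (Finset.mem_filter.1 hy).2
        · exact_mod_cast Finset.card_filter_le _ _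
      refine (mul_le_mul_of_nonneg_left h1 hlam0.le).trans (le_of_eq ?_)
      rw [hα, hβ]
      field_simp
    -- the bookkeeping of cardinalities
    have hpast : ((past F t).card : ℝ) = (P.card : ℝ) + u.card - ((P ∩ u).card : ℝ) := by
      rw [past_succ]
      have := Finset.card_union_add_card_inter P u
      have : ((P ∪ u).card : ℝ) + ((P ∩ u).card : ℝ) = P.card + u.card := by exact_mod_cast this
      linarith
    have htwo : (T.card : ℝ) + (((P ∩ u) \ T).card : ℝ) ≤ ((two F t).card : ℝ) := by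
      rw [← Nat.cast_add, ← Finset.card_union_of_disjoint Finset.disjoint_sdiff,
        Finset.union_sdiff_self_eq_union]
      exact_mod_cast Finset.card_le_card (two_succ_subset F t)
    have hpast' : (P.card : ℝ) ≤ ((past F t).card : ℝ) := by
      rw [past_succ]; exact_mod_cast Finset.card_le_card Finset.subset_union_left
    rw [hnode, Fin.sum_univ_castSucc, Fin.sum_univ_castSucc]
    have hG0 : 0 < Gp := by linarith
    have hM0 : 0 < M := by linarith
    have hsdiff : (0 : ℝ) ≤ (((P ∩ u) \ T).card : ℝ) := Nat.cast_nonneg _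
    have h1 : Real.log M * ((T.card : ℝ) + (((P ∩ u) \ T).card : ℝ)) ≤
        Real.log M * ((two F t).card : ℝ) := mul_le_mul_of_nonneg_left htwo hlogM
    have h2 : (G : ℝ) / Gp * ((T.card : ℝ) + (P.card : ℝ) / M) +
        ((T.card : ℝ) + (P.card : ℝ) / M) / Gp ≤
        ((G + 1 : ℕ) : ℝ) / Gp * (((two F t).card : ℝ) + ((past F t).card : ℝ) / M) := by
      have : ((G + 1 : ℕ) : ℝ) / Gp * ((T.card : ℝ) + (P.card : ℝ) / M) ≤
          ((G + 1 : ℕ) : ℝ) / Gp * (((two F t).card : ℝ) + ((past F t).card : ℝ) / M) := by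
        refine mul_le_mul_of_nonneg_left (add_le_add (by linarith) ?_) (by positivity)
        exact div_le_div_of_nonneg_right hpast' hM0.le
      refine le_trans (le_of_eq ?_) this
      push_cast
      ring
    rw [hpast] at *
    simp only [← hP, ← hT, ← hu, Fin.init] at hih ⊢
    linarith

end Vale.Agent.P064.Merge
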