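import Mathlib
import Vale.Agent.P064.MergeTree

/-! Iterated merge trees: translates of a set inside a sparse set are few, with a loss that grows
like `exp (O (√ log log |H|))`. -/

namespace Vale.Agent.P064.Merge

open Finset

open scoped Pointwise

variable {Γ X : Type*} [Group Γ] [Fintype Γ] [DecidableEq X] [MulAction Γ X]

/-- The group elements moving `F` into `H`. -/
def inside (Γ : Type*) {X : Type*} [Group Γ] [Fintype Γ] [DecidableEq X] [MulAction Γ X]
    (F H : Finset X) : Finset Γ :=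
  Finset.univ.filter fun g : Γ => g • F ⊆ H

lemma uni_subset {ι : Type*} [Fintype ι] [DecidableEq ι] {F H : Finset X} {t : ι → Γ}
    (ht : t ∈ Fintype.piFinset fun _ : ι => inside Γ F H) : uni F t ⊆ H := by
  intro y hy
  obtain ⟨i, hi⟩ := mem_uni.1 hy
  exact (Finset.mem_filter.1 (Fintype.mem_piFinset.1 ht i)).2 hi

/-- Tuples inside a sparse set carry little weight, even after reweighting by `q ^ (-|uni t|)`. -/
lemma root_bound {ι : Type*} [Fintype ι] [DecidableEq ι] {F H : Finset X} {q B : ℝ} (hq : 0 < q)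
    (hH : Sparse Γ q H) {Ψ : (ι → Γ) → ℝ} (hΨ : ∀ x, 0 < Ψ x)
    (hinv : ∀ (h : Γ) x, Ψ (fun i => h * x i) = Ψ x) (hB : ∑ x : ι → Γ, Ψ x ≤ B) :
    ∑ t ∈ Fintype.piFinset (fun _ : ι => inside Γ F H), Ψ t * (q ^ (uni F t).card)⁻¹ ≤
      2 * 2 ^ H.card * B := by
  classical
  have hN : (0 : ℝ) < Fintype.card Γ := by exact_mod_cast Fintype.card_pos
  have hB0 : 0 ≤ B := (Finset.sum_nonneg fun x _ => (hΨ x).le).trans hB
  rw [← Finset.sum_fiberwise_of_maps_to (g := fun t => uni F t) (t := H.powerset)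
    fun t ht => Finset.mem_powerset.2 (uni_subset ht)]
  have hU : ∀ U ∈ H.powerset,
      ∑ t ∈ (Fintype.piFinset fun _ : ι => inside Γ F H).filter (fun t => uni F t = U),
        Ψ t * (q ^ (uni F t).card)⁻¹ ≤ 2 * B := by
    intro U hU
    set K := ∑ t ∈ Finset.univ.filter (fun t : ι → Γ => uni F t = U), Ψ t with hK
    have htr : ∀ g : Γ, K =
        ∑ t ∈ Finset.univ.filter (fun t : ι → Γ => uni F t = g • U), Ψ t := by
      intro g
      refine Finset.sum_equiv (Equiv.piCongrRight fun _ : ι => Equiv.mulLeft g) ?_ ?_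
      · intro t
        simp only [Finset.mem_filter, Finset.mem_univ, true_and]
        rw [show (Equiv.piCongrRight (fun _ : ι => Equiv.mulLeft g)) t = fun i => g * t i from rfl,
          uni_smul]
        exact ((MulAction.injective g).eq_iff).symm
      · intro t _
        exact (hinv g t).symm
    have hKle : (Fintype.card Γ : ℝ) * K ≤ (stab Γ U : ℝ) * B := by
      calc (Fintype.card Γ : ℝ) * K
          = ∑ g : Γ, ∑ t : ι → Γ, if uni F t = g • U then Ψ t else 0 := by
            rw [← nsmul_eq_mul, ← Finset.card_univ, ← Finset.sum_const]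
            refine Finset.sum_congr rfl fun g _ => ?_
            rw [htr g, Finset.sum_filter]
        _ = ∑ t : ι → Γ, ((Finset.univ.filter fun g : Γ => g • U = uni F t).card : ℝ) * Ψ t := by
            rw [Finset.sum_comm]
            refine Finset.sum_congr rfl fun t _ => ?_
            rw [← Finset.sum_filter, Finset.sum_const, nsmul_eq_mul]
            simp only [eq_comm]
        _ ≤ ∑ t : ι → Γ, (stab Γ U : ℝ) * Ψ t :=
            Finset.sum_le_sum fun t _ => mul_le_mul_of_nonneg_right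
              (by exact_mod_cast fiber_le_stab (Γ := Γ) U (uni F t)) (hΨ t).le
        _ ≤ (stab Γ U : ℝ) * B := by
            rw [← Finset.mul_sum]; exact mul_le_mul_of_nonneg_left hB (Nat.cast_nonneg _)
    have hKU : K ≤ 2 * q ^ U.card * B := by
      refine le_of_mul_le_mul_left (hKle.trans ?_) hN
      refine (mul_le_mul_of_nonneg_right (hH U (Finset.mem_powerset.1 hU)) hB0).trans (le_of_eq ?_)
      ring
    have hq' : (0 : ℝ) < q ^ U.card := pow_pos hq _
    calc _ = ∑ t ∈ (Fintype.piFinset fun _ : ι => inside Γ F H).filter (fun t => uni F t = U),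
          Ψ t * (q ^ U.card)⁻¹ :=
          Finset.sum_congr rfl fun t ht => by rw [(Finset.mem_filter.1 ht).2]
      _ = (∑ t ∈ (Fintype.piFinset fun _ : ι => inside Γ F H).filter (fun t => uni F t = U),
          Ψ t) * (q ^ U.card)⁻¹ := (Finset.sum_mul _ _ _).symm
      _ ≤ K * (q ^ U.card)⁻¹ := by
          refine mul_le_mul_of_nonneg_right ?_ (inv_nonneg.2 hq'.le)
          refine Finset.sum_le_sum_of_subset_of_nonneg ?_ fun t _ _ => (hΨ t).le
          exact Finset.filter_subset_filter _ (Finset.subset_univ _)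
      _ ≤ 2 * q ^ U.card * B * (q ^ U.card)⁻¹ :=
          mul_le_mul_of_nonneg_right hKU (inv_nonneg.2 hq'.le)
      _ = 2 * B := by field_simp
  refine (Finset.sum_le_sum hU).trans (le_of_eq ?_)
  rw [Finset.sum_const, Finset.card_powerset, nsmul_eq_mul]
  push_cast
  ring

/-- A positive invariant weight on `n`-tuples of average at most one whose logarithm, averaged over
the tuples inside `H`, is at least `c` times the total overlap minus `A`. -/
def HasWeight (Γ : Type*) {X : Type*} [Group Γ] [Fintype Γ] [DecidableEq X] [MulAction Γ X]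
    (F H : Finset X) (c : ℝ) (n : ℕ) (A : ℝ) : Prop :=
  ∃ (ι : Type) (_ : Fintype ι) (_ : DecidableEq ι), Fintype.card ι = n ∧ ∃ Ψ : (ι → Γ) → ℝ,
    (∀ x, 0 < Ψ x) ∧ (∀ (h : Γ) x, Ψ (fun i => h * x i) = Ψ x) ∧
    (∑ x : ι → Γ, Ψ x ≤ (Fintype.card Γ : ℝ) ^ n) ∧
    c * (((Fintype.piFinset fun _ : ι => inside Γ F H).card : ℝ) * (n * F.card) -
        ∑ t ∈ Fintype.piFinset (fun _ : ι => inside Γ F H), ((uni F t).card : ℝ)) -
      A * ((Fintype.piFinset fun _ : ι => inside Γ F H).card : ℝ) ≤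
      ∑ t ∈ Fintype.piFinset (fun _ : ι => inside Γ F H), Real.log (Ψ t)

lemma hasWeight_one (F H : Finset X) (c : ℝ) : HasWeight Γ F H c 1 0 := by
  refine ⟨Unit, inferInstance, inferInstance, rfl, fun _ => 1, fun _ => one_pos,
    fun _ _ => rfl, ?_, ?_⟩
  · simp
  · have h : ∀ t : Unit → Γ, (uni F t).card = F.card := fun t => by
      simp [uni]
    simp [h]

/-- The share of the translates inside `H` covering `y`. -/
noncomputable def cover (Γ : Type*) {X : Type*} [Group Γ] [Fintype Γ] [DecidableEq X]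
    [MulAction Γ X] (F H : Finset X) (y : X) : ℝ :=
  (((inside Γ F H).filter fun g => y ∈ g • F).card : ℝ) / ((inside Γ F H).card : ℝ)

lemma cover_nonneg (F H : Finset X) (y : X) : 0 ≤ cover Γ F H y :=
  div_nonneg (Nat.cast_nonneg _) (Nat.cast_nonneg _)

lemma sum_cover {F H : Finset X} (hS : (inside Γ F H).Nonempty) :
    ∑ y ∈ H, cover Γ F H y = F.card := by
  unfold cover
  rw [← Finset.sum_div, ← Nat.cast_sum, div_eq_iff (by exact_mod_cast hS.card_pos.ne'),
    ← Nat.cast_mul, Nat.cast_inj]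
  simp only [Finset.card_filter]
  rw [Finset.sum_comm, Finset.sum_congr rfl (g := fun _ => F.card) fun g hg => ?_]
  · rw [Finset.sum_const, smul_eq_mul, mul_comm]
  · rw [← Finset.card_filter]
    have h : H.filter (fun y => y ∈ g • F) = g • F := by
      ext y
      simp only [Finset.mem_filter, and_iff_right_iff_imp]
      exact fun hy => (Finset.mem_filter.1 hg).2 hy
    rw [h, Finset.card_smul_finset]

/-- Averaging a function of one child over tuples of children. -/
lemma sum_children {κ : Type*} [DecidableEq κ] {G : ℕ} (T : Finset κ) (hT : T.Nonempty)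
    (f : κ → ℝ) :
    ∑ t ∈ Fintype.piFinset (fun _ : Fin G => T), ∑ j, f (t j) =
      (G : ℝ) * (T.card : ℝ) ^ G * ((∑ x ∈ T, f x) / (T.card : ℝ)) := by
  have hT0 : (T.card : ℝ) ≠ 0 := by exact_mod_cast hT.card_pos.ne'
  have hj : ∀ j : Fin G, ∑ t ∈ Fintype.piFinset (fun _ : Fin G => T), f (t j) =
      (T.card : ℝ) ^ G * ((∑ x ∈ T, f x) / (T.card : ℝ)) := by
    intro j
    rw [← Finset.sum_fiberwise_of_maps_to (g := fun t : Fin G → κ => t j) (t := T)
      (fun t ht => Fintype.mem_piFinset.1 ht j), mul_div_assoc']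
    rw [eq_div_iff hT0, Finset.mul_sum, Finset.sum_mul]
    refine Finset.sum_congr rfl fun x hx => ?_
    rw [Finset.sum_congr rfl (g := fun _ => f x) fun t ht => by rw [(Finset.mem_filter.1 ht).2],
      Finset.sum_const, nsmul_eq_mul]
    have hc := Fintype.card_filter_piFinset_const_eq_of_mem T j hx
    rw [Fintype.card_fin] at hc
    rw [hc]
    push_cast
    have hG : G = G - 1 + 1 := by have := j.isLt; omega
    conv_rhs => rw [hG, pow_succ]
    ring
  rw [Finset.sum_comm, Finset.sum_congr rfl fun j _ => hj j, Finset.sum_const, nsmul_eq_mul,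
    Finset.card_univ, Fintype.card_fin]
  ring

/-- Few tuples have two translates through a given point. -/
lemma pair_count {κ : Type*} [Fintype κ] [DecidableEq κ] {F H : Finset X} (y : X)
    (hS : (inside Γ F H).Nonempty) :
    (((Fintype.piFinset fun _ : κ => inside Γ F H).filter
        fun s => ∃ a b, a ≠ b ∧ y ∈ s a • F ∧ y ∈ s b • F).card : ℝ) ≤
      ((Fintype.piFinset fun _ : κ => inside Γ F H).card : ℝ) *
        min 1 (((Fintype.card κ : ℝ) * cover Γ F H y) ^ 2) := by
  classical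
  set S := inside Γ F H with hSdef
  set A := S.filter fun g => y ∈ g • F with hA
  set T := Fintype.piFinset fun _ : κ => S with hT
  have hs0 : (0 : ℝ) < S.card := by exact_mod_cast hS.card_pos
  rw [mul_min_of_nonneg _ _ (Nat.cast_nonneg _), mul_one]
  refine le_min (by exact_mod_cast Finset.card_filter_le _ _) ?_
  set pairs := (Finset.univ : Finset κ).offDiag with hp
  have hsub : T.filter (fun s => ∃ a b, a ≠ b ∧ y ∈ s a • F ∧ y ∈ s b • F) ⊆
      pairs.biUnion fun z => Fintype.piFinset fun k => if k ∈ ({z.1, z.2} : Finset κ) then A else S := by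
    intro s hs
    obtain ⟨hsT, a, b, hab, ha, hb⟩ := Finset.mem_filter.1 hs
    refine Finset.mem_biUnion.2 ⟨(a, b), Finset.mem_offDiag.2 ⟨mem_univ _, mem_univ _, hab⟩, ?_⟩
    refine Fintype.mem_piFinset.2 fun k => ?_
    have hk := Fintype.mem_piFinset.1 hsT k
    split
    · next h =>
      simp only [Finset.mem_insert, Finset.mem_singleton] at h
      rcases h with rfl | rfl
      · exact Finset.mem_filter.2 ⟨hk, ha⟩
      · exact Finset.mem_filter.2 ⟨hk, hb⟩
    · exact hk
  have hone : ∀ z ∈ pairs,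
      ((Fintype.piFinset fun k => if k ∈ ({z.1, z.2} : Finset κ) then A else S).card : ℝ) =
        (T.card : ℝ) * cover Γ F H y ^ 2 := by
    intro z hz
    have hne : z.1 ≠ z.2 := (Finset.mem_offDiag.1 hz).2.2
    rw [hT, Fintype.card_piFinset, Fintype.card_piFinset]
    push_cast
    unfold cover
    rw [← hSdef, ← hA, div_pow, mul_div_assoc', eq_div_iff (by positivity)]
    have h2 : ∀ x : ℝ, ∏ k : κ, (if k ∈ ({z.1, z.2} : Finset κ) then x else 1) = x ^ 2 := by
      intro x
      rw [Finset.prod_ite_mem, Finset.univ_inter, Finset.prod_const, Finset.card_pair hne]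
    rw [← h2 (S.card : ℝ), ← h2 (A.card : ℝ), ← Finset.prod_mul_distrib,
      ← Finset.prod_mul_distrib]
    refine Finset.prod_congr rfl fun k _ => ?_
    split
    · ring
    · simp
  calc ((T.filter _).card : ℝ)
      ≤ ∑ z ∈ pairs,
        ((Fintype.piFinset fun k => if k ∈ ({z.1, z.2} : Finset κ) then A else S).card : ℝ) := by
        exact_mod_cast (Finset.card_le_card hsub).trans Finset.card_biUnion_le
    _ = (pairs.card : ℝ) * ((T.card : ℝ) * cover Γ F H y ^ 2) := by
        rw [Finset.sum_congr rfl hone, Finset.sum_const, nsmul_eq_mul]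
    _ ≤ (Fintype.card κ : ℝ) ^ 2 * ((T.card : ℝ) * cover Γ F H y ^ 2) := by
        refine mul_le_mul_of_nonneg_right ?_ (by positivity)
        rw [sq, ← Nat.cast_mul, Nat.cast_le, hp, Finset.offDiag_card, Finset.card_univ]
        exact Nat.sub_le _ _
    _ = _ := by ring

/-- The expected number of points covered twice among `n` translates. -/
noncomputable def twice (Γ : Type*) {X : Type*} [Group Γ] [Fintype Γ] [DecidableEq X]
    [MulAction Γ X] (F H : Finset X) (n : ℕ) : ℝ :=
  ∑ y ∈ H, min 1 (((n : ℝ) * cover Γ F H y) ^ 2)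

lemma hasWeight_step {F H : Finset X} {q : ℝ} (hq : 0 < q) (hH : Sparse Γ q H) {D : ℕ}
    (hD : 0 < D) {Gp M : ℝ} (hGp : 1 ≤ Gp) (hM : 1 ≤ M) (hS : (inside Γ F H).Nonempty)
    {G : ℕ} (hG : (G : ℝ) ≤ Gp) {n : ℕ} {A : ℝ}
    (hw : HasWeight Γ F H (-Real.log (lamOf D q * Gp)) n A) :
    HasWeight Γ F H (-Real.log (lamOf D q * Gp)) (G * n)
      (G * A + (Real.log M + 1) * twice Γ F H (G * n) +
        ((G * n : ℕ) : ℝ) * F.card * (Real.exp (-(D : ℝ)) + 1 / M)) := by
  classical
  obtain ⟨ι, hι, hι', hn, Ψ, hΨ, hinv, hsum, hlog⟩ := hw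
  set c := -Real.log (lamOf D q * Gp) with hc
  have hlam0 : 0 < lamOf D q := by unfold lamOf; positivity
  set α := 1 / (lamOf D q * Gp) with hα
  set β := 1 / (lamOf D q * Gp * M) with hβ
  have hα0 : 0 ≤ α := by positivity
  have hβ0 : 0 ≤ β := by positivity
  let cur : (Fin G × ι → Γ) ≃ (Fin G → ι → Γ) := Equiv.curry (Fin G) ι Γ
  refine ⟨Fin G × ι, inferInstance, inferInstance, by simp [hn],
    fun s => node F α β Ψ G (cur s), fun s => node_pos hα0 hβ0 hΨ G _,
    fun h s => node_smul hinv h G (cur s), ?_, ?_⟩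
  · rw [cur.sum_comp (fun t => node F α β Ψ G t), mul_comm G n, pow_mul]
    exact sum_node_le hα0 hβ0 hΨ hinv hsum G
  set T := Fintype.piFinset fun _ : ι => inside Γ F H with hT
  have hT0 : T.Nonempty := Fintype.piFinset_nonempty.2 fun _ => hS
  set T' := Fintype.piFinset fun _ : Fin G × ι => inside Γ F H with hT'
  have hmove : ∀ f : (Fin G → ι → Γ) → ℝ,
      ∑ s ∈ T', f (cur s) = ∑ t ∈ Fintype.piFinset (fun _ : Fin G => T), f t := by
    intro f
    refine Finset.sum_equiv cur ?_ fun _ _ => rfl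
    intro s
    simp only [hT', hT, Fintype.mem_piFinset, Prod.forall]
    rfl
  have hcard : (T'.card : ℝ) = (T.card : ℝ) ^ G := by
    have := hmove fun _ => 1
    rw [Finset.sum_const, Finset.sum_const, nsmul_one, nsmul_one] at this
    rw [this]
    simp
  have hTne : (T.card : ℝ) ≠ 0 := by exact_mod_cast hT0.card_pos.ne'
  have hTp : (0 : ℝ) < T.card := by exact_mod_cast hT0.card_pos
  have huni : ∀ s, uni F s = past F (cur s) := by
    intro s
    ext y
    simp only [past, Finset.mem_biUnion, Finset.mem_univ, true_and, mem_uni, Prod.exists]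
    rfl
  -- pointwise bound
  have hpt : ∀ s ∈ T', ∑ j, Real.log (Ψ (cur s j)) +
      c * (∑ j, ((uni F (cur s j)).card : ℝ) - (uni F s).card) -
      (Real.log M + 1) * (two F (cur s)).card -
      ((G * n : ℕ) : ℝ) * F.card * (Real.exp (-(D : ℝ)) + 1 / M) ≤
      Real.log (node F α β Ψ G (cur s)) := by
    intro s hs
    rw [huni]
    refine le_trans ?_ (log_node_ge hq hH hD hGp hM hΨ G (cur s) fun j => uni_subset
      (Fintype.mem_piFinset.2 fun i => Fintype.mem_piFinset.1 hs (j, i)))
    have hu : ∑ j, ((uni F (cur s j)).card : ℝ) ≤ ((G * n : ℕ) : ℝ) * F.card := by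
      refine (Finset.sum_le_sum (g := fun _ => ((n * F.card : ℕ) : ℝ)) fun j _ => ?_).trans
        (le_of_eq ?_)
      · rw [← hn]; exact_mod_cast uni_card_le F (cur s j)
      · simp only [Finset.sum_const, Finset.card_univ, Fintype.card_fin, nsmul_eq_mul]
        push_cast; ring
    have hpa : ((past F (cur s)).card : ℝ) ≤ ((G * n : ℕ) : ℝ) * F.card := by
      have := uni_card_le F s
      rw [huni, Fintype.card_prod, Fintype.card_fin, hn] at this
      exact_mod_cast this
    have hGG : (G : ℝ) / Gp ≤ 1 := (div_le_one (by linarith)).2 hG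
    have h1 := mul_le_mul_of_nonneg_left hu (Real.exp_pos (-(D : ℝ))).le
    have h2 : (G : ℝ) / Gp * ((two F (cur s)).card + (past F (cur s)).card / M) ≤
        (two F (cur s)).card + (past F (cur s)).card / M :=
      mul_le_of_le_one_left (by positivity) hGG
    have h3 := div_le_div_of_nonneg_right hpa (show (0 : ℝ) ≤ M by linarith)
    have h4 : ((G * n : ℕ) : ℝ) * F.card * (1 / M) = ((G * n : ℕ) : ℝ) * F.card / M := by ring
    linarith
  -- points covered twice
  have htwo : ∑ s ∈ T', ((two F (cur s)).card : ℝ) ≤ (T'.card : ℝ) * twice Γ F H (G * n) := by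
    calc ∑ s ∈ T', ((two F (cur s)).card : ℝ)
        ≤ ∑ s ∈ T', ∑ y ∈ H,
          (if ∃ a b, a ≠ b ∧ y ∈ s a • F ∧ y ∈ s b • F then (1 : ℝ) else 0) := by
          refine Finset.sum_le_sum fun s hs => ?_
          rw [Finset.sum_boole, Nat.cast_le]
          refine Finset.card_le_card fun y hy => Finset.mem_filter.2 ?_
          obtain ⟨hyP, hy2⟩ := Finset.mem_filter.1 hy
          obtain ⟨j, hj, j', hj', hne⟩ := Finset.one_lt_card.1 hy2
          obtain ⟨i, hi⟩ := mem_uni.1 (Finset.mem_filter.1 hj).2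
          obtain ⟨i', hi'⟩ := mem_uni.1 (Finset.mem_filter.1 hj').2
          refine ⟨?_, (j, i), (j', i'), fun h => hne (Prod.ext_iff.1 h).1, hi, hi'⟩
          exact uni_subset hs (mem_uni.2 ⟨(j, i), hi⟩)
      _ = ∑ y ∈ H, ((T'.filter
          fun s => ∃ a b, a ≠ b ∧ y ∈ s a • F ∧ y ∈ s b • F).card : ℝ) := by
          rw [Finset.sum_comm]
          simp only [Finset.sum_boole]
      _ ≤ ∑ y ∈ H, (T'.card : ℝ) * min 1 ((((G * n : ℕ) : ℝ) * cover Γ F H y) ^ 2) := by
          refine Finset.sum_le_sum fun y _ => ?_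
          have := pair_count (Γ := Γ) (κ := Fin G × ι) y hS
          rw [Fintype.card_prod, Fintype.card_fin, hn] at this
          exact this
      _ = _ := by rw [twice, Finset.mul_sum]
  -- assemble
  refine le_trans ?_ (Finset.sum_le_sum hpt)
  simp only [Finset.sum_sub_distrib, Finset.sum_add_distrib, ← Finset.mul_sum, Finset.sum_const,
    nsmul_eq_mul]
  rw [hmove (fun t => ∑ j, Real.log (Ψ (t j))), hmove (fun t => ∑ j, ((uni F (t j)).card : ℝ)),
    sum_children T hT0 (fun x => Real.log (Ψ x)),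
    sum_children T hT0 (fun x => ((uni F x).card : ℝ)), ← hcard]
  set Z := (T'.card : ℝ) with hZ
  have hZ0 : 0 ≤ Z := Nat.cast_nonneg _
  have hlog' : c * ((n : ℝ) * F.card) - c * ((∑ t ∈ T, ((uni F t).card : ℝ)) / T.card) - A ≤
      (∑ t ∈ T, Real.log (Ψ t)) / T.card := by
    rw [le_div_iff₀ hTp]
    refine le_trans (le_of_eq ?_) hlog
    field_simp
  have h1 := mul_le_mul_of_nonneg_left hlog' (mul_nonneg (Nat.cast_nonneg (α := ℝ) G) hZ0)
  have hlogM : 0 ≤ Real.log M := Real.log_nonneg hM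
  have h2 := mul_le_mul_of_nonneg_left htwo (show (0 : ℝ) ≤ Real.log M + 1 by linarith)
  push_cast
  linarith

lemma series_bound {p : ℝ} (hp : 0 ≤ p) (J : ℕ) :
    ∑ j ∈ Finset.range J, min 1 (((2 : ℝ) ^ j * p) ^ 2) / 2 ^ j ≤ 4 * p := by
  have key : ∀ J, ∑ j ∈ Finset.range J, min 1 (((2 : ℝ) ^ j * p) ^ 2) / 2 ^ j ≤
      if (2 : ℝ) ^ J * p ≤ 2 then 2 ^ J * p ^ 2 else 4 * p - 2 / 2 ^ J := by
    intro J
    induction J with
    | zero =>
      simp only [Finset.range_zero, Finset.sum_empty, pow_zero, one_mul]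
      split
      · positivity
      · linarith
    | succ J ih =>
      rw [Finset.sum_range_succ]
      set x := (2 : ℝ) ^ J with hx
      have hx0 : 0 < x := by positivity
      have hm1 : min 1 ((x * p) ^ 2) / x ≤ 1 / x :=
        div_le_div_of_nonneg_right (min_le_left _ _) hx0.le
      have hm2 : min 1 ((x * p) ^ 2) / x ≤ x * p ^ 2 := by
        rw [div_le_iff₀ hx0]
        exact (min_le_right _ _).trans_eq (by ring)
      rw [pow_succ (2 : ℝ) J, ← hx]
      have h4 : 2 / (x * 2) = 1 / x := by field_simp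
      rw [h4]
      split_ifs at ih with h
      · split_ifs with h'
        · calc _ ≤ x * p ^ 2 + x * p ^ 2 := add_le_add ih hm2
            _ = _ := by ring
        · refine (add_le_add ih hm1).trans ?_
          have h5 : x * p ^ 2 + 2 / x ≤ 4 * p := by
            rw [← sub_nonneg, show 4 * p - (x * p ^ 2 + 2 / x) =
              (4 * (x * p) - (x * p) ^ 2 - 2) / x by field_simp; ring]
            refine div_nonneg ?_ hx0.le
            nlinarith [mul_nonneg (show 0 ≤ x * p - 1 by linarith) (show 0 ≤ 2 - x * p by linarith)]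
          have h6 : 2 / x = 1 / x + 1 / x := by ring
          linarith
      · rw [if_neg (by nlinarith)]
        have h6 : 2 / x = 1 / x + 1 / x := by ring
        linarith
  refine (key J).trans ?_
  split
  · rename_i h
    have := mul_le_mul_of_nonneg_right h hp
    nlinarith
  · have : (0 : ℝ) ≤ 2 / 2 ^ J := by positivity
    linarith

lemma sum_range_grid (f : ℕ → ℝ) (d : ℕ) : ∀ K,
    ∑ r ∈ Finset.range d, ∑ i ∈ Finset.range K, f (r + d * i) =
      ∑ j ∈ Finset.range (d * K), f j := by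
  intro K
  induction K with
  | zero => simp
  | succ K ih =>
    simp only [Finset.sum_range_succ, Finset.sum_add_distrib, ih, Nat.mul_succ,
      Finset.sum_range_add]
    congr 1
    exact Finset.sum_congr rfl fun r _ => by rw [add_comm]

lemma hasWeight_levels {F H : Finset X} {q : ℝ} (hq : 0 < q) (hH : Sparse Γ q H) {D : ℕ}
    (hD : 0 < D) {M : ℝ} (hM : 1 ≤ M) (hS : (inside Γ F H).Nonempty) {r d : ℕ} (hr : r ≤ d) :
    ∀ l : ℕ, HasWeight Γ F H (-Real.log (lamOf D q * (2 : ℝ) ^ d)) (2 ^ (r + d * l))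
      ((2 : ℝ) ^ (r + d * l) * (((l : ℝ) + 1) * F.card * (Real.exp (-(D : ℝ)) + 1 / M) +
        (Real.log M + 1) * ∑ i ∈ Finset.range (l + 1),
          twice Γ F H (2 ^ (r + d * i)) / (2 : ℝ) ^ (r + d * i))) := by
  have hGp : (1 : ℝ) ≤ (2 : ℝ) ^ d := one_le_pow₀ (by norm_num)
  intro l
  induction l with
  | zero =>
    have h := hasWeight_step hq hH hD hGp hM hS (G := 2 ^ r)
      (by push_cast; exact pow_le_pow_right₀ (by norm_num) hr) (hasWeight_one F H _)
    simp only [mul_one, mul_zero, zero_add, add_zero, Finset.sum_range_one, Nat.cast_zero] at h ⊢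
    convert h using 2
    push_cast
    field_simp
    ring
  | succ l ih =>
    have h := hasWeight_step hq hH hD hGp hM hS (G := 2 ^ d) (by push_cast; exact le_rfl) ih
    have he : 2 ^ d * 2 ^ (r + d * l) = 2 ^ (r + d * (l + 1)) := by
      rw [← pow_add]; congr 1; ring
    rw [he] at h
    convert h using 2
    push_cast [Finset.sum_range_succ _ (l + 1)]
    have he' : (2 : ℝ) ^ (r + d * (l + 1)) = (2 : ℝ) ^ d * 2 ^ (r + d * l) := by
      rw [← pow_add]; congr 1; ring
    rw [he']
    field_simp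
    ring

/-- Translates of `F` inside a sparse set `H` are few, up to `exp (O (√ log log |H|))` per point. -/
theorem cnt_le_merge {H : Finset X} {q : ℝ} (hq : 0 ≤ q) (hH : Sparse Γ q H) {D d L : ℕ}
    (hD : 0 < D) (hd : 0 < d) (hL : H.card + 1 ≤ 2 ^ L)
    (hDL : Real.exp (-(D : ℝ)) * ((L : ℝ) + 1) ≤ 1) (F : Finset X) :
    (cnt Γ F H : ℝ) ≤ (Fintype.card Γ : ℝ) *
      (55296 * ((D : ℝ) + 1) * (2 : ℝ) ^ d *
        Real.exp (3 + 4 * (Real.log ((L : ℝ) + 1) + 1) / d) * q) ^ F.card := by
  classical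
  have hcS : cnt Γ F H = (inside Γ F H).card := rfl
  rcases F.eq_empty_or_nonempty with rfl | hF
  · simp [cnt_empty]
  set K := 55296 * ((D : ℝ) + 1) * (2 : ℝ) ^ d *
        Real.exp (3 + 4 * (Real.log ((L : ℝ) + 1) + 1) / d) with hK
  have hK0 : 0 < K := by positivity
  rcases (inside Γ F H).eq_empty_or_nonempty with hS | hS
  · rw [hcS, hS, Finset.card_empty, Nat.cast_zero]; positivity
  rcases hq.eq_or_lt with hq0 | hq0
  · exfalso
    obtain ⟨g, hg⟩ := hS
    have hgH := (Finset.mem_filter.1 hg).2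
    have h1 := hH (g • F) hgH
    rw [← hq0, Finset.card_smul_finset, zero_pow hF.card_pos.ne', mul_zero, zero_mul] at h1
    have h2 : (1 : ℝ) ≤ (stab Γ (g • F) : ℝ) := by
      exact_mod_cast Finset.card_pos.2 ⟨1, by simp⟩
    linarith
  set M : ℝ := (L : ℝ) + 1 with hMdef
  have hM : 1 ≤ M := le_add_of_nonneg_left (Nat.cast_nonneg L)
  have hlogM : 0 ≤ Real.log M := Real.log_nonneg hM
  set e : ℝ := (F.card : ℝ) with he
  have he1 : 1 ≤ e := by rw [he]; exact_mod_cast hF.card_pos
  -- a good offset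
  obtain ⟨r, hr, hrsum⟩ : ∃ r ∈ Finset.range d, ∑ i ∈ Finset.range (L + 1),
      twice Γ F H (2 ^ (r + d * i)) / (2 : ℝ) ^ (r + d * i) ≤ 4 * e / d := by
    refine Finset.exists_le_of_sum_le ⟨0, Finset.mem_range.2 hd⟩ ?_
    rw [sum_range_grid (fun j => twice Γ F H (2 ^ j) / (2 : ℝ) ^ j), Finset.sum_const,
      Finset.card_range, nsmul_eq_mul, mul_div_cancel₀ _ (by exact_mod_cast hd.ne')]
    simp only [twice, Finset.sum_div, Nat.cast_pow, Nat.cast_ofNat]
    rw [Finset.sum_comm]
    refine (Finset.sum_le_sum fun y _ => series_bound (cover_nonneg F H y) _).trans (le_of_eq ?_)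
    rw [← Finset.mul_sum, sum_cover hS]
  obtain ⟨ι, hι, hι', hn, Ψ, hΨ, hinv, hsum, hlog⟩ :=
    hasWeight_levels hq0 hH hD hM hS (Finset.mem_range.1 hr).le (d := d) L
  set n := 2 ^ (r + d * L) with hndef
  set c := -Real.log (lamOf D q * (2 : ℝ) ^ d) with hc
  set A := (2 : ℝ) ^ (r + d * L) * (((L : ℝ) + 1) * F.card * (Real.exp (-(D : ℝ)) + 1 / M) +
        (Real.log M + 1) * ∑ i ∈ Finset.range (L + 1),
          twice Γ F H (2 ^ (r + d * i)) / (2 : ℝ) ^ (r + d * i)) with hA
  set T := Fintype.piFinset fun _ : ι => inside Γ F H with hT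
  have hnR : (n : ℝ) = (2 : ℝ) ^ (r + d * L) := by rw [hndef]; push_cast; rfl
  have hn0 : (0 : ℝ) < n := by rw [hnR]; positivity
  have hA' : A ≤ (n : ℝ) * e * (2 + 4 * (Real.log M + 1) / d) := by
    rw [hA, ← hnR, mul_assoc (n : ℝ)]
    refine mul_le_mul_of_nonneg_left ?_ hn0.le
    have h1 : ((L : ℝ) + 1) * (1 / M) = 1 := by rw [hMdef]; field_simp
    have h2 := mul_le_mul_of_nonneg_left hrsum (show (0 : ℝ) ≤ Real.log M + 1 by linarith)
    have h3 : (Real.log M + 1) * (4 * e / d) = e * (4 * (Real.log M + 1) / d) := by ring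
    have h4 := mul_le_mul_of_nonneg_left hDL (show (0 : ℝ) ≤ e by linarith)
    linear_combination h2 + h3 + h4 + e * h1
  have hTp : (0 : ℝ) < T.card := by
    exact_mod_cast (Fintype.piFinset_nonempty.2 fun _ => hS).card_pos
  -- Jensen
  set x : (ι → Γ) → ℝ := fun t => Real.log (Ψ t) + (uni F t).card * -Real.log q with hx
  set μ := (∑ t ∈ T, x t) / T.card with hμ
  have hjen : (T.card : ℝ) * Real.exp μ ≤
      ∑ t ∈ T, Ψ t * (q ^ (uni F t).card)⁻¹ := by
    calc (T.card : ℝ) * Real.exp μ = ∑ t ∈ T, Real.exp μ * (1 + (x t - μ)) := by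
          rw [← Finset.mul_sum, Finset.sum_add_distrib, Finset.sum_sub_distrib, Finset.sum_const,
            Finset.sum_const, nsmul_one, nsmul_eq_mul, hμ, mul_div_cancel₀ _ hTp.ne']
          ring
      _ ≤ ∑ t ∈ T, Real.exp μ * Real.exp (x t - μ) :=
          Finset.sum_le_sum fun t _ => mul_le_mul_of_nonneg_left
            (by linarith [Real.add_one_le_exp (x t - μ)]) (Real.exp_pos _).le
      _ = _ := by
          refine Finset.sum_congr rfl fun t _ => ?_
          rw [← Real.exp_add, add_sub_cancel, hx]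
          simp only
          rw [Real.exp_add, Real.exp_log (hΨ t), mul_neg, Real.exp_neg, Real.exp_nat_mul,
            Real.exp_log hq0]
  have hroot := hjen.trans (root_bound hq0 hH hΨ hinv hsum)
  have hc0 : c ≤ -Real.log q := by
    rw [hc, neg_le_neg_iff]
    refine Real.log_le_log hq0 ?_
    unfold lamOf
    have : (1 : ℝ) ≤ (2 : ℝ) ^ d := one_le_pow₀ (by norm_num)
    have hDD : (1 : ℝ) ≤ 55296 * ((D : ℝ) + 1) := by linarith [Nat.cast_nonneg (α := ℝ) D]
    calc q = 1 * q * 1 := by ring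
      _ ≤ _ := mul_le_mul (mul_le_mul_of_nonneg_right hDD hq) this zero_le_one (by positivity)
  have hμge : c * ((n : ℝ) * e) - A ≤ μ := by
    rw [hμ, le_div_iff₀ hTp]
    simp only [hx, Finset.sum_add_distrib, ← Finset.sum_mul]
    have hU := mul_le_mul_of_nonneg_left hc0
      (Finset.sum_nonneg (s := T) fun t _ => (Nat.cast_nonneg (α := ℝ) (uni F t).card))
    linarith
  -- conclude
  have hN : (0 : ℝ) < Fintype.card Γ := by exact_mod_cast Fintype.card_pos
  have hs0 : (0 : ℝ) < (inside Γ F H).card := by exact_mod_cast hS.card_pos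
  have hTcard : (T.card : ℝ) = ((inside Γ F H).card : ℝ) ^ n := by
    rw [hT, Fintype.card_piFinset, Finset.prod_const, Finset.card_univ, hn]; push_cast; rfl
  have hlg : Real.log (T.card : ℝ) + μ ≤
      ((H.card : ℝ) + 1) * Real.log 2 + (n : ℝ) * Real.log (Fintype.card Γ : ℝ) := by
    have h := Real.log_le_log (by positivity) hroot
    rw [Real.log_mul hTp.ne' (Real.exp_pos μ).ne', Real.log_exp,
      show (2 : ℝ) * 2 ^ H.card * (Fintype.card Γ : ℝ) ^ n =
        2 ^ (H.card + 1) * (Fintype.card Γ : ℝ) ^ n by ring,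
      Real.log_mul (by positivity) (by positivity), Real.log_pow, Real.log_pow] at h
    push_cast at h
    exact h
  rw [hTcard, Real.log_pow] at hlg
  have hm : ((H.card : ℝ) + 1) * Real.log 2 ≤ (n : ℝ) * e * Real.log 2 := by
    refine mul_le_mul_of_nonneg_right ?_ (Real.log_nonneg (by norm_num))
    have h1 : H.card + 1 ≤ n :=
      hL.trans (Nat.pow_le_pow_right (by norm_num) (le_add_left (Nat.le_mul_of_pos_left L hd)))
    calc ((H.card : ℝ) + 1) ≤ (n : ℝ) := by exact_mod_cast h1
      _ ≤ _ := le_mul_of_one_le_right hn0.le he1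
  have hln2 := Real.log_two_lt_d9
  have hkey : Real.log ((inside Γ F H).card : ℝ) ≤
      Real.log (Fintype.card Γ : ℝ) + e * (-c + 3 + 4 * (Real.log M + 1) / d) := by
    refine le_of_mul_le_mul_left ?_ hn0
    have h5 : (n : ℝ) * e * Real.log 2 ≤ (n : ℝ) * e * 1 :=
      mul_le_mul_of_nonneg_left (by linarith) (by positivity)
    linarith
  rw [hcS, ← Real.log_le_log_iff hs0 (by positivity), Real.log_mul hN.ne' (by positivity),
    Real.log_pow]
  refine hkey.trans (le_of_eq ?_)
  have hD' : (0 : ℝ) < 55296 * ((D : ℝ) + 1) := by positivity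
  have hd' : (0 : ℝ) < (2 : ℝ) ^ d := by positivity
  rw [Real.log_mul hK0.ne' hq0.ne', hK, Real.log_mul (mul_pos hD' hd').ne' (Real.exp_pos _).ne',
    Real.log_exp, Real.log_mul hD'.ne' hd'.ne', hc, neg_neg]
  unfold lamOf
  rw [Real.log_mul (mul_pos hD' hq0).ne' hd'.ne', Real.log_mul hD'.ne' hq0.ne', he]
  ring

end Vale.Agent.P064.Merge
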