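import Mathlib
import Vale.Agent.P064.MergeLevels

/-! Flattening: translates of `F` inside a sparse set are few, up to the cost of coding the scales
of their points.

Tuples of labelled translates are merged in a binary tree. A merge with overlap `M` is weighted by
the orbit size of `M` times the probabilities of `M` under two product codes, so the weights
average to at most one; each point is coded by its distance to the current level, which costs
`O(1)` per point in total. -/

namespace Vale.Agent.P064.Flat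

open Finset

open scoped Pointwise

variable {Γ X : Type*} [Group Γ] [Fintype Γ] [DecidableEq X] [MulAction Γ X]

/-- The translations of a labelled tuple. -/
def tr {Λ ι : Type*} (t : ι → Γ × Λ) : ι → Γ := fun i => (t i).1

/-- Translation of a labelled tuple. -/
def sm {Λ ι : Type*} (h : Γ) (t : ι → Γ × Λ) : ι → Γ × Λ := fun i => (h * (t i).1, (t i).2)

lemma stab_smul (h : Γ) (M : Finset X) : stab Γ (h • M) = stab Γ M := by
  refine Finset.card_bij' (fun g _ => h⁻¹ * g * h) (fun g _ => h * g * h⁻¹) ?_ ?_ ?_ ?_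
  · intro g hg
    refine Finset.mem_filter.2 ⟨Finset.mem_univ _, ?_⟩
    rw [mul_smul, mul_smul, (Finset.mem_filter.1 hg).2, inv_smul_smul]
  · intro g hg
    refine Finset.mem_filter.2 ⟨Finset.mem_univ _, ?_⟩
    rw [mul_smul, inv_smul_smul, mul_smul, (Finset.mem_filter.1 hg).2]
  · intro g _; group
  · intro g _; group

lemma fiber_le_stab' (U V : Finset X) :
    (Finset.univ.filter fun g : Γ => g • U = V).card ≤ stab Γ V := by
  rcases (Finset.univ.filter fun g : Γ => g • U = V).eq_empty_or_nonempty with h | ⟨g₀, hg₀⟩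
  · simp [h]
  · refine (fiber_le_stab U V).trans (le_of_eq ?_)
    rw [← (Finset.mem_filter.1 hg₀).2, stab_smul]

lemma stab_pos (U : Finset X) : 0 < stab Γ U := Finset.card_pos.2 ⟨1, by simp⟩

/-- Geometric distance factor. -/
noncomputable def phi (s j : ℕ) : ℝ := (1 / 2) ^ Nat.dist s j

lemma phi_pos (s j : ℕ) : 0 < phi s j := by unfold phi; positivity

variable {Λ : Type*} {ι : Type*} [Fintype ι] (F : Finset X) (lev : Λ → X → ℕ)

/-- The odds that the code at level `s` gives to a point. -/
noncomputable def odds (s : ℕ) (t : ι → Γ × Λ) (y : X) : ℝ :=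
  ∑ i, ∑ f ∈ F, if (t i).1 • f = y then phi s (lev (t i).2 f) else 0

/-- The product code of a labelled tuple, evaluated on a set of points. -/
noncomputable def code (s : ℕ) (t : ι → Γ × Λ) (M : Finset X) : ℝ :=
  (∏ y ∈ M, odds F lev s t y) / ∏ y ∈ Merge.uni F (tr t), (1 + odds F lev s t y)

/-- The weight of merging two labelled tuples. -/
noncomputable def wt (s : ℕ) (A B : ι → Γ × Λ) : ℝ :=
  (Fintype.card Γ : ℝ) / (stab Γ (Merge.uni F (tr A) ∩ Merge.uni F (tr B)) : ℝ) *
    (code F lev s A (Merge.uni F (tr A) ∩ Merge.uni F (tr B)) *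
      code F lev s B (Merge.uni F (tr A) ∩ Merge.uni F (tr B)))

omit [Fintype Γ] in
lemma odds_nonneg (s : ℕ) (t : ι → Γ × Λ) (y : X) : 0 ≤ odds F lev s t y :=
  Finset.sum_nonneg fun i _ => Finset.sum_nonneg fun f _ => by
    split
    · exact (phi_pos _ _).le
    · exact le_rfl

omit [Fintype Γ] in
lemma phi_le_odds (s : ℕ) (t : ι → Γ × Λ) {i : ι} {f : X} (hf : f ∈ F) :
    phi s (lev (t i).2 f) ≤ odds F lev s t ((t i).1 • f) := by
  refine le_trans ?_ (Finset.single_le_sum (f := fun k => ∑ f' ∈ F,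
    if (t k).1 • f' = (t i).1 • f then phi s (lev (t k).2 f') else 0)
    (fun k _ => Finset.sum_nonneg fun f' _ => by split <;> simp [(phi_pos _ _).le])
    (Finset.mem_univ i))
  refine le_trans ?_ (Finset.single_le_sum (f := fun f' =>
    if (t i).1 • f' = (t i).1 • f then phi s (lev (t i).2 f') else 0)
    (fun f' _ => by split <;> simp [(phi_pos _ _).le]) hf)
  rw [if_pos rfl]

lemma odds_pos (s : ℕ) (t : ι → Γ × Λ) {y : X} (hy : y ∈ Merge.uni F (tr t)) :
    0 < odds F lev s t y := by
  obtain ⟨i, hi⟩ := Merge.mem_uni.1 hy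
  obtain ⟨f, hf, rfl⟩ := Finset.mem_smul_finset.1 hi
  exact lt_of_lt_of_le (phi_pos _ _) (phi_le_odds F lev s t hf)

lemma sum_odds (s : ℕ) (t : ι → Γ × Λ) :
    ∑ y ∈ Merge.uni F (tr t), odds F lev s t y = ∑ i, ∑ f ∈ F, phi s (lev (t i).2 f) := by
  unfold odds
  rw [Finset.sum_comm]
  refine Finset.sum_congr rfl fun i _ => ?_
  rw [Finset.sum_comm]
  refine Finset.sum_congr rfl fun f hf => ?_
  rw [Finset.sum_ite_eq, if_pos (show (t i).1 • f ∈ Merge.uni F (tr t) from
    Merge.mem_uni.2 ⟨i, Finset.smul_mem_smul_finset hf⟩)]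

omit [Fintype Γ] in
lemma code_nonneg (s : ℕ) (t : ι → Γ × Λ) (M : Finset X) : 0 ≤ code F lev s t M :=
  div_nonneg (Finset.prod_nonneg fun y _ => odds_nonneg F lev s t y)
    (Finset.prod_nonneg fun y _ => by linarith [odds_nonneg F lev s t y])

omit [Fintype Γ] in
lemma sum_code (s : ℕ) (t : ι → Γ × Λ) :
    ∑ M ∈ (Merge.uni F (tr t)).powerset, code F lev s t M = 1 := by
  unfold code
  rw [← Finset.sum_div, ← Finset.prod_one_add, div_self]
  exact Finset.prod_ne_zero_iff.2 fun y _ => by linarith [odds_nonneg F lev s t y]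

lemma uni_tr_sm (h : Γ) (t : ι → Γ × Λ) :
    Merge.uni F (tr (sm h t)) = h • Merge.uni F (tr t) := Merge.uni_smul F h (tr t)

omit [Fintype Γ] in
lemma odds_sm (s : ℕ) (h : Γ) (t : ι → Γ × Λ) (y : X) :
    odds F lev s (sm h t) (h • y) = odds F lev s t y := by
  simp only [odds, sm, mul_smul, smul_left_cancel_iff]

lemma code_sm (s : ℕ) (h : Γ) (t : ι → Γ × Λ) (M : Finset X) :
    code F lev s (sm h t) (h • M) = code F lev s t M := by
  unfold code
  rw [uni_tr_sm, Finset.smul_finset_def, Finset.smul_finset_def,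
    Finset.prod_image fun _ _ _ _ hh => MulAction.injective h hh,
    Finset.prod_image fun _ _ _ _ hh => MulAction.injective h hh]
  simp only [odds_sm]

lemma wt_pos (s : ℕ) (A B : ι → Γ × Λ) : 0 < wt F lev s A B := by
  have h : ∀ (t : ι → Γ × Λ) (M : Finset X), M ⊆ Merge.uni F (tr t) → 0 < code F lev s t M :=
    fun t M hM => div_pos (Finset.prod_pos fun y hy => odds_pos F lev s t (hM hy))
      (Finset.prod_pos fun y _ => by linarith [odds_nonneg F lev s t y])
  refine mul_pos (div_pos (by exact_mod_cast Fintype.card_pos) (by exact_mod_cast stab_pos _))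
    (mul_pos (h _ _ Finset.inter_subset_left) (h _ _ Finset.inter_subset_right))

lemma wt_sm (s : ℕ) (h : Γ) (A B : ι → Γ × Λ) :
    wt F lev s (sm h A) (sm h B) = wt F lev s A B := by
  simp only [wt, uni_tr_sm, ← Finset.smul_finset_inter, code_sm, stab_smul]

/-- Averaged over translations of the second tuple, a merge has weight at most one. -/
lemma sum_wt (s : ℕ) (A B : ι → Γ × Λ) :
    ∑ h : Γ, wt F lev s A (sm h B) ≤ (Fintype.card Γ : ℝ) := by
  classical
  set N : ℝ := (Fintype.card Γ : ℝ) with hN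
  set UA := Merge.uni F (tr A) with hUA
  set UB := Merge.uni F (tr B) with hUB
  set key : Γ → Finset X × Finset X :=
    fun h => (UA ∩ h • UB, h⁻¹ • (UA ∩ h • UB)) with hkey
  have hterm : ∀ h : Γ, wt F lev s A (sm h B) = N / (stab Γ (key h).1 : ℝ) *
      (code F lev s A (key h).1 * code F lev s B (key h).2) := by
    intro h
    simp only [wt, uni_tr_sm, hkey, ← hUA, ← hUB, hN]
    congr 2
    rw [← code_sm F lev s h B, smul_inv_smul]
  simp only [hterm]
  rw [← Finset.sum_fiberwise_of_maps_to (g := key) (t := UA.powerset ×ˢ UB.powerset)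
    fun h _ => Finset.mem_product.2 ⟨Finset.mem_powerset.2 Finset.inter_subset_left,
      Finset.mem_powerset.2 fun y hy => by
        obtain ⟨z, hz, rfl⟩ := Finset.mem_smul_finset.1 hy
        obtain ⟨w, hw, rfl⟩ := Finset.mem_smul_finset.1 (Finset.mem_inter.1 hz).2
        rwa [inv_smul_smul]⟩]
  calc ∑ z ∈ UA.powerset ×ˢ UB.powerset, ∑ h ∈ Finset.univ.filter (fun h => key h = z),
        N / (stab Γ (key h).1 : ℝ) * (code F lev s A (key h).1 * code F lev s B (key h).2)
      ≤ ∑ z ∈ UA.powerset ×ˢ UB.powerset, N * (code F lev s A z.1 * code F lev s B z.2) := by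
        refine Finset.sum_le_sum fun z _ => ?_
        rw [Finset.sum_congr rfl (g := fun _ => N / (stab Γ z.1 : ℝ) *
          (code F lev s A z.1 * code F lev s B z.2))
          fun h hh => by rw [(Finset.mem_filter.1 hh).2], Finset.sum_const, nsmul_eq_mul]
        have hsub : (Finset.univ.filter fun h => key h = z).card ≤ stab Γ z.1 := by
          refine le_trans (Finset.card_le_card fun h hh => ?_) (fiber_le_stab' z.2 z.1)
          have h' := (Finset.mem_filter.1 hh).2
          refine Finset.mem_filter.2 ⟨Finset.mem_univ _, ?_⟩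
          rw [← h', hkey]
          exact smul_inv_smul _ _
        have hsub' : ((Finset.univ.filter fun h => key h = z).card : ℝ) ≤ (stab Γ z.1 : ℝ) := by
          exact_mod_cast hsub
        have hs : (0 : ℝ) < stab Γ z.1 := by exact_mod_cast stab_pos _
        refine (mul_le_mul_of_nonneg_right hsub' (mul_nonneg (div_nonneg (Nat.cast_nonneg _)
          hs.le) (mul_nonneg (code_nonneg F lev s A _) (code_nonneg F lev s B _)))).trans
          (le_of_eq ?_)
        rw [← mul_assoc, mul_div_cancel₀ _ hs.ne']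
    _ = N := by
        rw [← Finset.mul_sum, Finset.sum_product]
        simp only [← Finset.mul_sum]
        rw [sum_code]
        simp only [mul_one]
        rw [sum_code, mul_one]

/-- A positive invariant weight on labelled `2 ^ s`-tuples of average at most one whose logarithm,
averaged over correctly labelled tuples inside `H`, is at least the total overlap times `l`,
minus `A`. -/
def HasW (Γ : Type*) {X : Type*} [Group Γ] [Fintype Γ] [DecidableEq X] [MulAction Γ X]
    {Λ : Type*} [Fintype Λ] (F H : Finset X) (lab : Γ → Λ) (l : ℝ) (n : ℕ) (A : ℝ) : Prop :=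
  ∃ (ι : Type) (_ : Fintype ι) (_ : DecidableEq ι), Fintype.card ι = n ∧
    ∃ Ψ : (ι → Γ × Λ) → ℝ, (∀ x, 0 < Ψ x) ∧ (∀ (h : Γ) x, Ψ (sm h x) = Ψ x) ∧
    (∑ x : ι → Γ × Λ, Ψ x ≤ (Fintype.card Γ : ℝ) ^ n) ∧
    l * (((Fintype.piFinset fun _ : ι => Merge.inside Γ F H).card : ℝ) * (n * F.card) -
        ∑ t ∈ Fintype.piFinset (fun _ : ι => Merge.inside Γ F H), ((Merge.uni F t).card : ℝ)) -
      A * ((Fintype.piFinset fun _ : ι => Merge.inside Γ F H).card : ℝ) ≤
      ∑ t ∈ Fintype.piFinset (fun _ : ι => Merge.inside Γ F H),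
        Real.log (Ψ fun i => (t i, lab (t i)))

variable [Fintype Λ] {lev F}

lemma hasW_one {H : Finset X} (π : Λ → ℝ) (hπ : ∀ x, 0 < π x) (hπ1 : ∑ x, π x ≤ 1)
    (lab : Γ → Λ) (l : ℝ) (hS : (Merge.inside Γ F H).Nonempty) :
    HasW Γ F H lab l 1 ((∑ g ∈ Merge.inside Γ F H, -Real.log (π (lab g))) /
      ((Merge.inside Γ F H).card : ℝ)) := by
  refine ⟨Unit, inferInstance, inferInstance, rfl, fun x => π (x ()).2, fun x => hπ _,
    fun h x => rfl, ?_, ?_⟩
  · rw [← (Equiv.funUnique Unit (Γ × Λ)).symm.sum_comp, pow_one]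
    simp only [Equiv.funUnique_symm_apply, uniqueElim_const, Fintype.sum_prod_type]
    rw [Finset.sum_const, nsmul_eq_mul, Finset.card_univ]
    exact mul_le_of_le_one_right (Nat.cast_nonneg _) hπ1
  · have h : ∀ t : Unit → Γ, (Merge.uni F t).card = F.card := fun t => by simp [Merge.uni]
    have hsum : ∀ f : Γ → ℝ, ∑ t ∈ Fintype.piFinset (fun _ : Unit => Merge.inside Γ F H),
        f (t ()) = ∑ g ∈ Merge.inside Γ F H, f g := fun f => by
      refine Finset.sum_bij' (fun t _ => t ()) (fun g _ _ => g) ?_ ?_ ?_ ?_ ?_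
      · exact fun t ht => Fintype.mem_piFinset.1 ht ()
      · exact fun g hg => Fintype.mem_piFinset.2 fun _ => hg
      · exact fun t _ => rfl
      · exact fun g _ => rfl
      · exact fun t _ => rfl
    have hS0 : ((Merge.inside Γ F H).card : ℝ) ≠ 0 := by exact_mod_cast hS.card_pos.ne'
    rw [hsum (fun g => Real.log (π (lab g)))]
    simp only [h, Finset.sum_const, nsmul_eq_mul, Nat.cast_one, one_mul, sub_self, mul_zero,
      zero_sub, Fintype.card_piFinset, Finset.prod_const, Finset.card_univ, Fintype.card_unit,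
      pow_one, div_mul_cancel₀ _ hS0]
    rw [Finset.sum_neg_distrib, neg_neg]

/-- Few tuples cover a given point. -/
lemma cover_count {H : Finset X} {κ : Type*} [Fintype κ] [DecidableEq κ] (y : X)
    (hS : (Merge.inside Γ F H).Nonempty) :
    (((Fintype.piFinset fun _ : κ => Merge.inside Γ F H).filter
        fun t => y ∈ Merge.uni F t).card : ℝ) ≤
      ((Fintype.piFinset fun _ : κ => Merge.inside Γ F H).card : ℝ) *
        min 1 ((Fintype.card κ : ℝ) * Merge.cover Γ F H y) := by
  classical
  set S := Merge.inside Γ F H with hSdef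
  set A := S.filter fun g => y ∈ g • F with hA
  set T := Fintype.piFinset fun _ : κ => S with hT
  have hs0 : (0 : ℝ) < S.card := by exact_mod_cast hS.card_pos
  rw [mul_min_of_nonneg _ _ (Nat.cast_nonneg _), mul_one]
  refine le_min (by exact_mod_cast Finset.card_filter_le _ _) ?_
  have hsub : T.filter (fun t => y ∈ Merge.uni F t) ⊆
      Finset.univ.biUnion fun i : κ => Fintype.piFinset fun k => if k = i then A else S := by
    intro t ht
    obtain ⟨htT, hy⟩ := Finset.mem_filter.1 ht
    obtain ⟨i, hi⟩ := Merge.mem_uni.1 hy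
    refine Finset.mem_biUnion.2 ⟨i, Finset.mem_univ _, Fintype.mem_piFinset.2 fun k => ?_⟩
    have hk := Fintype.mem_piFinset.1 htT k
    split
    · next h => exact Finset.mem_filter.2 ⟨hk, by rw [h]; exact hi⟩
    · exact hk
  have hone : ∀ i : κ, ((Fintype.piFinset fun k => if k = i then A else S).card : ℝ) =
      (T.card : ℝ) * Merge.cover Γ F H y := by
    intro i
    rw [hT, Fintype.card_piFinset, Fintype.card_piFinset]
    push_cast
    unfold Merge.cover
    rw [← hSdef, ← hA, mul_div_assoc', eq_div_iff hs0.ne']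
    rw [← Finset.mul_prod_erase Finset.univ _ (Finset.mem_univ i), if_pos rfl,
      ← Finset.mul_prod_erase Finset.univ (fun _ => (S.card : ℝ)) (Finset.mem_univ i),
      Finset.prod_congr rfl (g := fun _ => (S.card : ℝ))
        fun k hk => by rw [if_neg (Finset.ne_of_mem_erase hk)]]
    ring
  calc ((T.filter _).card : ℝ)
      ≤ ∑ i : κ, ((Fintype.piFinset fun k => if k = i then A else S).card : ℝ) := by
        exact_mod_cast (Finset.card_le_card hsub).trans Finset.card_biUnion_le
    _ = _ := by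
        rw [Finset.sum_congr rfl fun i _ => hone i, Finset.sum_const, nsmul_eq_mul,
          Finset.card_univ]
        ring

/-- Sums over a tuple split into two halves. -/
lemma sum_halves {ι β : Type*} [Fintype ι] [DecidableEq ι] (S : Finset β)
    (f : (ι → β) → (ι → β) → ℝ) :
    ∑ t ∈ Fintype.piFinset (fun _ : Bool × ι => S),
        f (fun i => t (false, i)) (fun i => t (true, i)) =
      ∑ A ∈ Fintype.piFinset (fun _ : ι => S), ∑ B ∈ Fintype.piFinset (fun _ : ι => S), f A B := by
  rw [← Finset.sum_product']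
  refine Finset.sum_bij' (fun t _ => (fun i => t (false, i), fun i => t (true, i)))
    (fun z _ p => if p.1 then z.2 p.2 else z.1 p.2) ?_ ?_ ?_ ?_ ?_
  · intro t ht
    simp only [Finset.mem_product, Fintype.mem_piFinset] at ht ⊢
    exact ⟨fun i => ht _, fun i => ht _⟩
  · intro z hz
    simp only [Finset.mem_product, Fintype.mem_piFinset] at hz ⊢
    rintro ⟨_ | _, i⟩
    · exact hz.1 i
    · exact hz.2 i
  · intro t _
    funext ⟨b, i⟩
    cases b <;> rfl
  · intro z _; rfl
  · intro t _; rfl

variable (lev) in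
lemma hasW_step {H : Finset X} {q : ℝ} (hq : 0 < q) (hH : Sparse Γ q H) (lab : Γ → Λ)
    (J : X → ℕ) (hlab : ∀ g ∈ Merge.inside Γ F H, ∀ f ∈ F, lev (lab g) f = J (g • f))
    (hS : (Merge.inside Γ F H).Nonempty) {s : ℕ} {A : ℝ}
    (hw : HasW Γ F H lab (-Real.log q) (2 ^ s) A) :
    HasW Γ F H lab (-Real.log q) (2 ^ (s + 1))
      (2 * A + Real.log 2 + 2 * Real.log 2 * ∑ y ∈ H, (Nat.dist s (J y) : ℝ) *
          min 1 (((2 : ℝ) ^ s * Merge.cover Γ F H y) ^ 2) +
        2 * (2 : ℝ) ^ s * ∑ y ∈ H, Merge.cover Γ F H y * phi s (J y)) := by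
  classical
  obtain ⟨ι, hι, hι', hn, Ψ, hΨ, hinv, hsum, hlog⟩ := hw
  have hN : (0 : ℝ) < Fintype.card Γ := by exact_mod_cast Fintype.card_pos
  let L : (Bool × ι → Γ × Λ) → ι → Γ × Λ := fun t i => t (false, i)
  let R : (Bool × ι → Γ × Λ) → ι → Γ × Λ := fun t i => t (true, i)
  refine ⟨Bool × ι, inferInstance, inferInstance, ?_,
    fun t => Ψ (L t) * Ψ (R t) * wt F lev s (L t) (R t),
    fun t => mul_pos (mul_pos (hΨ _) (hΨ _)) (wt_pos F lev s _ _), ?_, ?_, ?_⟩
  · rw [Fintype.card_prod, Fintype.card_bool, hn, pow_succ, mul_comm]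
  · intro h t
    show Ψ (sm h (L t)) * Ψ (sm h (R t)) * wt F lev s (sm h (L t)) (sm h (R t)) = _
    rw [hinv, hinv, wt_sm]
  · have hsplit : ∑ t : Bool × ι → Γ × Λ, Ψ (L t) * Ψ (R t) * wt F lev s (L t) (R t) =
        ∑ a : ι → Γ × Λ, ∑ b : ι → Γ × Λ, Ψ a * Ψ b * wt F lev s a b := by
      have := sum_halves (ι := ι) (Finset.univ : Finset (Γ × Λ))
        fun a b => Ψ a * Ψ b * wt F lev s a b
      simp only [Fintype.piFinset_univ] at this
      exact this
    rw [hsplit, pow_succ, pow_mul, sq]
    set B : ℝ := (Fintype.card Γ : ℝ) ^ 2 ^ s with hB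
    have hinner : ∀ a, ∑ b : ι → Γ × Λ, Ψ b * wt F lev s a b ≤ B := by
      intro a
      let e : Γ → (ι → Γ × Λ) ≃ (ι → Γ × Λ) := fun h => Equiv.piCongrRight fun _ =>
        Equiv.prodCongr (Equiv.mulLeft h) (Equiv.refl Λ)
      have hh : ∀ h : Γ, ∑ b : ι → Γ × Λ, Ψ b * wt F lev s a b =
          ∑ b : ι → Γ × Λ, Ψ b * wt F lev s a (sm h b) := fun h => by
        symm
        refine Fintype.sum_equiv (e h) _ (fun b => Ψ b * wt F lev s a b) fun b => ?_
        show _ = Ψ (sm h b) * wt F lev s a (sm h b)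
        rw [hinv]
      refine le_of_mul_le_mul_left ?_ hN
      calc (Fintype.card Γ : ℝ) * ∑ b : ι → Γ × Λ, Ψ b * wt F lev s a b
          = ∑ b : ι → Γ × Λ, Ψ b * ∑ h : Γ, wt F lev s a (sm h b) := by
            rw [← nsmul_eq_mul, ← Finset.card_univ, ← Finset.sum_const,
              Finset.sum_congr rfl fun h _ => hh h, Finset.sum_comm]
            simp only [Finset.mul_sum]
        _ ≤ ∑ b : ι → Γ × Λ, Ψ b * (Fintype.card Γ : ℝ) :=
            Finset.sum_le_sum fun b _ => mul_le_mul_of_nonneg_left (sum_wt F lev s a b) (hΨ b).le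
        _ ≤ _ := by
            rw [← Finset.sum_mul, mul_comm (Fintype.card Γ : ℝ) B]
            exact mul_le_mul_of_nonneg_right hsum hN.le
    calc ∑ a : ι → Γ × Λ, ∑ b : ι → Γ × Λ, Ψ a * Ψ b * wt F lev s a b
        ≤ ∑ a : ι → Γ × Λ, Ψ a * B := Finset.sum_le_sum fun a _ => by
          simp only [mul_assoc, ← Finset.mul_sum]
          exact mul_le_mul_of_nonneg_left (hinner a) (hΨ a).le
      _ ≤ B * B := by
          rw [← Finset.sum_mul]
          exact mul_le_mul_of_nonneg_right hsum (by positivity)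
  set S := Merge.inside Γ F H with hSdef
  set T := Fintype.piFinset fun _ : ι => S with hT
  set T' := Fintype.piFinset fun _ : Bool × ι => S with hT'
  set em : (ι → Γ) → ι → Γ × Λ := fun t i => (t i, lab (t i)) with hem
  have hT0 : T.Nonempty := Fintype.piFinset_nonempty.2 fun _ => hS
  have hTp : (0 : ℝ) < T.card := by exact_mod_cast hT0.card_pos
  -- pointwise
  have hpt : ∀ a ∈ T, ∀ b ∈ T,
      Real.log (Ψ (em a)) + Real.log (Ψ (em b)) +
        (-Real.log q) * ((Merge.uni F a ∩ Merge.uni F b).card : ℝ) - Real.log 2 -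
        2 * Real.log 2 * ∑ y ∈ H, (Nat.dist s (J y) : ℝ) *
          ((if y ∈ Merge.uni F a then (1 : ℝ) else 0) * if y ∈ Merge.uni F b then 1 else 0) -
        ((∑ i, ∑ f ∈ F, phi s (J (a i • f))) + ∑ i, ∑ f ∈ F, phi s (J (b i • f))) ≤
      Real.log (Ψ (em a) * Ψ (em b) * wt F lev s (em a) (em b)) := by
    intro a ha b hb
    rw [Real.log_mul (mul_pos (hΨ _) (hΨ _)).ne' (wt_pos F lev s _ _).ne',
      Real.log_mul (hΨ _).ne' (hΨ _).ne']
    set M := Merge.uni F a ∩ Merge.uni F b with hM
    have hMH : M ⊆ H := Finset.inter_subset_left.trans (Merge.uni_subset ha)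
    have hcode : ∀ c ∈ T, M ⊆ Merge.uni F c →
        -Real.log 2 * ∑ y ∈ M, (Nat.dist s (J y) : ℝ) - ∑ i, ∑ f ∈ F, phi s (J (c i • f)) ≤
          Real.log (code F lev s (em c) M) ∧ 0 < code F lev s (em c) M := by
      intro c hc hMc
      have hpos : ∀ y ∈ M, 0 < odds F lev s (em c) y := fun y hy =>
        odds_pos F lev s (em c) (hMc hy)
      have hp1 : 0 < ∏ y ∈ M, odds F lev s (em c) y := Finset.prod_pos hpos
      have hp2 : 0 < ∏ y ∈ Merge.uni F (tr (em c)), (1 + odds F lev s (em c) y) :=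
        Finset.prod_pos fun y _ => by linarith [odds_nonneg F lev s (em c) y]
      refine ⟨?_, div_pos hp1 hp2⟩
      rw [code, Real.log_div hp1.ne' hp2.ne']
      refine sub_le_sub ?_ ?_
      · rw [Real.log_prod fun y hy => (hpos y hy).ne', Finset.mul_sum]
        refine Finset.sum_le_sum fun y hy => ?_
        obtain ⟨i, hi⟩ := Merge.mem_uni.1 (hMc hy)
        obtain ⟨f, hf, rfl⟩ := Finset.mem_smul_finset.1 hi
        have hl : lev (lab (c i)) f = J (c i • f) :=
          hlab _ (Fintype.mem_piFinset.1 hc i) f hf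
        refine le_trans (le_of_eq ?_) (Real.log_le_log (phi_pos s (J (c i • f))) ?_)
        · rw [phi, Real.log_pow, one_div, Real.log_inv]; ring
        · rw [← hl]
          exact phi_le_odds F lev s (em c) (i := i) hf
      · refine le_trans ((Real.log_le_iff_le_exp hp2).2 ?_) (le_of_eq (b := ∑ y ∈
          Merge.uni F (tr (em c)), odds F lev s (em c) y) rfl) |>.trans (le_of_eq ?_)
        · rw [Real.exp_sum]
          refine Finset.prod_le_prod (fun y _ => by linarith [odds_nonneg F lev s (em c) y])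
            fun y _ => ?_
          linarith [Real.add_one_le_exp (odds F lev s (em c) y)]
        · rw [sum_odds]
          refine Finset.sum_congr rfl fun i _ => Finset.sum_congr rfl fun f hf => ?_
          show phi s (lev (lab (c i)) f) = _
          rw [hlab _ (Fintype.mem_piFinset.1 hc i) f hf]
    obtain ⟨hca, hca0⟩ := hcode a ha Finset.inter_subset_left
    obtain ⟨hcb, hcb0⟩ := hcode b hb Finset.inter_subset_right
    have hst : (0 : ℝ) < stab Γ M := by exact_mod_cast stab_pos _
    have horb : -Real.log q * (M.card : ℝ) - Real.log 2 ≤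
        Real.log ((Fintype.card Γ : ℝ) / (stab Γ M : ℝ)) := by
      have h := Real.log_le_log hst (hH M hMH)
      rw [Real.log_mul (by positivity) hN.ne', Real.log_mul (by norm_num) (by positivity),
        Real.log_pow] at h
      rw [Real.log_div hN.ne' hst.ne']
      linarith
    have hdist : ∑ y ∈ H, (Nat.dist s (J y) : ℝ) *
        ((if y ∈ Merge.uni F a then (1 : ℝ) else 0) * if y ∈ Merge.uni F b then 1 else 0) =
        ∑ y ∈ M, (Nat.dist s (J y) : ℝ) := by
      rw [← Finset.sum_subset hMH (f := fun y => (Nat.dist s (J y) : ℝ) *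
        ((if y ∈ Merge.uni F a then (1 : ℝ) else 0) * if y ∈ Merge.uni F b then 1 else 0))]
      · refine Finset.sum_congr rfl fun y hy => ?_
        rw [if_pos (Finset.mem_inter.1 hy).1, if_pos (Finset.mem_inter.1 hy).2, mul_one, mul_one]
      · intro y _ hy
        by_cases hya : y ∈ Merge.uni F a
        · rw [if_neg fun hyb => hy (Finset.mem_inter.2 ⟨hya, hyb⟩), mul_zero, mul_zero]
        · rw [if_neg hya, zero_mul, mul_zero]
    have hwt : Real.log (wt F lev s (em a) (em b)) =
        Real.log ((Fintype.card Γ : ℝ) / (stab Γ M : ℝ)) +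
          (Real.log (code F lev s (em a) M) + Real.log (code F lev s (em b) M)) := by
      show Real.log ((Fintype.card Γ : ℝ) / (stab Γ M : ℝ) *
        (code F lev s (em a) M * code F lev s (em b) M)) = _
      rw [Real.log_mul (div_pos hN hst).ne' (mul_pos hca0 hcb0).ne',
        Real.log_mul hca0.ne' hcb0.ne']
    rw [hdist, hwt]
    linarith
  -- averages
  have hfst : ∀ f : (ι → Γ) → ℝ, ∑ a ∈ T, ∑ _b ∈ T, f a = (T.card : ℝ) * ∑ a ∈ T, f a :=
    fun f => by simp [Finset.mul_sum]
  have hcover : ∀ y, ∑ a ∈ T, ∑ b ∈ T,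
      ((if y ∈ Merge.uni F a then (1 : ℝ) else 0) * if y ∈ Merge.uni F b then 1 else 0) ≤
        (T.card : ℝ) ^ 2 * min 1 (((2 : ℝ) ^ s * Merge.cover Γ F H y) ^ 2) := by
    intro y
    have h := cover_count (F := F) (κ := ι) y hS
    rw [hn] at h
    push_cast at h
    rw [← Finset.sum_mul_sum, Finset.sum_boole, ← sq]
    refine (pow_le_pow_left₀ (Nat.cast_nonneg _) h 2).trans (le_of_eq ?_)
    rw [mul_pow]
    congr 1
    have h0 : (0 : ℝ) ≤ (2 : ℝ) ^ s * Merge.cover Γ F H y :=
      mul_nonneg (by positivity) (Merge.cover_nonneg F H y)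
    rcases le_total 1 ((2 : ℝ) ^ s * Merge.cover Γ F H y) with h1 | h1
    · rw [min_eq_left h1, min_eq_left (one_le_pow₀ h1), one_pow]
    · rw [min_eq_right h1, min_eq_right (pow_le_one₀ h0 h1)]
  have hbudget : ∑ a ∈ T, ∑ i, ∑ f ∈ F, phi s (J (a i • f)) =
      (T.card : ℝ) * ((2 : ℝ) ^ s * ∑ y ∈ H, Merge.cover Γ F H y * phi s (J y)) := by
    have hs0 : (S.card : ℝ) ≠ 0 := by exact_mod_cast hS.card_pos.ne'
    have hin : ∀ g ∈ S, ∑ f ∈ F, phi s (J (g • f)) =
        ∑ y ∈ H, if y ∈ g • F then phi s (J y) else 0 := by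
      intro g hg
      rw [← Finset.sum_filter, Finset.filter_mem_eq_inter,
        Finset.inter_eq_right.2 (Finset.mem_filter.1 hg).2, Finset.smul_finset_def,
        Finset.sum_image fun _ _ _ _ hh => MulAction.injective g hh]
    have hS1 : ∑ g ∈ S, ∑ f ∈ F, phi s (J (g • f)) =
        (S.card : ℝ) * ∑ y ∈ H, Merge.cover Γ F H y * phi s (J y) := by
      rw [Finset.sum_congr rfl hin, Finset.sum_comm, Finset.mul_sum]
      refine Finset.sum_congr rfl fun y _ => ?_
      rw [← Finset.sum_filter, Finset.sum_const, nsmul_eq_mul, ← mul_assoc, Merge.cover,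
        mul_div_cancel₀ _ hs0]
    have e : T.card = S.card ^ Fintype.card ι := by
      rw [hT, Fintype.card_piFinset, Finset.prod_const, Finset.card_univ]
    rw [Finset.sum_comm]
    calc ∑ i : ι, ∑ a ∈ T, ∑ f ∈ F, phi s (J (a i • f))
        = ∑ _i : ι, (T.card : ℝ) * ((∑ g ∈ S, ∑ f ∈ F, phi s (J (g • f))) / (S.card : ℝ)) := by
          refine Finset.sum_congr rfl fun i _ => ?_
          rw [← Finset.sum_fiberwise_of_maps_to (g := fun a : ι → Γ => a i) (t := S)
            (fun a ha => Fintype.mem_piFinset.1 ha i), mul_div_assoc', eq_div_iff hs0,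
            Finset.mul_sum, Finset.sum_mul]
          refine Finset.sum_congr rfl fun g hg => ?_
          rw [Finset.sum_congr rfl (g := fun _ => ∑ f ∈ F, phi s (J (g • f)))
            fun a ha => by rw [(Finset.mem_filter.1 ha).2], Finset.sum_const, nsmul_eq_mul,
            Fintype.card_filter_piFinset_const_eq_of_mem S i hg, e]
          push_cast
          have hk : Fintype.card ι = Fintype.card ι - 1 + 1 := by
            have := Fintype.card_pos_iff.2 ⟨i⟩; omega
          conv_rhs => rw [hk, pow_succ]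
          ring
      _ = _ := by
          rw [Finset.sum_const, nsmul_eq_mul, Finset.card_univ, hn, hS1]
          push_cast
          field_simp
  -- the union of the halves
  have huni : ∀ t : Bool × ι → Γ, (Merge.uni F t).card =
      (Merge.uni F (fun i => t (false, i)) ∪ Merge.uni F fun i => t (true, i)).card := by
    intro t
    congr 1
    ext y
    simp [Merge.mem_uni]
  have hcard : (T'.card : ℝ) = (T.card : ℝ) ^ 2 := by
    have h := sum_halves (ι := ι) S fun _ _ => (1 : ℝ)
    simp only [Finset.sum_const, nsmul_eq_mul, mul_one] at h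
    rw [hT', hT, h, sq]
  show _ ≤ ∑ t ∈ T', Real.log (Ψ (em fun i => t (false, i)) * Ψ (em fun i => t (true, i)) *
    wt F lev s (em fun i => t (false, i)) (em fun i => t (true, i)))
  rw [sum_halves S fun a b => Real.log (Ψ (em a) * Ψ (em b) * wt F lev s (em a) (em b))]
  refine le_trans ?_ (Finset.sum_le_sum fun a ha => Finset.sum_le_sum fun b hb => hpt a ha b hb)
  simp only [huni]
  rw [sum_halves S fun a b => ((Merge.uni F a ∪ Merge.uni F b).card : ℝ), hcard]
  have hie : ∀ a b : ι → Γ, ((Merge.uni F a ∪ Merge.uni F b).card : ℝ) =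
      (Merge.uni F a).card + (Merge.uni F b).card - (Merge.uni F a ∩ Merge.uni F b).card := by
    intro a b
    have h := Finset.card_union_add_card_inter (Merge.uni F a) (Merge.uni F b)
    have h' : ((Merge.uni F a ∪ Merge.uni F b).card : ℝ) +
        ((Merge.uni F a ∩ Merge.uni F b).card : ℝ) =
        (Merge.uni F a).card + (Merge.uni F b).card := by exact_mod_cast h
    linarith
  rw [← hT]
  simp only [hie, Finset.sum_add_distrib, Finset.sum_sub_distrib, ← Finset.mul_sum,
    Finset.sum_const, nsmul_eq_mul, hbudget]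
  have hX : ∑ a ∈ T, ∑ b ∈ T, ∑ y ∈ H, (Nat.dist s (J y) : ℝ) *
      ((if y ∈ Merge.uni F a then (1 : ℝ) else 0) * if y ∈ Merge.uni F b then 1 else 0) ≤
      (T.card : ℝ) ^ 2 * ∑ y ∈ H, (Nat.dist s (J y) : ℝ) *
        min 1 (((2 : ℝ) ^ s * Merge.cover Γ F H y) ^ 2) := by
    rw [Finset.sum_congr rfl fun a _ => Finset.sum_comm, Finset.sum_comm, Finset.mul_sum]
    refine Finset.sum_le_sum fun y _ => ?_
    rw [Finset.sum_congr rfl fun a _ => (Finset.mul_sum ..).symm, ← Finset.mul_sum]
    refine (mul_le_mul_of_nonneg_left (hcover y) (Nat.cast_nonneg _)).trans (le_of_eq ?_)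
    ring
  have h1 := mul_le_mul_of_nonneg_left hlog (mul_nonneg zero_le_two hTp.le)
  have h2 := mul_le_mul_of_nonneg_left hX
    (mul_nonneg zero_le_two (Real.log_nonneg one_le_two))
  simp only [hem] at h1 ⊢
  push_cast at h1 ⊢
  ring_nf at h1 h2 ⊢
  linarith

lemma dist_series (J L : ℕ) :
    ∑ s ∈ Finset.range L, ((Nat.dist s J : ℝ) + 1) * (1 / 2) ^ Nat.dist s J ≤ 8 := by
  set f : ℕ → ℝ := fun k => ((k : ℝ) + 1) * (1 / 2) ^ k with hf
  have hf0 : ∀ k, 0 ≤ f k := fun k => by rw [hf]; positivity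
  have hclosed : ∀ K, ∑ k ∈ Finset.range K, f k = 4 - (2 * (K : ℝ) + 4) * (1 / 2) ^ K := by
    intro K
    induction K with
    | zero => simp
    | succ K ih => rw [Finset.sum_range_succ, ih, hf]; push_cast; ring
  have hle : ∀ K, ∑ k ∈ Finset.range K, f k ≤ 4 := fun K => by
    rw [hclosed]
    have : (0 : ℝ) ≤ (2 * (K : ℝ) + 4) * (1 / 2) ^ K := by positivity
    linarith
  rw [← Finset.sum_filter_add_sum_filter_not (Finset.range L) (fun s => s ≤ J)]
  have h1 : ∀ p : ℕ → Prop, ∀ [DecidablePred p], Set.InjOn (fun s => Nat.dist s J)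
      ↑((Finset.range L).filter p) →
      ∑ s ∈ (Finset.range L).filter p, f (Nat.dist s J) ≤ 4 := by
    intro p _ hinj
    rw [← Finset.sum_image (f := f) hinj]
    refine (Finset.sum_le_sum_of_subset_of_nonneg (t := Finset.range (L + J + 1)) ?_
      fun k _ _ => hf0 k).trans (hle _)
    intro k hk
    obtain ⟨s, hs, rfl⟩ := Finset.mem_image.1 hk
    have := Finset.mem_range.1 (Finset.mem_filter.1 hs).1
    simp only [Finset.mem_range, Nat.dist]
    omega
  have ha := h1 (fun s => s ≤ J) (by
    intro a ha b hb hab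
    have ha' := (Finset.mem_filter.1 ha).2
    have hb' := (Finset.mem_filter.1 hb).2
    simp only [Nat.dist] at hab
    omega)
  have hb := h1 (fun s => ¬ s ≤ J) (by
    intro a ha b hb hab
    have ha' := (Finset.mem_filter.1 ha).2
    have hb' := (Finset.mem_filter.1 hb).2
    simp only [Nat.dist] at hab
    omega)
  linarith

variable (lev) in
/-- Flattening: coding the scale of every point of a translate costs all that is lost. -/
theorem cnt_le_flat {H : Finset X} {q : ℝ} (hq : 0 < q) (hH : Sparse Γ q H) {L : ℕ}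
    (hL : H.card + 1 ≤ 2 ^ L) (π : Λ → ℝ) (hπ : ∀ x, 0 < π x) (hπ1 : ∑ x, π x ≤ 1)
    (lab : Γ → Λ) (J : X → ℕ)
    (hlab : ∀ g ∈ Merge.inside Γ F H, ∀ f ∈ F, lev (lab g) f = J (g • f))
    (hJ1 : ∀ y ∈ H, Merge.cover Γ F H y ≤ (1 / 2) ^ J y)
    (hJ2 : ∀ y ∈ H, J y < L → (1 / 2) ^ (J y + 1) ≤ Merge.cover Γ F H y) (hF : F.Nonempty) :
    (cnt Γ F H : ℝ) ≤ (Fintype.card Γ : ℝ) * (Real.exp 18 * q) ^ F.card *
      Real.exp ((∑ g ∈ Merge.inside Γ F H, -Real.log (π (lab g))) /
        ((Merge.inside Γ F H).card : ℝ)) := by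
  classical
  have hcS : cnt Γ F H = (Merge.inside Γ F H).card := rfl
  rcases (Merge.inside Γ F H).eq_empty_or_nonempty with hS | hS
  · rw [hcS, hS, Finset.card_empty, Nat.cast_zero]; positivity
  set A₀ := (∑ g ∈ Merge.inside Γ F H, -Real.log (π (lab g))) /
    ((Merge.inside Γ F H).card : ℝ) with hA₀
  have hN : (0 : ℝ) < Fintype.card Γ := by exact_mod_cast Fintype.card_pos
  set E : ℕ → ℝ := fun r => Real.log 2 * (1 - (1 / 2) ^ r) +
    ∑ y ∈ H, ∑ u ∈ Finset.range r, (Real.log 2 * (Nat.dist u (J y) : ℝ) *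
      (min 1 (((2 : ℝ) ^ u * Merge.cover Γ F H y) ^ 2) / 2 ^ u) +
        Merge.cover Γ F H y * phi u (J y)) with hE
  have hlev : ∀ r, HasW Γ F H lab (-Real.log q) (2 ^ r) ((2 : ℝ) ^ r * (A₀ + E r)) := by
    intro r
    induction r with
    | zero =>
      have h := hasW_one (F := F) (H := H) π hπ hπ1 lab (-Real.log q) hS
      simp only [hE, pow_zero, one_mul, Finset.range_zero, Finset.sum_empty,
        Finset.sum_const_zero, sub_self, mul_zero, add_zero]
      exact h
    | succ r ih =>
      have h := hasW_step lev hq hH lab J hlab hS ih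
      have hrec : E (r + 1) = E r + Real.log 2 * (1 / 2) ^ (r + 1) +
          (Real.log 2 / 2 ^ r * (∑ y ∈ H, (Nat.dist r (J y) : ℝ) *
              min 1 (((2 : ℝ) ^ r * Merge.cover Γ F H y) ^ 2)) +
            ∑ y ∈ H, Merge.cover Γ F H y * phi r (J y)) := by
        simp only [hE, Finset.sum_range_succ, Finset.sum_add_distrib]
        rw [Finset.mul_sum (a := Real.log 2 / (2 : ℝ) ^ r), Finset.sum_congr rfl
          (g := fun y => Real.log 2 / (2 : ℝ) ^ r * ((Nat.dist r (J y) : ℝ) *
            min 1 (((2 : ℝ) ^ r * Merge.cover Γ F H y) ^ 2)))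
          (f := fun y => Real.log 2 * (Nat.dist r (J y) : ℝ) *
            (min 1 (((2 : ℝ) ^ r * Merge.cover Γ F H y) ^ 2) / 2 ^ r))
          fun y _ => by ring]
        rw [pow_succ]
        ring
      have e : (2 : ℝ) ^ (r + 1) * (A₀ + E (r + 1)) = 2 * ((2 : ℝ) ^ r * (A₀ + E r)) +
          Real.log 2 + 2 * Real.log 2 * ∑ y ∈ H, (Nat.dist r (J y) : ℝ) *
            min 1 (((2 : ℝ) ^ r * Merge.cover Γ F H y) ^ 2) +
          2 * (2 : ℝ) ^ r * ∑ y ∈ H, Merge.cover Γ F H y * phi r (J y) := by
        rw [hrec, one_div, inv_pow, pow_succ]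
        field_simp
        ring
      rw [e]
      exact h
  have hEL : E L ≤ Real.log 2 + 16 * (F.card : ℝ) := by
    rw [hE]
    refine add_le_add ?_ ?_
    · have : (0 : ℝ) ≤ Real.log 2 * (1 / 2) ^ L :=
        mul_nonneg (Real.log_nonneg one_le_two) (by positivity)
      linarith
    · rw [← Merge.sum_cover hS, Finset.mul_sum]
      refine Finset.sum_le_sum fun y hy => ?_
      set p := Merge.cover Γ F H y with hp
      have hp0 : 0 ≤ p := Merge.cover_nonneg F H y
      refine le_trans (Finset.sum_le_sum (g := fun u => 2 * p *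
        (((Nat.dist u (J y) : ℝ) + 1) * (1 / 2) ^ Nat.dist u (J y))) fun u hu => ?_) ?_
      · have hu' := Finset.mem_range.1 hu
        have hd0 : (0 : ℝ) ≤ (Nat.dist u (J y) : ℝ) := Nat.cast_nonneg _
        have hmin : min 1 (((2 : ℝ) ^ u * p) ^ 2) / 2 ^ u ≤
            2 * p * (1 / 2) ^ Nat.dist u (J y) := by
          rw [div_le_iff₀ (by positivity)]
          rcases le_total u (J y) with hc | hc
          · obtain ⟨k, hk⟩ := Nat.exists_eq_add_of_le hc
            refine (min_le_right _ _).trans ?_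
            rw [hk, show Nat.dist u (u + k) = k by simp [Nat.dist]]
            have h1 : p ≤ (1 / 2) ^ u * (1 / 2) ^ k := by
              rw [← pow_add, ← hk]; exact hJ1 y hy
            have h2 : (2 : ℝ) ^ u * p ≤ (1 / 2) ^ k := by
              refine (mul_le_mul_of_nonneg_left h1 (by positivity)).trans (le_of_eq ?_)
              rw [← mul_assoc, ← mul_pow]; norm_num
            rw [sq]
            refine (mul_le_mul_of_nonneg_left h2 (by positivity)).trans ?_
            have : (0 : ℝ) ≤ (2 : ℝ) ^ u * p * (1 / 2) ^ k := by positivity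
            linarith
          · obtain ⟨k, hk⟩ := Nat.exists_eq_add_of_le hc
            refine (min_le_left _ _).trans ?_
            have h1 := hJ2 y hy (lt_of_le_of_lt hc hu')
            rw [hk, show Nat.dist (J y + k) (J y) = k by simp [Nat.dist]]
            rw [pow_succ] at h1
            calc (1 : ℝ) = 2 * ((1 / 2) ^ J y * (1 / 2)) * (1 / 2) ^ k * 2 ^ (J y + k) := by
                  rw [show 2 * ((1 / 2 : ℝ) ^ J y * (1 / 2)) * (1 / 2) ^ k * 2 ^ (J y + k) =
                    ((1 / 2) * 2) ^ (J y + k) by rw [mul_pow, pow_add]; ring]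
                  norm_num
              _ ≤ _ := mul_le_mul_of_nonneg_right (mul_le_mul_of_nonneg_right
                  (by linarith) (by positivity)) (by positivity)
        have h2 := mul_le_mul_of_nonneg_left hmin
          (mul_nonneg (Real.log_nonneg one_le_two) hd0)
        have h3 : (0 : ℝ) ≤ p * ((Nat.dist u (J y) : ℝ) * (1 / 2) ^ Nat.dist u (J y)) := by
          positivity
        have h4 := mul_le_mul_of_nonneg_right
          (show Real.log 2 ≤ 1 by linarith [Real.log_two_lt_d9]) h3
        have h5 : (0 : ℝ) ≤ p * (1 / 2) ^ Nat.dist u (J y) := by positivity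
        simp only [phi]
        linarith
      · rw [← Finset.mul_sum]
        have := mul_le_mul_of_nonneg_left (dist_series (J y) L) (mul_nonneg zero_le_two hp0)
        linarith
  obtain ⟨ι, hι, hι', hn, Ψ, hΨ, hinv, hsum, hlog⟩ := hlev L
  set n := 2 ^ L with hndef
  set T := Fintype.piFinset fun _ : ι => Merge.inside Γ F H with hT
  set em : (ι → Γ) → ι → Γ × Λ := fun t i => (t i, lab (t i)) with hem
  have hnR : (n : ℝ) = (2 : ℝ) ^ L := by rw [hndef]; push_cast; rfl
  have hn0 : (0 : ℝ) < n := by rw [hnR]; positivity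
  have hTp : (0 : ℝ) < T.card := by
    exact_mod_cast (Fintype.piFinset_nonempty.2 fun _ => hS).card_pos
  -- root
  set B : ℝ := (Fintype.card Γ : ℝ) ^ n with hB
  have hB0 : 0 ≤ B := by positivity
  have hrootsum : ∑ t ∈ T, Ψ (em t) * (q ^ (Merge.uni F t).card)⁻¹ ≤ 2 * 2 ^ H.card * B := by
    rw [← Finset.sum_fiberwise_of_maps_to (g := fun t => Merge.uni F t) (t := H.powerset)
      fun t ht => Finset.mem_powerset.2 (Merge.uni_subset ht)]
    refine le_of_le_of_eq (Finset.sum_le_sum (g := fun _ => 2 * B) fun U hU => ?_) (by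
      rw [Finset.sum_const, Finset.card_powerset, nsmul_eq_mul]; push_cast; ring)
    set K := ∑ z ∈ Finset.univ.filter (fun z : ι → Γ × Λ => Merge.uni F (tr z) = U), Ψ z with hK
    have htr : ∀ g : Γ, K =
        ∑ z ∈ Finset.univ.filter (fun z : ι → Γ × Λ => Merge.uni F (tr z) = g • U), Ψ z := by
      intro g
      refine Finset.sum_equiv (Equiv.piCongrRight fun _ : ι =>
        Equiv.prodCongr (Equiv.mulLeft g) (Equiv.refl Λ)) ?_ ?_
      · intro z
        simp only [Finset.mem_filter, Finset.mem_univ, true_and]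
        show _ ↔ Merge.uni F (tr (sm g z)) = g • U
        rw [uni_tr_sm]
        exact ((MulAction.injective g).eq_iff).symm
      · intro z _
        exact (hinv g z).symm
    have hKle : (Fintype.card Γ : ℝ) * K ≤ (stab Γ U : ℝ) * B := by
      calc (Fintype.card Γ : ℝ) * K
          = ∑ g : Γ, ∑ z : ι → Γ × Λ, if Merge.uni F (tr z) = g • U then Ψ z else 0 := by
            rw [← nsmul_eq_mul, ← Finset.card_univ, ← Finset.sum_const]
            refine Finset.sum_congr rfl fun g _ => ?_
            rw [htr g, Finset.sum_filter]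
        _ = ∑ z : ι → Γ × Λ,
              ((Finset.univ.filter fun g : Γ => g • U = Merge.uni F (tr z)).card : ℝ) * Ψ z := by
            rw [Finset.sum_comm]
            refine Finset.sum_congr rfl fun z _ => ?_
            rw [← Finset.sum_filter, Finset.sum_const, nsmul_eq_mul]
            simp only [eq_comm]
        _ ≤ ∑ z : ι → Γ × Λ, (stab Γ U : ℝ) * Ψ z :=
            Finset.sum_le_sum fun z _ => mul_le_mul_of_nonneg_right
              (by exact_mod_cast fiber_le_stab (Γ := Γ) U _) (hΨ z).le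
        _ ≤ _ := by
            rw [← Finset.mul_sum]; exact mul_le_mul_of_nonneg_left hsum (Nat.cast_nonneg _)
    have hq' : (0 : ℝ) < q ^ U.card := pow_pos hq _
    have hKU : K ≤ 2 * q ^ U.card * B := by
      refine le_of_mul_le_mul_left (hKle.trans ?_) hN
      refine (mul_le_mul_of_nonneg_right (hH U (Finset.mem_powerset.1 hU)) hB0).trans (le_of_eq ?_)
      ring
    calc _ = (∑ t ∈ T.filter (fun t => Merge.uni F t = U), Ψ (em t)) * (q ^ U.card)⁻¹ := by
          rw [Finset.sum_mul]
          exact Finset.sum_congr rfl fun t ht => by rw [(Finset.mem_filter.1 ht).2]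
      _ ≤ K * (q ^ U.card)⁻¹ := by
          refine mul_le_mul_of_nonneg_right ?_ (inv_nonneg.2 hq'.le)
          have hinj : Function.Injective em := fun a b hab => funext fun i =>
            congrArg Prod.fst (congrFun hab i)
          rw [← Finset.sum_image (f := Ψ) fun _ _ _ _ hh => hinj hh]
          refine Finset.sum_le_sum_of_subset_of_nonneg ?_ fun z _ _ => (hΨ z).le
          intro z hz
          obtain ⟨t, ht, rfl⟩ := Finset.mem_image.1 hz
          exact Finset.mem_filter.2 ⟨Finset.mem_univ _, (Finset.mem_filter.1 ht).2⟩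
      _ ≤ _ := mul_le_mul_of_nonneg_right hKU (inv_nonneg.2 hq'.le)
      _ = 2 * B := by field_simp
  -- Jensen
  set x : (ι → Γ) → ℝ :=
    fun t => Real.log (Ψ (em t)) + (Merge.uni F t).card * -Real.log q with hx
  set μ := (∑ t ∈ T, x t) / T.card with hμ
  have hjen : (T.card : ℝ) * Real.exp μ ≤
      ∑ t ∈ T, Ψ (em t) * (q ^ (Merge.uni F t).card)⁻¹ := by
    calc (T.card : ℝ) * Real.exp μ = ∑ t ∈ T, Real.exp μ * (1 + (x t - μ)) := by
          rw [← Finset.mul_sum, Finset.sum_add_distrib, Finset.sum_sub_distrib, Finset.sum_const,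
            Finset.sum_const, nsmul_one, nsmul_eq_mul, hμ, mul_div_cancel₀ _ hTp.ne']
          ring
      _ ≤ ∑ t ∈ T, Real.exp μ * Real.exp (x t - μ) :=
          Finset.sum_le_sum fun t _ => mul_le_mul_of_nonneg_left
            (by linarith [Real.add_one_le_exp (x t - μ)]) (Real.exp_pos _).le
      _ = _ := by
          refine Finset.sum_congr rfl fun t _ => ?_
          rw [← Real.exp_add, add_sub_cancel, hx]
          simp only
          rw [Real.exp_add, Real.exp_log (hΨ _), mul_neg, Real.exp_neg, Real.exp_nat_mul,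
            Real.exp_log hq]
  have hμge : -Real.log q * ((n : ℝ) * F.card) - (2 : ℝ) ^ L * (A₀ + E L) ≤ μ := by
    rw [hμ, le_div_iff₀ hTp]
    simp only [hx, Finset.sum_add_distrib, ← Finset.sum_mul]
    simp only [hem] at hlog ⊢
    linarith
  have hs0 : (0 : ℝ) < (Merge.inside Γ F H).card := by exact_mod_cast hS.card_pos
  have hTcard : (T.card : ℝ) = ((Merge.inside Γ F H).card : ℝ) ^ n := by
    rw [hT, Fintype.card_piFinset, Finset.prod_const, Finset.card_univ, hn]; push_cast; rfl
  have hlg : Real.log (T.card : ℝ) + μ ≤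
      ((H.card : ℝ) + 1) * Real.log 2 + (n : ℝ) * Real.log (Fintype.card Γ : ℝ) := by
    have h := Real.log_le_log (by positivity) (hjen.trans hrootsum)
    rw [Real.log_mul hTp.ne' (Real.exp_pos μ).ne', Real.log_exp,
      show (2 : ℝ) * 2 ^ H.card * B = 2 ^ (H.card + 1) * (Fintype.card Γ : ℝ) ^ n by
        rw [hB]; ring,
      Real.log_mul (by positivity) (by positivity), Real.log_pow, Real.log_pow] at h
    push_cast at h
    exact h
  rw [hTcard, Real.log_pow] at hlg
  have he1 : (1 : ℝ) ≤ F.card := by exact_mod_cast hF.card_pos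
  have hln2 := Real.log_two_lt_d9
  have hm : ((H.card : ℝ) + 1) * Real.log 2 ≤ (n : ℝ) * 1 :=
    mul_le_mul (by exact_mod_cast hL) (by linarith) (Real.log_nonneg one_le_two) hn0.le
  have hkey : Real.log ((Merge.inside Γ F H).card : ℝ) ≤
      Real.log (Fintype.card Γ : ℝ) + (F.card : ℝ) * (Real.log q + 18) + A₀ := by
    refine le_of_mul_le_mul_left ?_ hn0
    have h5 := mul_le_mul_of_nonneg_left hEL hn0.le
    have h6 : (n : ℝ) * (Real.log 2 + 1) ≤ (n : ℝ) * (2 * F.card) :=
      mul_le_mul_of_nonneg_left (by linarith) hn0.le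
    rw [← hnR] at hμge
    linarith
  rw [hcS, ← Real.log_le_log_iff hs0 (by positivity), Real.log_mul (by positivity)
    (Real.exp_pos _).ne', Real.log_exp, Real.log_mul hN.ne' (by positivity), Real.log_pow,
    Real.log_mul (Real.exp_pos _).ne' hq.ne', Real.log_exp]
  linarith

end Vale.Agent.P064.Flat
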