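import Mathlib
import Vale.Agent.P064.BoundedDegree
import Vale.Agent.P064.Flatten

/-! Translates of an edge set inside a sparse edge set, for dense sparsity parameters.

Vertices of small degree are peeled off through common neighbourhoods. What remains has many
edges per vertex, so the scale of each of its vertices can be coded, and the coded scales predict
the scale of each edge up to an error paid by sparsity. Flattening then applies. -/

namespace Vale.Agent.P064.Dense

open Finset Vale.Agent.P064.BDeg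

open scoped Pointwise

open scoped Classical

variable {n : ℕ}

/-! ### Consequences of sparsity -/

lemma factorial_le (n v : ℕ) (hv : v ≤ n) :
    (n.factorial : ℝ) ≤ (n : ℝ) ^ v * ((n - v).factorial : ℝ) := by
  rw [← Nat.factorial_mul_descFactorial hv, mul_comm ((n : ℝ) ^ v)]
  exact_mod_cast Nat.mul_le_mul_left _ (Nat.descFactorial_le_pow n v)

lemma card_perm_cast : (Fintype.card (Equiv.Perm (Fin n)) : ℝ) = (n.factorial : ℝ) := by
  rw [Fintype.card_perm, Fintype.card_fin]

lemma card_le_n (W : Finset (Fin n)) : W.card ≤ n :=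
  (Finset.card_le_univ _).trans (le_of_eq (Fintype.card_fin n))

/-- A sparse set spans few edges. -/
lemma sparse_edges {H U : Finset (Sym2 (Fin n))} {q : ℝ} (hq : 0 < q) (hn : 0 < n)
    (hH : Sparse (Equiv.Perm (Fin n)) q H) (hU : U ⊆ H) {W : Finset (Fin n)}
    (hW : vset U ⊆ W) :
    (U.card : ℝ) * -Real.log q ≤ (W.card : ℝ) * Real.log (n : ℝ) + Real.log 2 := by
  have hfix : (n - W.card).factorial ≤ stab (Equiv.Perm (Fin n)) U := by
    rw [← fix_card W]
    refine Finset.card_le_card fun g hg => Finset.mem_filter.2 ⟨Finset.mem_univ _, ?_⟩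
    rw [smul_congr (h := 1) fun a ha => (Finset.mem_filter.1 hg).2 a (hW ha), one_smul]
  have hpos : (0 : ℝ) < ((n - W.card).factorial : ℝ) := by positivity
  have hn' : (0 : ℝ) < (n : ℝ) := by exact_mod_cast hn
  have h1 : (1 : ℝ) ≤ 2 * q ^ U.card * (n : ℝ) ^ W.card := by
    refine le_of_mul_le_mul_right ?_ hpos
    calc 1 * ((n - W.card).factorial : ℝ) ≤ (stab (Equiv.Perm (Fin n)) U : ℝ) := by
          rw [one_mul]; exact_mod_cast hfix
      _ ≤ 2 * q ^ U.card * (n.factorial : ℝ) := by rw [← card_perm_cast]; exact hH U hU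
      _ ≤ 2 * q ^ U.card * ((n : ℝ) ^ W.card * ((n - W.card).factorial : ℝ)) :=
          mul_le_mul_of_nonneg_left (factorial_le n _ (card_le_n W)) (by positivity)
      _ = _ := by ring
  have h2 := Real.log_le_log one_pos h1
  rw [Real.log_one, Real.log_mul (by positivity) (by positivity),
    Real.log_mul (by norm_num) (by positivity), Real.log_pow, Real.log_pow] at h2
  linarith

/-- Common neighbourhoods in a sparse set are small. -/
lemma common_le {H : Finset (Sym2 (Fin n))} {q : ℝ} (hq : 0 < q) (hn : 2 ≤ n)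
    (hl : 1 ≤ -Real.log q) (hH : Sparse (Equiv.Perm (Fin n)) q H) (hloop : ∀ e ∈ H, ¬e.IsDiag)
    (A : Finset (Fin n))
    (hd : (A.card : ℝ) * -Real.log q ≤ Real.log (n : ℝ) / 2) :
    ((Finset.univ.filter fun x : Fin n => ∀ a ∈ A, s(x, a) ∈ H).card : ℝ) ≤
      9 * (n : ℝ) * q ^ A.card := by
  set B := Finset.univ.filter fun x : Fin n => ∀ a ∈ A, s(x, a) ∈ H with hB
  set d := A.card with hdA
  set D := B.card with hD
  have hn0 : (0 : ℝ) < (n : ℝ) := by exact_mod_cast (show 0 < n by omega)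
  set z := Real.log (n : ℝ) with hz
  have hz0 : 0 ≤ z := Real.log_nonneg (by exact_mod_cast (show 1 ≤ n by omega))
  have hnq : Real.exp (z / 2) ≤ (n : ℝ) * q ^ d := by
    rw [← Real.exp_log (show (0 : ℝ) < (n : ℝ) * q ^ d by positivity),
      Real.log_mul hn0.ne' (by positivity), Real.log_pow]
    exact Real.exp_le_exp.2 (by rw [← hz]; linarith)
  rcases le_or_gt (D : ℝ) ((d : ℝ) * z + 1) with hsmall | hbig
  · refine hsmall.trans ?_
    have hd0 : (0 : ℝ) ≤ (d : ℝ) := Nat.cast_nonneg _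
    have h1 : (d : ℝ) ≤ z / 2 := by
      have := mul_le_mul_of_nonneg_left hl hd0
      linarith
    have h2 : z / 4 ≤ Real.exp (z / 4) := by linarith [Real.add_one_le_exp (z / 4)]
    have h3 : z / 4 * (z / 4) ≤ Real.exp (z / 2) := by
      rw [show z / 2 = z / 4 + z / 4 by ring, Real.exp_add]
      exact mul_le_mul h2 h2 (by linarith) (Real.exp_pos _).le
    have h4 : (d : ℝ) * z ≤ z / 2 * z := mul_le_mul_of_nonneg_right h1 hz0
    have h5 : 1 ≤ Real.exp (z / 2) := Real.one_le_exp (by linarith)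
    linarith
  have hdis : Disjoint A B := Finset.disjoint_left.2 fun a ha hb => by
    exact hloop _ ((Finset.mem_filter.1 hb).2 a ha) (Sym2.mk_isDiag_iff.2 rfl)
  set U := (B ×ˢ A).image fun z => s(z.1, z.2) with hU
  have hUH : U ⊆ H := fun e he => by
    obtain ⟨z, hz, rfl⟩ := Finset.mem_image.1 he
    exact (Finset.mem_filter.1 (Finset.mem_product.1 hz).1).2 _ (Finset.mem_product.1 hz).2
  have hUc : U.card = D * d := by
    rw [hU, Finset.card_image_of_injOn, Finset.card_product]
    intro x hx y hy hxy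
    have hx' := Finset.mem_product.1 hx
    have hy' := Finset.mem_product.1 hy
    rcases Sym2.eq_iff.1 hxy with ⟨h1, h2⟩ | ⟨h1, h2⟩
    · exact Prod.ext h1 h2
    · exact absurd hx'.1 (Finset.disjoint_left.1 hdis (h1 ▸ hy'.2))
  have hcard : (A ∪ B).card = d + D := Finset.card_union_of_disjoint hdis
  have hfac : D.factorial * (n - (d + D)).factorial ≤ stab (Equiv.Perm (Fin n)) U := by
    rw [← hcard, ← fix_card (A ∪ B), hD, ← Fintype.card_coe B, ← Fintype.card_perm,
      ← Finset.card_univ, ← Finset.card_product]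
    refine Finset.card_le_card_of_injOn
      (fun σg => Equiv.Perm.ofSubtype σg.1 * σg.2) ?_ ?_
    · intro σg hσg
      have hg := (Finset.mem_filter.1 (Finset.mem_product.1 hσg).2).2
      refine Finset.mem_filter.2 ⟨Finset.mem_univ _, ?_⟩
      refine Finset.eq_of_subset_of_card_le ?_ (le_of_eq (Finset.card_smul_finset _ _).symm)
      intro e he
      obtain ⟨e', he', rfl⟩ := Finset.mem_smul_finset.1 he
      obtain ⟨⟨x, a⟩, hz', rfl⟩ := Finset.mem_image.1 he'
      obtain ⟨hx, ha⟩ := Finset.mem_product.1 hz'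
      refine Finset.mem_image.2 ⟨(Equiv.Perm.ofSubtype σg.1 x, a), Finset.mem_product.2 ⟨?_, ha⟩, ?_⟩
      · rw [Equiv.Perm.ofSubtype_apply_of_mem _ hx]
        exact Subtype.coe_prop _
      · rw [perm_sym2_smul, Sym2.map_mk]
        simp only [Equiv.Perm.coe_mul, Function.comp_apply,
          hg x (Finset.mem_union_right _ hx), hg a (Finset.mem_union_left _ ha)]
        rw [Equiv.Perm.ofSubtype_apply_of_not_mem _ (Finset.disjoint_left.1 hdis ha)]
    · intro x hx y hy hxy
      have hx' := (Finset.mem_filter.1 (Finset.mem_product.1 hx).2).2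
      have hy' := (Finset.mem_filter.1 (Finset.mem_product.1 hy).2).2
      have h1 : x.1 = y.1 := by
        refine Equiv.ext fun b => Subtype.ext ?_
        have := congrArg (fun f : Equiv.Perm (Fin n) => f b.1) hxy
        simp only [Equiv.Perm.coe_mul, Function.comp_apply,
          hx' b.1 (Finset.mem_union_right _ b.2), hy' b.1 (Finset.mem_union_right _ b.2),
          Equiv.Perm.ofSubtype_apply_of_mem _ b.2] at this
        exact this
      refine Prod.ext h1 ?_
      simp only [h1] at hxy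
      exact mul_left_cancel hxy
  have hpos : (0 : ℝ) < ((n - (d + D)).factorial : ℝ) := by positivity
  have hdDn : d + D ≤ n := hcard ▸ card_le_n _
  have h1 : (D.factorial : ℝ) ≤ 2 * q ^ (D * d) * (n : ℝ) ^ (d + D) := by
    refine le_of_mul_le_mul_right ?_ hpos
    calc (D.factorial : ℝ) * ((n - (d + D)).factorial : ℝ)
        ≤ (stab (Equiv.Perm (Fin n)) U : ℝ) := by exact_mod_cast hfac
      _ ≤ 2 * q ^ (D * d) * (n.factorial : ℝ) := by
          rw [← card_perm_cast, ← hUc]; exact hH U hUH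
      _ ≤ 2 * q ^ (D * d) * ((n : ℝ) ^ (d + D) * ((n - (d + D)).factorial : ℝ)) :=
          mul_le_mul_of_nonneg_left (factorial_le n _ hdDn) (by positivity)
      _ = _ := by ring
  have hD0 : (0 : ℝ) < (D : ℝ) := by
    have : (0 : ℝ) ≤ (d : ℝ) * z := mul_nonneg (Nat.cast_nonneg _) hz0
    linarith
  have h2 : (D : ℝ) ^ D ≤ (Real.exp 2 * ((n : ℝ) * q ^ d)) ^ D := by
    have h3 := (div_le_iff₀ (by positivity : (0 : ℝ) < (D.factorial : ℝ))).1
      (Real.pow_div_factorial_le_exp (D : ℝ) hD0.le D)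
    refine h3.trans ?_
    have h4 : 2 * (n : ℝ) ^ d ≤ Real.exp (D : ℝ) := by
      rw [← Real.exp_log (show (0 : ℝ) < 2 * (n : ℝ) ^ d by positivity),
        Real.log_mul (by norm_num) (by positivity), Real.log_pow]
      refine Real.exp_le_exp.2 ?_
      rw [← hz]
      linarith [Real.log_two_lt_d9]
    calc Real.exp (D : ℝ) * (D.factorial : ℝ)
        ≤ Real.exp (D : ℝ) * (2 * q ^ (D * d) * (n : ℝ) ^ (d + D)) :=
          mul_le_mul_of_nonneg_left h1 (Real.exp_pos _).le
      _ = 2 * (n : ℝ) ^ d * (Real.exp (D : ℝ) * ((n : ℝ) * q ^ d) ^ D) := by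
          rw [mul_pow, ← pow_mul, mul_comm d D, pow_add]; ring
      _ ≤ Real.exp (D : ℝ) * (Real.exp (D : ℝ) * ((n : ℝ) * q ^ d) ^ D) :=
          mul_le_mul_of_nonneg_right h4 (by positivity)
      _ = _ := by
          rw [mul_pow (Real.exp 2), ← mul_assoc, ← Real.exp_add, ← Real.exp_nat_mul]; ring_nf
  have hDne : D ≠ 0 := fun h => by rw [h, Nat.cast_zero] at hD0; exact lt_irrefl _ hD0
  have h5 := (pow_le_pow_iff_left₀ hD0.le (by positivity) hDne).1 h2
  refine h5.trans ?_
  rw [mul_assoc 9]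
  refine mul_le_mul_of_nonneg_right ?_ (by positivity)
  rw [show (2 : ℝ) = 1 + 1 by norm_num, Real.exp_add]
  have := Real.exp_one_lt_d9
  nlinarith [Real.exp_pos 1]

/-! ### Scales -/

/-- The scale of a probability, capped at `L`. -/
noncomputable def sc (L : ℕ) (p : ℝ) : ℕ := Nat.findGreatest (fun j => p ≤ (1 / 2) ^ j) L

lemma sc_le (L : ℕ) (p : ℝ) : sc L p ≤ L := Nat.findGreatest_le L

lemma le_sc {L : ℕ} {p : ℝ} (hp : p ≤ 1) : p ≤ (1 / 2) ^ sc L p :=
  Nat.findGreatest_spec (P := fun j => p ≤ (1 / 2 : ℝ) ^ j) (Nat.zero_le L) (by simpa using hp)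

lemma sc_lt {L : ℕ} {p : ℝ} (h : sc L p < L) : (1 / 2) ^ (sc L p + 1) ≤ p :=
  (not_le.1 (Nat.findGreatest_is_greatest (P := fun j => p ≤ (1 / 2 : ℝ) ^ j)
    (Nat.lt_succ_self (sc L p)) h)).le

lemma sc_anti {L : ℕ} {p p' : ℝ} (hp' : p' ≤ 1) (h : p ≤ p') : sc L p' ≤ sc L p :=
  Nat.le_findGreatest (P := fun j => p ≤ (1 / 2 : ℝ) ^ j) (sc_le L p')
    (h.trans (le_sc hp'))

lemma nat_le_two_pow (k : ℕ) : (k : ℝ) * 2 ≤ 2 ^ k := by
  rcases k with _ | k
  · simp
  · rw [pow_succ]
    have : ((k + 1 : ℕ) : ℝ) ≤ 2 ^ k := by exact_mod_cast Nat.lt_two_pow_self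
    linarith

/-! ### Many edges per vertex -/

/-- Averaging over translates a function of the moved edges. -/
lemma avg_pts {F H : Finset (Sym2 (Fin n))}
    (hS : (Merge.inside (Equiv.Perm (Fin n)) F H).Nonempty) (f : Sym2 (Fin n) → ℝ) :
    ∑ g ∈ Merge.inside (Equiv.Perm (Fin n)) F H, ∑ y ∈ F, f (g • y) =
      ((Merge.inside (Equiv.Perm (Fin n)) F H).card : ℝ) *
        ∑ y ∈ H, Merge.cover (Equiv.Perm (Fin n)) F H y * f y := by
  set S := Merge.inside (Equiv.Perm (Fin n)) F H with hSdef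
  have hs0 : (S.card : ℝ) ≠ 0 := by exact_mod_cast hS.card_pos.ne'
  have hin : ∀ g ∈ S, ∑ y ∈ F, f (g • y) = ∑ y ∈ H, if y ∈ g • F then f y else 0 := by
    intro g hg
    rw [← Finset.sum_filter, Finset.filter_mem_eq_inter,
      Finset.inter_eq_right.2 (Finset.mem_filter.1 hg).2, Finset.smul_finset_def,
      Finset.sum_image fun _ _ _ _ hh => MulAction.injective g hh]
  rw [Finset.sum_congr rfl hin, Finset.sum_comm, Finset.mul_sum]
  refine Finset.sum_congr rfl fun y _ => ?_
  rw [← Finset.sum_filter, Finset.sum_const, nsmul_eq_mul, ← mul_assoc, Merge.cover, ← hSdef,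
    mul_div_cancel₀ _ hs0]

/-- The number of translates that put a vertex of `F` on `x`. -/
noncomputable def hits (F H : Finset (Sym2 (Fin n))) (x : Fin n) : ℕ :=
  ((Merge.inside (Equiv.Perm (Fin n)) F H).filter fun g : Equiv.Perm (Fin n) =>
    x ∈ (vset F).image g).card

/-- The smaller number of hits at the two ends of an edge. -/
noncomputable def minHits (F H : Finset (Sym2 (Fin n))) (y : Sym2 (Fin n)) : ℕ :=
  Sym2.lift ⟨fun a b => min (hits F H a) (hits F H b), fun _ _ => min_comm _ _⟩ y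

lemma minHits_le (F H : Finset (Sym2 (Fin n))) {y : Sym2 (Fin n)} {x : Fin n} (hx : x ∈ y) :
    minHits F H y ≤ hits F H x := by
  induction y using Sym2.ind with
  | _ a b =>
    rcases Sym2.mem_iff.1 hx with rfl | rfl
    · exact min_le_left _ _
    · exact min_le_right _ _

lemma exists_minHits (F H : Finset (Sym2 (Fin n))) (y : Sym2 (Fin n)) :
    ∃ x ∈ y, minHits F H y = hits F H x := by
  induction y using Sym2.ind with
  | _ a b =>
    rcases min_choice (hits F H a) (hits F H b) with h | h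
    · exact ⟨a, Sym2.mem_mk_left _ _, h⟩
    · exact ⟨b, Sym2.mem_mk_right _ _, h⟩

/-- The ends of the edges of a sparse set are hit often in total only at a price. -/
lemma budget {H : Finset (Sym2 (Fin n))} {q : ℝ} (hq : 0 < q) (hn : 0 < n)
    (hH : Sparse (Equiv.Perm (Fin n)) q H) (F : Finset (Sym2 (Fin n))) :
    (∑ y ∈ H, (minHits F H y : ℝ)) * -Real.log q ≤
      ((Merge.inside (Equiv.Perm (Fin n)) F H).card : ℝ) *
        (((vset F).card : ℝ) * Real.log (n : ℝ) + Real.log 2) := by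
  set S := Merge.inside (Equiv.Perm (Fin n)) F H with hS
  have hlayer : ∀ {α : Type} (T : Finset α) (m : α → ℕ), (∀ x ∈ T, m x ≤ S.card) →
      ∑ x ∈ T, (m x : ℝ) = ∑ t ∈ Finset.range S.card, ((T.filter fun x => t < m x).card : ℝ) := by
    intro α T m hm
    simp only [Finset.card_filter, Nat.cast_sum]
    rw [Finset.sum_comm]
    refine Finset.sum_congr rfl fun x hx => ?_
    rw [← Nat.cast_sum, Nat.cast_inj, ← Finset.card_filter]
    have : (Finset.range S.card).filter (fun t => t < m x) = Finset.range (m x) := by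
      ext t
      simp only [Finset.mem_filter, Finset.mem_range]
      have := hm x hx
      omega
    rw [this, Finset.card_range]
  have hmy : ∀ y, minHits F H y ≤ S.card := fun y => by
    obtain ⟨x, -, hx⟩ := exists_minHits F H y
    rw [hx]
    exact Finset.card_filter_le _ _
  have hsum : ∑ x : Fin n, (hits F H x : ℝ) = (S.card : ℝ) * ((vset F).card : ℝ) := by
    rw [← Nat.cast_sum, ← Nat.cast_mul, Nat.cast_inj]
    simp only [hits, ← hS, Finset.card_filter]
    rw [Finset.sum_comm, Finset.sum_congr rfl (g := fun _ => (vset F).card) fun g _ => ?_]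
    · rw [Finset.sum_const, smul_eq_mul]
    · rw [← Finset.card_filter, Finset.filter_univ_mem, Finset.card_image_of_injective _ g.injective]
  calc (∑ y ∈ H, (minHits F H y : ℝ)) * -Real.log q
      = ∑ t ∈ Finset.range S.card,
          ((H.filter fun y => t < minHits F H y).card : ℝ) * -Real.log q := by
        rw [hlayer H _ fun y _ => hmy y, Finset.sum_mul]
    _ ≤ ∑ t ∈ Finset.range S.card,
          (((Finset.univ.filter fun x : Fin n => t < hits F H x).card : ℝ) * Real.log (n : ℝ) +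
            Real.log 2) := by
        refine Finset.sum_le_sum fun t _ =>
          sparse_edges hq hn hH (Finset.filter_subset _ _) fun x hx => ?_
        obtain ⟨y, hy, hxy⟩ := mem_vset.1 hx
        exact Finset.mem_filter.2 ⟨Finset.mem_univ _,
          lt_of_lt_of_le (Finset.mem_filter.1 hy).2 (minHits_le F H hxy)⟩
    _ = _ := by
        rw [Finset.sum_add_distrib, ← Finset.sum_mul,
          ← hlayer Finset.univ (hits F H) (fun x _ => Finset.card_filter_le _ _), hsum, Finset.sum_const,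
          Finset.card_range, nsmul_eq_mul]
        ring

/-- Counting with the scales of vertices as a code for the scales of edges. -/
lemma core_bound {H F : Finset (Sym2 (Fin n))} {q : ℝ} (hq : 0 < q) (hn : 2 ≤ n)
    (hl : 1 ≤ -Real.log q) (hH : Sparse (Equiv.Perm (Fin n)) q H) (hF : F.Nonempty)
    (hmany : ((vset F).card : ℝ) * Real.log (n : ℝ) ≤ 4 * (F.card : ℝ) * -Real.log q) :
    (cnt (Equiv.Perm (Fin n)) F H : ℝ) ≤ (Fintype.card (Equiv.Perm (Fin n)) : ℝ) *
      (Real.exp (26 + 4 * Real.log ((Nat.log 2 H.card : ℝ) + 2) * -Real.log q /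
        Real.log (n : ℝ)) * q) ^ F.card := by
  set S := Merge.inside (Equiv.Perm (Fin n)) F H with hSdef
  rcases S.eq_empty_or_nonempty with hS | hS
  · rw [show cnt (Equiv.Perm (Fin n)) F H = S.card from rfl, hS, Finset.card_empty, Nat.cast_zero]
    positivity
  set L := Nat.log 2 H.card + 1 with hL
  have hs : (0 : ℝ) < (S.card : ℝ) := by exact_mod_cast hS.card_pos
  set v := (vset F).card with hv
  set cov := Merge.cover (Equiv.Perm (Fin n)) F H with hcov
  have hcov1 : ∀ y, cov y ≤ 1 := fun y => by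
    rw [hcov, Merge.cover, div_le_one (by exact_mod_cast hS.card_pos)]
    exact_mod_cast Finset.card_filter_le _ _
  set P : Fin n → ℝ := fun x => (hits F H x : ℝ) / (S.card : ℝ) with hP
  have hP1 : ∀ x, P x ≤ 1 := fun x => by
    rw [hP]
    simp only
    rw [div_le_one hs]
    exact_mod_cast Finset.card_filter_le _ _
  set J : Sym2 (Fin n) → ℕ := fun y => sc L (cov y) with hJ
  set Ky : Sym2 (Fin n) → ℕ := fun y => y.toFinset.sup fun x => sc L (P x) with hKy
  let lev : (↥F → Fin (L + 1)) → Sym2 (Fin n) → ℕ :=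
    fun a y => if h : y ∈ F then (a ⟨y, h⟩ : ℕ) else 0
  let lab : Equiv.Perm (Fin n) → ↥F → Fin (L + 1) :=
    fun g f => ⟨J (g • (f : Sym2 (Fin n))), Nat.lt_succ_of_le (sc_le _ _)⟩
  let top : (↥(vset F) → Fin (L + 1)) → ↥F → ℕ := fun i f =>
    (f : Sym2 (Fin n)).toFinset.sup fun x => if h : x ∈ vset F then (i ⟨x, h⟩ : ℕ) else 0
  set π : (↥F → Fin (L + 1)) → ℝ := fun a => ((L + 1 : ℕ) : ℝ)⁻¹ ^ v *
    ∑ i : ↥(vset F) → Fin (L + 1), ∏ f : ↥F, Flat.phi (a f : ℕ) (top i f) / 8 with hπ
  have hπ0 : ∀ a, 0 < π a := fun a => by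
    rw [hπ]
    refine mul_pos (by positivity) (Finset.sum_pos (fun i _ => Finset.prod_pos fun f _ =>
      div_pos (Flat.phi_pos _ _) (by norm_num)) Finset.univ_nonempty)
  have hπ1 : ∑ a, π a ≤ 1 := by
    rw [hπ]
    simp only
    rw [← Finset.mul_sum, Finset.sum_comm]
    have hone : ∀ i : ↥(vset F) → Fin (L + 1),
        ∑ a : ↥F → Fin (L + 1), ∏ f : ↥F, Flat.phi (a f : ℕ) (top i f) / 8 ≤ 1 := by
      intro i
      rw [← Fintype.piFinset_univ,
        ← Finset.prod_univ_sum (f := fun f (b : Fin (L + 1)) => Flat.phi (b : ℕ) (top i f) / 8)]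
      refine Finset.prod_le_one (fun f _ => Finset.sum_nonneg fun b _ =>
        div_nonneg (Flat.phi_pos _ _).le (by norm_num)) fun f _ => ?_
      rw [← Finset.sum_div, div_le_one (by norm_num),
        Fin.sum_univ_eq_sum_range (fun b => Flat.phi b (top i f))]
      refine le_trans (Finset.sum_le_sum fun b _ => ?_) (Flat.dist_series (top i f) (L + 1))
      exact le_mul_of_one_le_left (Flat.phi_pos _ _).le (by simp)
    refine (mul_le_mul_of_nonneg_left (Finset.sum_le_sum fun i _ => hone i) (by positivity)).trans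
      (le_of_eq ?_)
    rw [Finset.sum_const, Finset.card_univ, Fintype.card_fun, Fintype.card_fin, Fintype.card_coe,
      nsmul_eq_mul, mul_one, Nat.cast_pow, ← hv, ← mul_pow, inv_mul_cancel₀ (by positivity),
      one_pow]
  have hflat := Flat.cnt_le_flat lev hq hH (L := L) (Nat.lt_pow_succ_log_self (by norm_num) _)
    π hπ0 hπ1 lab J (fun g _ f hf => by simp [lev, lab, hf])
    (fun y _ => le_sc (hcov1 y)) (fun y _ h => sc_lt h) hF
  -- the cost of a label
  have hlab : ∀ g ∈ S, -Real.log (π (lab g)) ≤ (v : ℝ) * Real.log ((L : ℝ) + 1) +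
      ∑ f ∈ F, (Real.log 8 + Real.log 2 * (Nat.dist (J (g • f)) (Ky (g • f)) : ℝ)) := by
    intro g _
    let i₀ : ↥(vset F) → Fin (L + 1) := fun x => ⟨sc L (P (g x)), Nat.lt_succ_of_le (sc_le _ _)⟩
    have htop : ∀ f : ↥F, top i₀ f = Ky (g • (f : Sym2 (Fin n))) := by
      intro f
      rw [perm_sym2_smul]
      simp only [top, hKy]
      rw [show (Sym2.map g (f : Sym2 (Fin n))).toFinset =
        (f : Sym2 (Fin n)).toFinset.image g by ext; simp [Sym2.mem_map], Finset.sup_image]
      refine Finset.sup_congr rfl fun x hx => ?_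
      rw [dif_pos (mem_vset.2 ⟨_, f.2, Sym2.mem_toFinset.1 hx⟩)]
      rfl
    have hp : ((L + 1 : ℕ) : ℝ)⁻¹ ^ v *
        ∏ f : ↥F, Flat.phi (lab g f : ℕ) (top i₀ f) / 8 ≤ π (lab g) := by
      rw [hπ]
      exact mul_le_mul_of_nonneg_left (Finset.single_le_sum
        (f := fun i => ∏ f : ↥F, Flat.phi (lab g f : ℕ) (top i f) / 8)
        (fun i _ => Finset.prod_nonneg fun f _ => div_nonneg (Flat.phi_pos _ _).le (by norm_num))
        (Finset.mem_univ i₀)) (by positivity)
    have hpp : 0 < ((L + 1 : ℕ) : ℝ)⁻¹ ^ v *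
        ∏ f : ↥F, Flat.phi (lab g f : ℕ) (top i₀ f) / 8 :=
      mul_pos (by positivity) (Finset.prod_pos fun f _ => div_pos (Flat.phi_pos _ _) (by norm_num))
    refine (neg_le_neg (Real.log_le_log hpp hp)).trans (le_of_eq ?_)
    have hne : ∀ f ∈ (Finset.univ : Finset ↥F),
        Flat.phi (lab g f : ℕ) (top i₀ f) / 8 ≠ 0 :=
      fun f _ => (div_pos (Flat.phi_pos _ _) (by norm_num)).ne'
    rw [Real.log_mul (by positivity) (Finset.prod_ne_zero_iff.2 hne), Real.log_prod hne,
      Real.log_pow, Real.log_inv, neg_add, ← Finset.sum_neg_distrib, ← Finset.sum_coe_sort F]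
    push_cast
    congr 1
    · ring
    · refine Finset.sum_congr rfl fun f _ => ?_
      rw [Real.log_div (Flat.phi_pos _ _).ne' (by norm_num), Flat.phi, Real.log_pow, htop, one_div,
        Real.log_inv]
      simp only [lab]
      ring
  have hgap : ∀ y ∈ H, cov y * (Nat.dist (J y) (Ky y) : ℝ) ≤
      (minHits F H y : ℝ) / (S.card : ℝ) := by
    intro y _
    have hrhs : (0 : ℝ) ≤ (minHits F H y : ℝ) / (S.card : ℝ) := by positivity
    rcases eq_or_ne (cov y) 0 with h0 | h0
    · rw [h0, zero_mul]; exact hrhs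
    have hle : ∀ x ∈ y, cov y ≤ P x := by
      intro x hx
      rw [hcov, Merge.cover, ← hSdef]
      refine div_le_div_of_nonneg_right (Nat.cast_le.2 (Finset.card_le_card fun g hg => ?_)) hs.le
      obtain ⟨hgS, hgy⟩ := Finset.mem_filter.1 hg
      obtain ⟨e, he, rfl⟩ := Finset.mem_smul_finset.1 hgy
      rw [perm_sym2_smul] at hx
      obtain ⟨u, hu, rfl⟩ := Sym2.mem_map.1 hx
      exact Finset.mem_filter.2 ⟨hgS, Finset.mem_image_of_mem _ (mem_vset.2 ⟨e, he, hu⟩)⟩
    have hKJ : Ky y ≤ J y := Finset.sup_le fun x hx =>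
      sc_anti (hP1 x) (hle x (Sym2.mem_toFinset.1 hx))
    obtain ⟨k, hk⟩ := Nat.exists_eq_add_of_le hKJ
    rw [show Nat.dist (J y) (Ky y) = k by simp only [Nat.dist]; omega]
    rcases Nat.eq_zero_or_pos k with rfl | hkpos
    · rw [Nat.cast_zero, mul_zero]; exact hrhs
    have hKL : Ky y < L := by
      have : J y ≤ L := sc_le _ _
      omega
    obtain ⟨x, hx, hmx⟩ := exists_minHits F H y
    have hscx : sc L (P x) ≤ Ky y :=
      Finset.le_sup (f := fun x => sc L (P x)) (Sym2.mem_toFinset.2 hx)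
    have hb : (1 / 2 : ℝ) ^ (Ky y + 1) ≤ P x :=
      (pow_le_pow_of_le_one (by norm_num) (by norm_num) (by omega)).trans
        (sc_lt (lt_of_le_of_lt hscx hKL))
    rw [show (minHits F H y : ℝ) / (S.card : ℝ) = P x by rw [hmx]]
    refine le_trans ?_ hb
    have hJk : cov y ≤ (1 / 2) ^ (Ky y + k) := by rw [← hk]; exact le_sc (hcov1 y)
    refine (mul_le_mul_of_nonneg_right hJk (Nat.cast_nonneg _)).trans ?_
    rw [pow_add, pow_succ, mul_assoc]
    refine mul_le_mul_of_nonneg_left ?_ (by positivity)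
    rw [div_pow, one_pow, one_div, inv_mul_le_iff₀ (by positivity)]
    linarith [nat_le_two_pow k]
  -- the average label cost
  have hlog2 : (0 : ℝ) ≤ Real.log 2 := Real.log_nonneg one_le_two
  have hG : ∑ g ∈ S, ∑ f ∈ F, (Nat.dist (J (g • f)) (Ky (g • f)) : ℝ) ≤
      ∑ y ∈ H, (minHits F H y : ℝ) := by
    rw [avg_pts hS fun y => (Nat.dist (J y) (Ky y) : ℝ), Finset.mul_sum]
    refine Finset.sum_le_sum fun y hy => ?_
    exact (mul_le_mul_of_nonneg_left (hgap y hy) hs.le).trans
      (le_of_eq (mul_div_cancel₀ _ hs.ne'))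
  set G := ∑ g ∈ S, ∑ f ∈ F, (Nat.dist (J (g • f)) (Ky (g • f)) : ℝ) with hGdef
  have hbud := budget hq (by omega) hH F
  rw [← hSdef, ← hv] at hbud
  set l := -Real.log q with hldef
  set z := Real.log (n : ℝ) with hz
  have hz0 : 0 < z := Real.log_pos (by exact_mod_cast (show 1 < n by omega))
  have he1 : (1 : ℝ) ≤ F.card := by exact_mod_cast hF.card_pos
  have hG0 : 0 ≤ G := Finset.sum_nonneg fun g _ => Finset.sum_nonneg fun f _ => Nat.cast_nonneg _
  have hG5 : G ≤ (S.card : ℝ) * (5 * F.card) := by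
    have h1 : G * l ≤ (S.card : ℝ) * ((v : ℝ) * z + Real.log 2) :=
      (mul_le_mul_of_nonneg_right hG (by linarith)).trans hbud
    have h2 : (v : ℝ) * z + Real.log 2 ≤ 5 * F.card * l := by
      have : (1 : ℝ) * 1 ≤ (F.card : ℝ) * l := mul_le_mul he1 hl zero_le_one (by linarith)
      linarith [Real.log_two_lt_d9]
    have h3 := h1.trans (mul_le_mul_of_nonneg_left h2 hs.le)
    rw [← mul_assoc (S.card : ℝ)] at h3
    exact le_of_mul_le_mul_right h3 (by linarith)
  set w := Real.log ((L : ℝ) + 1) with hw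
  have hw0 : 0 ≤ w := Real.log_nonneg (by linarith [Nat.cast_nonneg (α := ℝ) L])
  have havg : (∑ g ∈ S, -Real.log (π (lab g))) / (S.card : ℝ) ≤
      (F.card : ℝ) * (8 + 4 * w * l / z) := by
    rw [div_le_iff₀ hs]
    refine (Finset.sum_le_sum hlab).trans ?_
    simp only [Finset.sum_add_distrib, ← Finset.mul_sum, Finset.sum_const, nsmul_eq_mul, ← hGdef]
    have h8 : Real.log 8 ≤ 3 := by
      rw [show (8 : ℝ) = 2 ^ 3 by norm_num, Real.log_pow]
      push_cast
      linarith [Real.log_two_lt_d9]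
    have h1 : Real.log 2 * G ≤ G := by
      have := mul_le_mul_of_nonneg_right (show Real.log 2 ≤ 1 by linarith [Real.log_two_lt_d9]) hG0
      linarith
    have hvw : (v : ℝ) * w ≤ (F.card : ℝ) * (4 * w * l / z) := by
      rw [mul_div_assoc', le_div_iff₀ hz0]
      calc (v : ℝ) * w * z = (v : ℝ) * z * w := by ring
        _ ≤ 4 * (F.card : ℝ) * l * w := mul_le_mul_of_nonneg_right hmany hw0
        _ = _ := by ring
    have h2 := mul_le_mul_of_nonneg_left hvw hs.le
    have h3 := mul_le_mul_of_nonneg_left h8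
      (mul_nonneg hs.le (show (0 : ℝ) ≤ F.card by linarith))
    linarith
  refine hflat.trans ?_
  rw [mul_assoc (Fintype.card (Equiv.Perm (Fin n)) : ℝ)]
  refine mul_le_mul_of_nonneg_left ?_ (Nat.cast_nonneg _)
  refine (mul_le_mul_of_nonneg_left (Real.exp_le_exp.2 havg) (by positivity)).trans (le_of_eq ?_)
  rw [Real.exp_nat_mul, ← mul_pow, hw, hL]
  congr 1
  rw [mul_right_comm, ← Real.exp_add]
  push_cast
  ring_nf

/-! ### Peeling -/

lemma restr_ext {F H : Finset (Sym2 (Fin n))} (W : Finset (Fin n)) (hW : vset F ⊆ W) :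
    ((restr F H W).card : ℝ) ≤
      ((restr F H (vset F)).card : ℝ) * (n : ℝ) ^ (W.card - (vset F).card) := by
  have h : (restr F H W).card ≤
      ((restr F H (vset F)) ×ˢ (Finset.univ : Finset (↥(W \ vset F) → Fin n))).card := by
    refine Finset.card_le_card_of_injOn (fun f => (fun a => f ⟨a.1, hW a.2⟩,
      fun a => f ⟨a.1, (Finset.mem_sdiff.1 a.2).1⟩)) ?_ ?_
    · intro f hf
      obtain ⟨g, hg, rfl⟩ := Finset.mem_image.1 hf
      exact Finset.mem_product.2 ⟨Finset.mem_image.2 ⟨g, hg, rfl⟩, Finset.mem_univ _⟩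
    · intro f _ f' _ hff
      simp only [Prod.mk.injEq] at hff
      funext a
      by_cases ha : (a : Fin n) ∈ vset F
      · exact congrFun hff.1 ⟨a.1, ha⟩
      · exact congrFun hff.2 ⟨a.1, Finset.mem_sdiff.2 ⟨a.2, ha⟩⟩
  rw [Finset.card_product, Finset.card_univ, Fintype.card_fun, Fintype.card_fin, Fintype.card_coe,
    Finset.card_sdiff_of_subset hW] at h
  exact_mod_cast h

/-- One vertex of small degree is placed in a common neighbourhood. -/
lemma restr_peel {F H : Finset (Sym2 (Fin n))} {q : ℝ} (hq : 0 < q) (hn : 2 ≤ n)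
    (hl : 1 ≤ -Real.log q) (hH : Sparse (Equiv.Perm (Fin n)) q H) (hloop : ∀ e ∈ H, ¬e.IsDiag)
    (hFl : ∀ e ∈ F, ¬e.IsDiag) {W : Finset (Fin n)} (hW : vset F ⊆ W) {w : Fin n} (hw : w ∈ W)
    (hd1 : 1 ≤ (F.filter fun e => w ∈ e).card)
    (hd : ((F.filter fun e => w ∈ e).card : ℝ) * -Real.log q ≤ Real.log (n : ℝ) / 2) :
    ((restr F H W).card : ℝ) ≤ ((restr (F.filter fun e => w ∉ e) H (W.erase w)).card : ℝ) *
      (9 * (n : ℝ) * q ^ (F.filter fun e => w ∈ e).card) := by
  set Fw := F.filter fun e => w ∈ e with hFw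
  set N := Finset.univ.filter fun u => s(w, u) ∈ F with hN
  have hNc : N.card = Fw.card := by
    refine Finset.card_bij (fun u _ => s(w, u)) ?_ ?_ ?_
    · intro u hu
      exact Finset.mem_filter.2 ⟨(Finset.mem_filter.1 hu).2, Sym2.mem_mk_left _ _⟩
    · intro a _ b _ hab
      exact Sym2.congr_right.1 hab
    · intro e he
      obtain ⟨heF, hwe⟩ := Finset.mem_filter.1 he
      exact ⟨Sym2.Mem.other hwe, Finset.mem_filter.2 ⟨Finset.mem_univ _,
        by rw [Sym2.other_spec hwe]; exact heF⟩, Sym2.other_spec hwe⟩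
  have hNW : ∀ u ∈ N, u ∈ W.erase w := fun u hu => by
    have hu' := (Finset.mem_filter.1 hu).2
    refine Finset.mem_erase.2 ⟨fun h => hFl _ hu' (Sym2.mk_isDiag_iff.2 h.symm), ?_⟩
    exact hW (mem_vset.2 ⟨_, hu', Sym2.mem_mk_right _ _⟩)
  let π : (↥W → Fin n) → ↥(W.erase w) → Fin n := fun f a => f ⟨a.1, Finset.mem_of_mem_erase a.2⟩
  rw [Finset.card_eq_sum_card_fiberwise (f := π) (t := restr (F.filter fun e => w ∉ e) H
    (W.erase w)) fun f hf => ?_, Nat.cast_sum]
  · rw [← nsmul_eq_mul]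
    refine Finset.sum_le_card_nsmul _ _ _ fun φ hφ => ?_
    obtain ⟨g₀, -, rfl⟩ := Finset.mem_image.1 hφ
    set A := N.image g₀ with hA
    have hAc : A.card = Fw.card := by rw [hA, Finset.card_image_of_injective _ g₀.injective, hNc]
    refine le_trans ?_ (hAc ▸ common_le hq hn hl hH hloop A (hAc ▸ hd))
    refine Nat.cast_le.2 (Finset.card_le_card_of_injOn (fun f => f ⟨w, hw⟩) ?_ ?_)
    · intro f hf
      obtain ⟨hfR, hfπ⟩ := Finset.mem_filter.1 hf
      obtain ⟨g, hg, rfl⟩ := Finset.mem_image.1 hfR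
      refine Finset.mem_filter.2 ⟨Finset.mem_univ _, fun a ha => ?_⟩
      obtain ⟨u, hu, rfl⟩ := Finset.mem_image.1 ha
      have hgu : g u = g₀ u := congrFun hfπ ⟨u, hNW u hu⟩
      rw [← hgu]
      refine (Finset.mem_filter.1 hg).2 (Finset.mem_smul_finset.2
        ⟨s(w, u), (Finset.mem_filter.1 hu).2, ?_⟩)
      rw [perm_sym2_smul, Sym2.map_mk]
    · intro f hf f' hf' hff
      funext a
      by_cases ha : (a : Fin n) = w
      · rw [show a = ⟨w, hw⟩ from Subtype.ext ha]
        exact hff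
      · exact congrFun ((Finset.mem_filter.1 hf).2.trans (Finset.mem_filter.1 hf').2.symm)
          ⟨a.1, Finset.mem_erase.2 ⟨ha, a.2⟩⟩
  · obtain ⟨g, hg, rfl⟩ := Finset.mem_image.1 hf
    exact Finset.mem_image.2 ⟨g, Finset.mem_filter.2 ⟨Finset.mem_univ _,
      (Finset.smul_finset_subset_smul_finset (Finset.filter_subset _ _)).trans
        (Finset.mem_filter.1 hg).2⟩, rfl⟩

/-- The loss in the dense regime. -/
noncomputable def loss (n m : ℕ) (q : ℝ) : ℝ :=
  Real.exp (26 + 4 * Real.log ((Nat.log 2 m : ℝ) + 2) * -Real.log q / Real.log (n : ℝ))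

/-- Placements of any edge set. -/
lemma restr_bound_dense {H : Finset (Sym2 (Fin n))} {q : ℝ} (hq : 0 < q) (hn : 2 ≤ n)
    (hl : 1 ≤ -Real.log q) (hH : Sparse (Equiv.Perm (Fin n)) q H) (hloop : ∀ e ∈ H, ¬e.IsDiag)
    (F : Finset (Sym2 (Fin n))) :
    ∀ W : Finset (Fin n), vset F ⊆ W →
      ((restr F H W).card : ℝ) ≤ (n : ℝ) ^ W.card * (loss n H.card q * q) ^ F.card := by
  induction F using Finset.strongInduction with
  | _ F ih =>
  intro W hW
  set c := loss n H.card q with hc
  have hc0 : 0 < c := Real.exp_pos _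
  rcases F.eq_empty_or_nonempty with rfl | hne
  · rw [Finset.card_empty, pow_zero, mul_one, ← Nat.cast_pow, Nat.cast_le]
    refine (Finset.card_le_univ _).trans (le_of_eq ?_)
    rw [Fintype.card_fun, Fintype.card_fin, Fintype.card_coe]
  rcases (restr F H W).eq_empty_or_nonempty with hR | hR
  · rw [hR, Finset.card_empty, Nat.cast_zero]; positivity
  have hFl : ∀ e ∈ F, ¬e.IsDiag := fun e he hd => by
    obtain ⟨f, hf⟩ := hR
    obtain ⟨g, hg, -⟩ := Finset.mem_image.1 hf
    refine hloop _ ((Finset.mem_filter.1 hg).2 (Finset.smul_mem_smul_finset he)) ?_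
    rw [perm_sym2_smul, Sym2.isDiag_map g.injective]
    exact hd
  have hn0 : (0 : ℝ) < (n : ℝ) := by exact_mod_cast (show 0 < n by omega)
  have hz0 : 0 < Real.log (n : ℝ) := Real.log_pos (by exact_mod_cast (show 1 < n by omega))
  by_cases hlow : ∃ w ∈ vset F,
      ((F.filter fun e => w ∈ e).card : ℝ) * -Real.log q ≤ Real.log (n : ℝ) / 2
  · obtain ⟨w, hwv, hwd⟩ := hlow
    obtain ⟨e₀, he₀, hwe₀⟩ := mem_vset.1 hwv
    have hd1 : 1 ≤ (F.filter fun e => w ∈ e).card :=
      Finset.card_pos.2 ⟨e₀, Finset.mem_filter.2 ⟨he₀, hwe₀⟩⟩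
    set d := (F.filter fun e => w ∈ e).card with hd
    set F' := F.filter fun e => w ∉ e with hF'
    have hsub : F' ⊂ F := Finset.filter_ssubset.2 ⟨e₀, he₀, by simpa using hwe₀⟩
    have hW' : vset F' ⊆ W.erase w := fun a ha => by
      obtain ⟨e, he, hae⟩ := mem_vset.1 ha
      obtain ⟨heF, hwe⟩ := Finset.mem_filter.1 he
      exact Finset.mem_erase.2 ⟨fun h => hwe (h ▸ hae), hW (mem_vset.2 ⟨e, heF, hae⟩)⟩
    have hsplit : F.card = d + F'.card :=
      (Finset.card_filter_add_card_filter_not (fun e => w ∈ e)).symm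
    have h9 : (9 : ℝ) * q ^ d ≤ (c * q) ^ d := by
      rw [mul_pow]
      refine mul_le_mul_of_nonneg_right ?_ (by positivity)
      refine le_trans ?_ (le_self_pow₀ ?_ (by omega))
      · have hl2 : 0 ≤ Real.log ((Nat.log 2 H.card : ℝ) + 2) :=
          Real.log_nonneg (by linarith [Nat.cast_nonneg (α := ℝ) (Nat.log 2 H.card)])
        refine le_trans ?_ (Real.add_one_le_exp _)
        have : 0 ≤ 4 * Real.log ((Nat.log 2 H.card : ℝ) + 2) * -Real.log q / Real.log (n : ℝ) := by
          positivity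
        linarith
      · refine Real.one_le_exp ?_
        have : 0 ≤ 4 * Real.log ((Nat.log 2 H.card : ℝ) + 2) * -Real.log q / Real.log (n : ℝ) := by
          have hl2 : 0 ≤ Real.log ((Nat.log 2 H.card : ℝ) + 2) :=
            Real.log_nonneg (by linarith [Nat.cast_nonneg (α := ℝ) (Nat.log 2 H.card)])
          positivity
        linarith
    have hWc : W.card = (W.erase w).card + 1 := (Finset.card_erase_add_one (hW hwv)).symm
    calc ((restr F H W).card : ℝ)
        ≤ ((restr F' H (W.erase w)).card : ℝ) * (9 * (n : ℝ) * q ^ d) :=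
          restr_peel hq hn hl hH hloop hFl hW (hW hwv) hd1 hwd
      _ ≤ (n : ℝ) ^ (W.erase w).card * (c * q) ^ F'.card * ((n : ℝ) * (c * q) ^ d) := by
          refine mul_le_mul (ih F' hsub _ hW') ?_ (by positivity) (by positivity)
          calc 9 * (n : ℝ) * q ^ d = (n : ℝ) * (9 * q ^ d) := by ring
            _ ≤ _ := mul_le_mul_of_nonneg_left h9 hn0.le
      _ = _ := by rw [hWc, hsplit, pow_succ, pow_add]; ring
  · push Not at hlow
    have hmany : ((vset F).card : ℝ) * Real.log (n : ℝ) ≤ 4 * (F.card : ℝ) * -Real.log q := by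
      have h1 : ∑ w ∈ vset F, Real.log (n : ℝ) / 2 ≤
          ∑ w ∈ vset F, ((F.filter fun e => w ∈ e).card : ℝ) * -Real.log q :=
        Finset.sum_le_sum fun w hw => (hlow w hw).le
      have h2 : ∑ w ∈ vset F, (F.filter fun e => w ∈ e).card ≤ 2 * F.card := by
        simp only [Finset.card_filter]
        rw [Finset.sum_comm, mul_comm, ← smul_eq_mul]
        refine Finset.sum_le_card_nsmul _ _ _ fun e _ => ?_
        rw [← Finset.card_filter]
        refine (Finset.card_le_card (t := e.toFinset) fun x hx =>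
          Sym2.mem_toFinset.2 (Finset.mem_filter.1 hx).2).trans ?_
        induction e using Sym2.ind with
        | _ a b => rw [Sym2.toFinset_mk_eq]; exact Finset.card_le_two
      rw [Finset.sum_const, nsmul_eq_mul, ← Finset.sum_mul, ← Nat.cast_sum] at h1
      have h3 : ((∑ w ∈ vset F, (F.filter fun e => w ∈ e).card : ℕ) : ℝ) ≤
          2 * (F.card : ℝ) := by exact_mod_cast h2
      have h4 := mul_le_mul_of_nonneg_right h3 (show (0 : ℝ) ≤ -Real.log q by linarith)
      linarith
    set v := (vset F).card with hv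
    have hcore : ((restr F H (vset F)).card : ℝ) ≤ (n : ℝ) ^ v * (c * q) ^ F.card := by
      have h := core_bound hq hn hl hH hne hmany
      rw [cnt_eq_restr (Finset.Subset.refl (vset F)), card_perm_cast] at h
      push_cast at h
      refine le_of_mul_le_mul_right ?_
        (show (0 : ℝ) < ((n - v).factorial : ℝ) by positivity)
      refine h.trans ((mul_le_mul_of_nonneg_right (factorial_le n v (card_le_n _))
        (by positivity)).trans (le_of_eq ?_))
      rw [hc, loss]
      ring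
    calc ((restr F H W).card : ℝ)
        ≤ ((restr F H (vset F)).card : ℝ) * (n : ℝ) ^ (W.card - v) := restr_ext W hW
      _ ≤ (n : ℝ) ^ v * (c * q) ^ F.card * (n : ℝ) ^ (W.card - v) :=
          mul_le_mul_of_nonneg_right hcore (by positivity)
      _ = _ := by
          rw [mul_right_comm, ← pow_add, Nat.add_sub_cancel' (Finset.card_le_card hW)]

/-- Translates inside a sparse loop-free set: the loss in the dense regime. -/
theorem cnt_le_dense {H : Finset (Sym2 (Fin n))} {q : ℝ} (hq : 0 < q) (hn : 2 ≤ n)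
    (hH : Sparse (Equiv.Perm (Fin n)) q H) (hloop : ∀ e ∈ H, ¬e.IsDiag)
    (F : Finset (Sym2 (Fin n))) :
    (cnt (Equiv.Perm (Fin n)) F H : ℝ) ≤ (Fintype.card (Equiv.Perm (Fin n)) : ℝ) *
      (Real.exp (30 + 4 * Real.log ((Nat.log 2 H.card : ℝ) + 2) * max 0 (-Real.log q) /
        Real.log (n : ℝ)) * q) ^ F.card := by
  have hz0 : 0 < Real.log (n : ℝ) := Real.log_pos (by exact_mod_cast (show 1 < n by omega))
  have hl2 : 0 ≤ Real.log ((Nat.log 2 H.card : ℝ) + 2) :=
    Real.log_nonneg (by linarith [Nat.cast_nonneg (α := ℝ) (Nat.log 2 H.card)])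
  rcases lt_or_ge (-Real.log q) 1 with hsmall | hl
  · refine (Nat.cast_le.2 (cnt_le_card F H)).trans
      (le_mul_of_one_le_right (Nat.cast_nonneg _) (one_le_pow₀ ?_))
    rw [← Real.exp_log hq, Real.exp_log hq]
    have : Real.exp 1 * q ≥ 1 := by
      rw [ge_iff_le, ← Real.exp_log hq, ← Real.exp_add]
      exact Real.one_le_exp (by linarith)
    refine le_trans this (mul_le_mul_of_nonneg_right (Real.exp_le_exp.2 ?_) hq.le)
    have : 0 ≤ 4 * Real.log ((Nat.log 2 H.card : ℝ) + 2) * max 0 (-Real.log q) /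
        Real.log (n : ℝ) := by positivity
    linarith
  rw [max_eq_right (by linarith)]
  set v := (vset F).card with hv
  have hb := restr_bound_dense hq hn hl hH hloop F (vset F) (Finset.Subset.refl _)
  rw [cnt_eq_restr (Finset.Subset.refl (vset F)), card_perm_cast]
  push_cast
  calc ((restr F H (vset F)).card : ℝ) * ((n - v).factorial : ℝ)
      ≤ (n : ℝ) ^ v * (loss n H.card q * q) ^ F.card * ((n - v).factorial : ℝ) :=
        mul_le_mul_of_nonneg_right hb (Nat.cast_nonneg _)
    _ = (n : ℝ) ^ v * ((n - v).factorial : ℝ) * (loss n H.card q * q) ^ F.card := by ring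
    _ ≤ 3 ^ v * (n.factorial : ℝ) * (loss n H.card q * q) ^ F.card :=
        mul_le_mul_of_nonneg_right (pow_le_desc (card_le_n _))
          (pow_nonneg (mul_nonneg (Real.exp_pos _).le hq.le) _)
    _ ≤ (Real.exp 4) ^ F.card * (n.factorial : ℝ) * (loss n H.card q * q) ^ F.card := by
        refine mul_le_mul_of_nonneg_right (mul_le_mul_of_nonneg_right ?_ (Nat.cast_nonneg _))
          (pow_nonneg (mul_nonneg (Real.exp_pos _).le hq.le) _)
        refine (pow_le_pow_right₀ (by norm_num) (vset_card_le F)).trans ?_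
        rw [pow_mul, show Real.exp 4 = Real.exp 2 * Real.exp 2 by rw [← Real.exp_add]; norm_num, sq]
        exact pow_le_pow_left₀ (by norm_num)
          (mul_le_mul (by linarith [Real.add_one_le_exp (2 : ℝ)])
            (by linarith [Real.add_one_le_exp (2 : ℝ)]) (by norm_num) (Real.exp_pos _).le) _
    _ = _ := by
        rw [loss, mul_comm _ (n.factorial : ℝ), mul_assoc, ← mul_pow, ← mul_assoc,
          ← Real.exp_add]
        congr 3
        ring_nf

end Vale.Agent.P064.Dense
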