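import Mathlib
import Vale.Agent.P064.Bernoulli

/-! The spread lemma, by the minimum-fragment argument of Park and Pham. -/

namespace Vale.Agent.P064

open Finset

variable {X ι : Type*} [DecidableEq X]

open scoped Classical in
/-- Indicator that no member of the family lies inside `W`. -/
noncomputable def failInd (I : Finset ι) (R : ι → Finset X) (W : Finset X) : ℝ :=
  if ∃ i ∈ I, R i ⊆ W then 0 else 1

lemma failInd_nonneg (I : Finset ι) (R : ι → Finset X) (W : Finset X) : 0 ≤ failInd I R W := by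
  unfold failInd; split <;> norm_num

lemma failInd_antitone (I : Finset ι) (R : ι → Finset X) {A B : Finset X} (h : A ⊆ B) :
    failInd I R B ≤ failInd I R A := by
  classical
  unfold failInd
  by_cases hA : ∃ i ∈ I, R i ⊆ A
  · obtain ⟨i, hi, hiA⟩ := hA
    have hB : ∃ i ∈ I, R i ⊆ B := ⟨i, hi, hiA.trans h⟩
    rw [if_pos hB, if_pos ⟨i, hi, hiA⟩]
  · rw [if_neg hA]
    split <;> norm_num

/-- All subfamilies with small members succeed at density `P`, with error `c`. -/
def StageOK (E : Finset X) (N x : ℝ) (w : ℕ) (P c : ℝ) (ι : Type*) : Prop :=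
  ∀ (I : Finset ι) (R : ι → Finset X),
    (∀ i ∈ I, R i ⊆ E) → (∀ i ∈ I, (R i).card ≤ w) →
    (∀ T : Finset X, T.Nonempty →
      ((I.filter fun i => T ⊆ R i).card : ℝ) ≤ N * x ^ T.card) →
    (I.card : ℝ) * ex E P (failInd I R) ≤ N * c

lemma stage_zero (E : Finset X) {N x : ℝ} (hN : 0 ≤ N) : StageOK E N x 0 0 0 ι := by
  classical
  intro I R hRE hRw _
  rcases I.eq_empty_or_nonempty with rfl | ⟨i, hi⟩
  · simp
  · have : ∀ W : Finset X, failInd I R W = 0 := fun W => by
      have hR : R i = ∅ := Finset.card_eq_zero.1 (Nat.le_zero.1 (hRw i hi))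
      have hex : ∃ i ∈ I, R i ⊆ W := ⟨i, hi, by simp [hR]⟩
      simp only [failInd, if_pos hex]
    simp [ex, this]

lemma stage_step (E : Finset X) {N x : ℝ} (hN : 0 ≤ N) (hx : 0 ≤ x) {w w' : ℕ}
    (hw : w ≤ 2 * (w' + 1)) {p P c : ℝ} (hp0 : 0 < p) (hp1 : p ≤ 1) (hP0 : 0 ≤ P) (hP1 : P ≤ 1)
    (hc : 0 ≤ c) (h : StageOK E N x w' P c ι) :
    StageOK E N x w (p + P - p * P) (c + ∑ j ∈ Finset.Ioc w' w, (4 * x / p) ^ j) ι := by
  classical
  intro I R hRE hRw hspread
  have hchoice : ∀ (W : Finset X) (i : ι), ∃ i' : ι, i ∈ I →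
      (i' ∈ I ∧ R i' ⊆ W ∪ R i ∧
        ∀ l ∈ I, R l ⊆ W ∪ R i → (R i' \ W).card ≤ (R l \ W).card) := by
    intro W i
    by_cases hi : i ∈ I
    · have hne : (I.filter fun l => R l ⊆ W ∪ R i).Nonempty :=
        ⟨i, by simp [hi, Finset.subset_union_right]⟩
      obtain ⟨i', hi', hmin⟩ := Finset.exists_min_image _ (fun l => (R l \ W).card) hne
      rw [Finset.mem_filter] at hi'
      exact ⟨i', fun _ => ⟨hi'.1, hi'.2, fun l hl hl' =>
        hmin l (Finset.mem_filter.2 ⟨hl, hl'⟩)⟩⟩
    · exact ⟨i, fun h => absurd h hi⟩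
  choose sel hsel using hchoice
  let R' : Finset X → ι → Finset X := fun W i => R (sel W i) \ W
  let I' : Finset X → Finset ι := fun W => I.filter fun i => (R' W i).card ≤ w'
  have hR'sub : ∀ W, ∀ i ∈ I, R' W i ⊆ R i := by
    intro W i hi y hy
    rw [Finset.mem_sdiff] at hy
    rcases Finset.mem_union.1 ((hsel W i hi).2.1 hy.1) with h | h
    · exact absurd h hy.2
    · exact h
  let G : Finset X → ℕ → Finset (Finset X) := fun W j =>
    (I.image (R' W)).filter fun T => T.card = j
  have hcover : ∀ W, (I.card : ℝ) ≤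
      (I' W).card + N * ∑ j ∈ Finset.Ioc w' w, x ^ j * ((G W j).card : ℝ) := by
    intro W
    have hsub : I \ I' W ⊆ ((Finset.Ioc w' w).biUnion fun j =>
        (G W j).biUnion fun T => I.filter fun i => T ⊆ R i) := by
      intro i hi
      obtain ⟨hiI, hnot⟩ := Finset.mem_sdiff.1 hi
      have hlt : w' < (R' W i).card := by
        by_contra hcon
        exact hnot (Finset.mem_filter.2 ⟨hiI, not_lt.1 hcon⟩)
      simp only [Finset.mem_biUnion, Finset.mem_Ioc, Finset.mem_filter, G, Finset.mem_image]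
      exact ⟨(R' W i).card,
        ⟨hlt, (Finset.card_le_card (hR'sub W i hiI)).trans (hRw i hiI)⟩,
        R' W i, ⟨⟨i, hiI, rfl⟩, rfl⟩, hiI, hR'sub W i hiI⟩
    have h1 : (I.card : ℝ) = (I' W).card + (I \ I' W).card := by
      have hsubI : I' W ⊆ I := Finset.filter_subset _ _
      rw [← Nat.cast_add, ← Finset.card_sdiff_add_card_eq_card hsubI, add_comm]
    have h2 : ((I \ I' W).card : ℝ) ≤ ∑ j ∈ Finset.Ioc w' w, ∑ T ∈ G W j,
        ((I.filter fun i => T ⊆ R i).card : ℝ) := by
      have h2a := Finset.card_le_card hsub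
      have h2b := h2a.trans Finset.card_biUnion_le
      have h2c : ((I \ I' W).card : ℝ) ≤ ∑ j ∈ Finset.Ioc w' w,
          (((G W j).biUnion fun T => I.filter fun i => T ⊆ R i).card : ℝ) := by
        exact_mod_cast h2b
      refine h2c.trans (Finset.sum_le_sum fun j _ => ?_)
      exact_mod_cast Finset.card_biUnion_le
    have h3 : ∀ j ∈ Finset.Ioc w' w, ∀ T ∈ G W j,
        ((I.filter fun i => T ⊆ R i).card : ℝ) ≤ N * x ^ j := by
      intro j hj T hT
      have hTj : T.card = j := (Finset.mem_filter.1 hT).2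
      have hTne : T.Nonempty := Finset.card_pos.1 (by
        have := (Finset.mem_Ioc.1 hj).1; omega)
      exact hTj ▸ hspread T hTne
    rw [h1]
    refine add_le_add le_rfl (h2.trans ?_)
    rw [Finset.mul_sum]
    refine Finset.sum_le_sum fun j hj => (Finset.sum_le_sum (h3 j hj)).trans (le_of_eq ?_)
    simp only [Finset.sum_const, nsmul_eq_mul]
    ring
  have hfail : ∀ W V, failInd I R (W ∪ V) ≤ failInd (I' W) (R' W) V := by
    intro W V
    by_cases hex : ∃ i ∈ I' W, R' W i ⊆ V
    · obtain ⟨i, hi, hiV⟩ := hex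
      have hiI := (Finset.mem_filter.1 hi).1
      have hex' : ∃ l ∈ I, R l ⊆ W ∪ V := by
        refine ⟨sel W i, (hsel W i hiI).1, fun y hy => ?_⟩
        by_cases hyW : y ∈ W
        · exact Finset.mem_union_left _ hyW
        · exact Finset.mem_union_right _ (hiV (Finset.mem_sdiff.2 ⟨hy, hyW⟩))
      simp only [failInd, if_pos hex']
      split <;> norm_num
    · simp only [failInd, if_neg hex]
      split <;> norm_num
  have hinner : ∀ W, (I.card : ℝ) * ex E P (fun V => failInd I R (W ∪ V)) ≤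
      N * c + N * ∑ j ∈ Finset.Ioc w' w, x ^ j * ((G W j).card : ℝ) := by
    intro W
    have hA : ex E P (fun V => failInd I R (W ∪ V)) ≤ ex E P (failInd (I' W) (R' W)) :=
      ex_mono hP0 hP1 fun V _ => hfail W V
    have hA0 : 0 ≤ ex E P (failInd (I' W) (R' W)) :=
      Finset.sum_nonneg fun V _ => mul_nonneg (wt_nonneg hP0 hP1 V) (failInd_nonneg _ _ V)
    have hA1 : ex E P (failInd (I' W) (R' W)) ≤ 1 := by
      refine (ex_mono hP0 hP1 (g := fun _ => 1) fun V _ => ?_).trans (le_of_eq (ex_const _ _ _))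
      unfold failInd; split <;> norm_num
    have hB := h (I' W) (R' W)
      (fun i hi => (hR'sub W i (Finset.mem_filter.1 hi).1).trans
        (hRE i (Finset.mem_filter.1 hi).1))
      (fun i hi => (Finset.mem_filter.1 hi).2)
      (fun T hT => by
        refine le_trans ?_ (hspread T hT)
        refine Nat.cast_le.2 (Finset.card_le_card fun i hi => ?_)
        obtain ⟨hi1, hi2⟩ := Finset.mem_filter.1 hi
        have hiI := (Finset.mem_filter.1 hi1).1
        exact Finset.mem_filter.2 ⟨hiI, hi2.trans (hR'sub W i hiI)⟩)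
    have hS : 0 ≤ N * ∑ j ∈ Finset.Ioc w' w, x ^ j * ((G W j).card : ℝ) :=
      mul_nonneg hN (Finset.sum_nonneg fun j _ => mul_nonneg (pow_nonneg hx _) (Nat.cast_nonneg _))
    calc (I.card : ℝ) * ex E P (fun V => failInd I R (W ∪ V))
        ≤ (I.card : ℝ) * ex E P (failInd (I' W) (R' W)) :=
          mul_le_mul_of_nonneg_left hA (Nat.cast_nonneg _)
      _ ≤ ((I' W).card + N * ∑ j ∈ Finset.Ioc w' w, x ^ j * ((G W j).card : ℝ)) *
          ex E P (failInd (I' W) (R' W)) := mul_le_mul_of_nonneg_right (hcover W) hA0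
      _ ≤ _ := by
          rw [add_mul]
          exact add_le_add hB (mul_le_of_le_one_right hS hA1)
  have hfrag : ∀ j, ex E p (fun W => ((G W j).card : ℝ)) * p ^ j ≤ (w.choose j : ℝ) := by
    intro j
    let Pairs : Finset (Finset X × Finset X) :=
      E.powerset.biUnion fun W => (G W j).image fun T => (W, T)
    have hmem : ∀ W T, (W, T) ∈ Pairs → W ⊆ E ∧ T ⊆ E ∧ Disjoint W T ∧ T.card = j ∧
        ∀ l ∈ I, R l ⊆ W ∪ T → T ⊆ R l := by
      intro W T hWT
      simp only [Pairs, Finset.mem_biUnion, Finset.mem_image, Finset.mem_powerset,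
        Prod.mk.injEq] at hWT
      obtain ⟨W₁, hW₁, T₁, hT₁, rfl, rfl⟩ := hWT
      obtain ⟨hTim, hTj⟩ := Finset.mem_filter.1 hT₁
      obtain ⟨i, hi, rfl⟩ := Finset.mem_image.1 hTim
      refine ⟨hW₁, (hR'sub _ i hi).trans (hRE i hi), Finset.disjoint_sdiff, hTj, ?_⟩
      intro l hl hlsub
      have hsub : R l \ W₁ ⊆ R' W₁ i := by
        intro y hy
        obtain ⟨hy1, hy2⟩ := Finset.mem_sdiff.1 hy
        rcases Finset.mem_union.1 (hlsub hy1) with h | h
        · exact absurd h hy2
        · exact h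
      have hl' : R l ⊆ W₁ ∪ R i :=
        hlsub.trans (Finset.union_subset_union le_rfl (hR'sub _ i hi))
      rw [← Finset.eq_of_subset_of_card_le hsub ((hsel W₁ i hi).2.2 l hl hl')]
      exact Finset.sdiff_subset
    have heq : ex E p (fun W => ((G W j).card : ℝ)) * p ^ j =
        ∑ z ∈ Pairs, wt E p z.1 * p ^ j := by
      rw [Finset.sum_biUnion]
      · simp only [ex, Finset.sum_mul]
        refine Finset.sum_congr rfl fun W _ => ?_
        rw [Finset.sum_image (fun a _ b _ h => (Prod.mk.inj h).2)]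
        simp only [Finset.sum_const, nsmul_eq_mul]
        ring
      · intro a _ b _ hab
        simp only [Function.onFun, Finset.disjoint_left, Finset.mem_image]
        rintro z ⟨T, _, rfl⟩ ⟨T', _, h'⟩
        exact hab (Prod.mk.inj h').1.symm
    have hle : ∀ z ∈ Pairs, wt E p z.1 * p ^ j ≤ wt E p (z.1 ∪ z.2) := by
      rintro ⟨W, T⟩ hz
      obtain ⟨hW, hT, hd, hTj, -⟩ := hmem W T hz
      have hcu : (W ∪ T).card = W.card + j := by rw [Finset.card_union_of_disjoint hd, hTj]
      have hle' : (W ∪ T).card ≤ E.card := Finset.card_le_card (Finset.union_subset hW hT)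
      simp only [wt, hcu, pow_add]
      rw [mul_right_comm]
      refine mul_le_mul_of_nonneg_left ?_ (by positivity)
      exact pow_le_pow_of_le_one (by linarith) (by linarith) (by omega)
    calc ex E p (fun W => ((G W j).card : ℝ)) * p ^ j
        = ∑ z ∈ Pairs, wt E p z.1 * p ^ j := heq
      _ ≤ ∑ z ∈ Pairs, wt E p (z.1 ∪ z.2) := Finset.sum_le_sum hle
      _ = ∑ Z ∈ E.powerset, ∑ z ∈ Pairs.filter (fun z => z.1 ∪ z.2 = Z), wt E p (z.1 ∪ z.2) :=
          (Finset.sum_fiberwise_of_maps_to (fun z hz => Finset.mem_powerset.2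
            (Finset.union_subset (hmem z.1 z.2 hz).1 (hmem z.1 z.2 hz).2.1)) _).symm
      _ ≤ ∑ Z ∈ E.powerset, wt E p Z * (w.choose j : ℝ) := by
          refine Finset.sum_le_sum fun Z _ => ?_
          rw [Finset.sum_congr rfl (fun z hz => by rw [(Finset.mem_filter.1 hz).2]),
            Finset.sum_const, nsmul_eq_mul, mul_comm]
          refine mul_le_mul_of_nonneg_left ?_ (wt_nonneg hp0.le hp1 Z)
          refine Nat.cast_le.2 ?_
          by_cases hZ : ∃ l ∈ I, R l ⊆ Z
          · obtain ⟨l, hl, hlZ⟩ := hZ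
            refine le_trans (Finset.card_le_card_of_injOn (t := (R l).powersetCard j)
              (fun z => z.2) ?_ ?_) ?_
            · intro z hz
              obtain ⟨hz1, hz2⟩ := Finset.mem_filter.1 hz
              obtain ⟨-, -, -, hTj, hall⟩ := hmem z.1 z.2 hz1
              exact Finset.mem_powersetCard.2 ⟨hall l hl (hz2 ▸ hlZ), hTj⟩
            · intro a ha b hb hab
              obtain ⟨ha1, ha2⟩ := Finset.mem_filter.1 ha
              obtain ⟨hb1, hb2⟩ := Finset.mem_filter.1 hb
              have hda := (hmem a.1 a.2 ha1).2.2.1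
              have hdb := (hmem b.1 b.2 hb1).2.2.1
              refine Prod.ext ?_ hab
              have : ∀ (A B : Finset X), Disjoint A B → (A ∪ B) \ B = A := fun A B hAB => by
                rw [Finset.union_sdiff_right, Finset.sdiff_eq_self_of_disjoint hAB]
              rw [← this _ _ hda, ← this _ _ hdb, ha2, hb2, show a.2 = b.2 from hab]
            · rw [Finset.card_powersetCard]
              exact Nat.choose_le_choose j (hRw l hl)
          · rw [Finset.card_eq_zero.2]
            · exact Nat.zero_le _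
            · refine Finset.filter_eq_empty_iff.2 fun z hz hzZ => hZ ?_
              simp only [Pairs, Finset.mem_biUnion, Finset.mem_image] at hz
              obtain ⟨W, -, T, hT, rfl⟩ := hz
              obtain ⟨i, hi, rfl⟩ := Finset.mem_image.1 (Finset.mem_filter.1 hT).1
              refine ⟨sel W i, (hsel W i hi).1, fun y hy => hzZ ▸ ?_⟩
              by_cases hyW : y ∈ W
              · exact Finset.mem_union_left _ hyW
              · exact Finset.mem_union_right _ (Finset.mem_sdiff.2 ⟨hy, hyW⟩)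
      _ = (w.choose j : ℝ) * ex E p (fun _ => 1) := by
          simp only [ex, Finset.mul_sum]
          exact Finset.sum_congr rfl fun Z _ => by ring
      _ = _ := by rw [ex_const, mul_one]
  calc (I.card : ℝ) * ex E (p + P - p * P) (failInd I R)
      = ex E p (fun W => (I.card : ℝ) * ex E P (fun V => failInd I R (W ∪ V))) := by
        rw [ex_mul_left, ex_union]
    _ ≤ ex E p (fun W => N * c + N * ∑ j ∈ Finset.Ioc w' w, x ^ j * ((G W j).card : ℝ)) :=
        ex_mono hp0.le hp1 fun W _ => hinner W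
    _ = N * c + N * ∑ j ∈ Finset.Ioc w' w, x ^ j * ex E p (fun W => ((G W j).card : ℝ)) := by
        rw [ex_add, ex_const, ex_mul_left, ex_sum]
        simp only [ex_mul_left]
    _ ≤ _ := by
        rw [mul_add]
        refine add_le_add le_rfl (mul_le_mul_of_nonneg_left ?_ hN)
        refine Finset.sum_le_sum fun j hj => ?_
        have hj' := (Finset.mem_Ioc.1 hj).1
        have hch : (w.choose j : ℝ) ≤ 4 ^ j := by
          calc (w.choose j : ℝ) ≤ (2 : ℝ) ^ w := by exact_mod_cast Nat.choose_le_two_pow w j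
            _ ≤ (2 : ℝ) ^ (2 * j) := pow_le_pow_right₀ (by norm_num) (by omega)
            _ = 4 ^ j := by rw [pow_mul]; norm_num
        have hb := (hfrag j).trans hch
        have hg : ex E p (fun W => ((G W j).card : ℝ)) ≤ (4 / p) ^ j := by
          rw [div_pow, le_div_iff₀ (pow_pos hp0 j)]; exact hb
        calc x ^ j * ex E p (fun W => ((G W j).card : ℝ)) ≤ x ^ j * (4 / p) ^ j :=
              mul_le_mul_of_nonneg_left hg (pow_nonneg hx j)
          _ = _ := by rw [← mul_pow]; ring

/-- Geometric tail used to add up the stages. -/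
lemma geom_Ioc_sum (y : ℝ) (a : ℕ) :
    (1 - y) * ∑ j ∈ Finset.Ioc 0 a, y ^ j = y - y ^ (a + 1) := by
  induction a with
  | zero => simp
  | succ a ih =>
    rw [Finset.sum_Ioc_succ_top (Nat.zero_le a), mul_add, ih]
    ring

lemma stage_all (E : Finset X) {N x : ℝ} (hN : 0 ≤ N) (hx : 0 ≤ x) {p : ℝ} (hp0 : 0 < p)
    (hp1 : p ≤ 1) : ∀ k : ℕ, StageOK E N x (2 ^ k) (1 - (1 - p) ^ (k + 1))
      (∑ j ∈ Finset.Ioc 0 (2 ^ k), (4 * x / p) ^ j) ι := by
  intro k
  induction k with
  | zero =>
    have := stage_step (ι := ι) E hN hx (w := 1) (w' := 0) (by norm_num) hp0 hp1 le_rfl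
      zero_le_one le_rfl (stage_zero E hN)
    have h01 : Finset.Ioc 0 1 = ({1} : Finset ℕ) := by decide
    simp only [pow_zero, h01, Finset.sum_singleton] at this ⊢
    simpa using this
  | succ k ih =>
    have h0 : 0 ≤ 1 - (1 - p) ^ (k + 1) :=
      sub_nonneg.2 (pow_le_one₀ (by linarith) (by linarith))
    have h1 : 1 - (1 - p) ^ (k + 1) ≤ 1 := sub_le_self _ (pow_nonneg (by linarith) _)
    have hc : 0 ≤ ∑ j ∈ Finset.Ioc 0 (2 ^ k), (4 * x / p) ^ j :=
      Finset.sum_nonneg fun j _ => pow_nonneg (by positivity) _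
    have := stage_step (ι := ι) E hN hx (w := 2 ^ (k + 1)) (w' := 2 ^ k)
      (by rw [pow_succ]; omega) hp0 hp1 h0 h1 hc ih
    have hP : p + (1 - (1 - p) ^ (k + 1)) - p * (1 - (1 - p) ^ (k + 1)) =
        1 - (1 - p) ^ (k + 1 + 1) := by ring
    rw [hP, Finset.sum_Ioc_consecutive _ (Nat.zero_le _)
      (Nat.pow_le_pow_right (by norm_num) (Nat.le_succ k))] at this
    exact this

/-- The spread lemma: an `x`-spread family with members of size at most `2^k` has a member inside
the random set of density `16 (k+1) x` with probability at least one half. -/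
theorem spread_lemma (E : Finset X) [Fintype ι] [Nonempty ι] (S : ι → Finset X)
    (hSE : ∀ i, S i ⊆ E) {x : ℝ} (hx : 0 ≤ x) {k : ℕ} (hk : ∀ i, (S i).card ≤ 2 ^ k)
    (hspread : ∀ T : Finset X, T.Nonempty →
      ((Finset.univ.filter fun i => T ⊆ S i).card : ℝ) ≤ (Fintype.card ι : ℝ) * x ^ T.card)
    {P : ℝ} (hP0 : 0 < P) (hP1 : P ≤ 1) (hP : 16 * ((k : ℝ) + 1) * x ≤ P) :
    ex E P (failInd Finset.univ S) ≤ 1 / 2 := by
  set p := P / ((k : ℝ) + 1) with hp
  have hk1 : (1 : ℝ) ≤ (k : ℝ) + 1 := by linarith [Nat.cast_nonneg (α := ℝ) k]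
  have hp0 : 0 < p := div_pos hP0 (by linarith)
  have hp1 : p ≤ 1 := (div_le_one (by linarith)).2 (by linarith)
  have hN : (0 : ℝ) < (Fintype.card ι : ℝ) := by exact_mod_cast Fintype.card_pos
  have hmain := stage_all (ι := ι) E hN.le hx hp0 hp1 k Finset.univ S (fun i _ => hSE i)
    (fun i _ => hk i) hspread
  rw [Finset.card_univ] at hmain
  have hmain' := le_of_mul_le_mul_left hmain hN
  have hy : 4 * x / p ≤ 1 / 4 := by
    rw [div_le_iff₀ hp0, hp]
    field_simp
    nlinarith
  have hsum : ∑ j ∈ Finset.Ioc 0 (2 ^ k), (4 * x / p) ^ j ≤ 1 / 2 := by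
    have hg := geom_Ioc_sum (4 * x / p) (2 ^ k)
    have hy0 : 0 ≤ 4 * x / p := by positivity
    have hs0 : 0 ≤ ∑ j ∈ Finset.Ioc 0 (2 ^ k), (4 * x / p) ^ j :=
      Finset.sum_nonneg fun j _ => pow_nonneg hy0 _
    nlinarith [pow_nonneg hy0 (2 ^ k + 1)]
  have hle : 1 - (1 - p) ^ (k + 1) ≤ P := by
    have hb := one_add_mul_le_pow (by linarith : (-2 : ℝ) ≤ -p) (k + 1)
    have : ((k + 1 : ℕ) : ℝ) * p = P := by
      push_cast; rw [hp]; field_simp
    have h' : (1 + -p) ^ (k + 1) = (1 - p) ^ (k + 1) := by ring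
    rw [h'] at hb
    linarith
  calc ex E P (failInd Finset.univ S)
      ≤ ex E (1 - (1 - p) ^ (k + 1)) (failInd Finset.univ S) :=
        ex_antitone (sub_nonneg.2 (pow_le_one₀ (by linarith) (by linarith))) hle hP1
          fun A B hAB _ => failInd_antitone _ _ hAB
    _ ≤ 1 / 2 := hmain'.trans hsum

end Vale.Agent.P064
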