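import Mathlib
import Vale.Agent.P064.Keys
import Vale.Agent.P064.Spread

/-! From sparsity to the thresholds of a graph. -/

namespace Vale.Agent.P064

open Finset SimpleGraph

open scoped Pointwise

open scoped Classical

variable {V W : Type} [Fintype V] [Fintype W] {n : ℕ}

lemma exists_perm_trans (f g : W ↪ Fin n) : ∃ σ : Equiv.Perm (Fin n), ∀ x, σ (f x) = g x := by
  let e : {a // a ∈ Set.range f} ≃ {a // a ∈ Set.range g} :=
    (Equiv.ofInjective f f.injective).symm.trans (Equiv.ofInjective g g.injective)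
  refine ⟨Equiv.extendSubtype e, fun x => ?_⟩
  rw [Equiv.extendSubtype_apply_of_mem e (f x) ⟨x, rfl⟩]
  show ((Equiv.ofInjective g g.injective)
    ((Equiv.ofInjective f f.injective).symm ⟨f x, ⟨x, rfl⟩⟩) : Fin n) = g x
  rw [Equiv.ofInjective_symm_apply]
  rfl

lemma smul_key (F : SimpleGraph W) (f : W ↪ Fin n) (g : Equiv.Perm (Fin n)) :
    g • (key F f).2 = (key F (f.trans g.toEmbedding)).2 := by
  simp only [key, Finset.smul_finset_def, Finset.image_image]
  refine Finset.image_congr fun e _ => ?_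
  simp only [Function.comp, perm_sym2_smul, Sym2.map_map]
  rfl

lemma key_fst_of_no_isolated (F : SimpleGraph W) (hF : ∀ v, ∃ w, F.Adj v w) (f : W ↪ Fin n) :
    (key F f).1 = Finset.univ.filter (fun a => ∃ e ∈ (key F f).2, a ∈ e) := by
  ext a
  simp only [key, Finset.mem_image, Finset.mem_univ, true_and, Finset.mem_filter,
    SimpleGraph.mem_edgeFinset]
  constructor
  · rintro ⟨v, rfl⟩
    obtain ⟨w, hw⟩ := hF v
    exact ⟨_, ⟨s(v, w), hw, rfl⟩, by simp⟩
  · rintro ⟨e, ⟨e', -, rfl⟩, ha⟩
    obtain ⟨b, -, hb⟩ := Sym2.mem_map.1 ha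
    exact ⟨b, hb⟩

/-- Orbit counting: keys of a graph without isolated vertices against the stabiliser. -/
lemma keys_mul_stab_le (F : SimpleGraph W) (hF : ∀ v, ∃ w, F.Adj v w) (f : W ↪ Fin n) :
    (keys (Fin n) F).card * stab (Equiv.Perm (Fin n)) (key F f).2 ≤
      Fintype.card (Equiv.Perm (Fin n)) := by
  set U := (key F f).2 with hU
  set O := (Finset.univ : Finset (Equiv.Perm (Fin n))).image fun g => g • U with hO
  have h1 : (keys (Fin n) F).card ≤ O.card := by
    refine Finset.card_le_card_of_injOn (fun κ => κ.2) ?_ ?_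
    · intro κ hκ
      obtain ⟨f', -, rfl⟩ := Finset.mem_image.1 hκ
      obtain ⟨σ, hσ⟩ := exists_perm_trans f f'
      refine Finset.mem_image.2 ⟨σ, Finset.mem_univ _, ?_⟩
      rw [hU, smul_key]
      exact congrArg (fun h => (key F h).2) (DFunLike.ext (f.trans σ.toEmbedding) f' hσ)
    · intro a ha b hb hab
      obtain ⟨fa, -, rfl⟩ := Finset.mem_image.1 ha
      obtain ⟨fb, -, rfl⟩ := Finset.mem_image.1 hb
      refine Prod.ext ?_ hab
      rw [key_fst_of_no_isolated F hF fa, key_fst_of_no_isolated F hF fb]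
      have hab' : (key F fa).2 = (key F fb).2 := hab
      rw [hab']
  have h2 : ∀ Y ∈ O, stab (Equiv.Perm (Fin n)) U ≤
      ((Finset.univ : Finset (Equiv.Perm (Fin n))).filter fun g => g • U = Y).card := by
    intro Y hY
    obtain ⟨g₀, -, rfl⟩ := Finset.mem_image.1 hY
    refine Finset.card_le_card_of_injOn (fun g => g₀ * g) ?_ ?_
    · intro g hg
      refine Finset.mem_filter.2 ⟨Finset.mem_univ _, ?_⟩
      rw [mul_smul, (Finset.mem_filter.1 hg).2]
    · intro a _ b _ hab
      exact mul_left_cancel hab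
  calc (keys (Fin n) F).card * stab (Equiv.Perm (Fin n)) U
      ≤ O.card * stab (Equiv.Perm (Fin n)) U := Nat.mul_le_mul_right _ h1
    _ ≤ ∑ Y ∈ O, ((Finset.univ : Finset (Equiv.Perm (Fin n))).filter fun g => g • U = Y).card := by
        rw [← smul_eq_mul]
        exact Finset.card_nsmul_le_sum _ _ _ h2
    _ = Fintype.card (Equiv.Perm (Fin n)) :=
        (Finset.card_eq_sum_card_image (fun g => g • U) Finset.univ).symm

/-- The edge image of `H` inside `K_n`. -/
noncomputable def imageEdges (H : SimpleGraph V) (f₀ : V ↪ Fin n) : Finset (Sym2 (Fin n)) :=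
  (key H f₀).2

/-- The subgraph of `H` spanned by the edges mapped into `U`. -/
def subOf (H : SimpleGraph V) (f₀ : V ↪ Fin n) (U : Finset (Sym2 (Fin n))) : H.Subgraph where
  verts := {v | ∃ w, H.Adj v w ∧ s(f₀ v, f₀ w) ∈ U}
  Adj a b := H.Adj a b ∧ s(f₀ a, f₀ b) ∈ U
  adj_sub h := h.1
  edge_vert {a b} h := ⟨b, h⟩
  symm := ⟨fun a b h => ⟨h.1.symm, by rw [Sym2.eq_swap]; exact h.2⟩⟩

lemma sparse_of_pE {H : SimpleGraph V} (f₀ : V ↪ Fin n) {p : ℝ} (hp : 0 ≤ p)
    (h : ∀ F : H.Subgraph, 1 / 2 ≤ expCopies n p F.coe) :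
    Sparse (Equiv.Perm (Fin n)) p (imageEdges H f₀) := by
  intro U hU
  set F := subOf H f₀ U with hF
  set f : F.verts ↪ Fin n := (Function.Embedding.subtype _).trans f₀ with hf
  have hkey : (key F.coe f).2 = U := by
    ext e
    simp only [key, Finset.mem_image, SimpleGraph.mem_edgeFinset]
    constructor
    · rintro ⟨e', he', rfl⟩
      induction e' using Sym2.ind with
      | _ a b =>
        rw [SimpleGraph.mem_edgeSet] at he'
        exact he'.2
    · intro he
      obtain ⟨e', he', rfl⟩ := Finset.mem_image.1 (hU he)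
      induction e' using Sym2.ind with
      | _ a b =>
        have hab : H.Adj a b := by simpa using he'
        have ha : a ∈ F.verts := ⟨b, hab, by simpa using he⟩
        have hb : b ∈ F.verts := ⟨a, hab.symm, by rw [Sym2.eq_swap]; simpa using he⟩
        exact ⟨s(⟨a, ha⟩, ⟨b, hb⟩), ⟨hab, by simpa using he⟩, rfl⟩
  have hiso : ∀ v, ∃ w, F.coe.Adj v w := by
    rintro ⟨v, w, hvw, hwU⟩
    exact ⟨⟨w, v, hvw.symm, by rw [Sym2.eq_swap]; exact hwU⟩, hvw, hwU⟩
  have hc := keys_mul_stab_le F.coe hiso f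
  rw [hkey] at hc
  have hh := h F
  rw [expCopies_eq, ← key_card F.coe f, hkey] at hh
  have hc' : ((keys (Fin n) F.coe).card : ℝ) * (stab (Equiv.Perm (Fin n)) U : ℝ) ≤
      (Fintype.card (Equiv.Perm (Fin n)) : ℝ) := by exact_mod_cast hc
  have hs : (0 : ℝ) ≤ (stab (Equiv.Perm (Fin n)) U : ℝ) := Nat.cast_nonneg _
  have h1 := mul_le_mul_of_nonneg_left hh hs
  have h2 := mul_le_mul_of_nonneg_right hc' (pow_nonneg hp U.card)
  linarith

/-- The spread factor produced by the copy bound. -/
noncomputable def spreadConst (m : ℕ) : ℝ := 12288 * ((Nat.log 2 m : ℝ) + 2)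

lemma spreadConst_pos (m : ℕ) : 0 < spreadConst m := by
  unfold spreadConst; positivity

lemma cnt_le_spread {Γ X : Type*} [Group Γ] [Fintype Γ] [DecidableEq X] [MulAction Γ X]
    {H : Finset X} {q : ℝ} (hq : 0 ≤ q) (hH : Sparse Γ q H) (F : Finset X) :
    (cnt Γ F H : ℝ) ≤ (Fintype.card Γ : ℝ) * (spreadConst H.card * q) ^ F.card := by
  have h := copy_bound hq hH (D := Nat.log 2 H.card + 1) (Nat.succ_pos _) F H le_rfl
  refine h.trans (mul_le_mul_of_nonneg_left
    (pow_le_pow_left₀ (by positivity) ?_ _) (Nat.cast_nonneg _))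
  have hle : (H.card : ℝ) ^ (((Nat.log 2 H.card + 1 : ℕ) : ℝ)⁻¹) ≤ 2 := by
    have hlt : (H.card : ℝ) ≤ (2 : ℝ) ^ (Nat.log 2 H.card + 1) := by
      exact_mod_cast (Nat.lt_pow_succ_log_self (by norm_num) H.card).le
    refine (Real.rpow_le_rpow (Nat.cast_nonneg _) hlt (by positivity)).trans (le_of_eq ?_)
    exact Real.pow_rpow_inv_natCast (by norm_num) (Nat.succ_ne_zero _)
  refine (mul_le_mul_of_nonneg_left hle (by positivity)).trans (le_of_eq ?_)
  unfold spreadConst
  push_cast
  ring

lemma copies_mul_le (H : SimpleGraph V) (f₀ : V ↪ Fin n) (F : H.Subgraph) :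
    H.copyCount F.coe * Fintype.card (Equiv.Perm (Fin n)) ≤
      (keys (Fin n) F.coe).card *
        cnt (Equiv.Perm (Fin n))
          (key F.coe ((Function.Embedding.subtype _).trans f₀)).2 (imageEdges H f₀) := by
  set f : F.verts ↪ Fin n := (Function.Embedding.subtype _).trans f₀ with hf
  set K := keys (Fin n) F.coe with hK
  set S := K.filter (fun κ => κ.2 ⊆ imageEdges H f₀) with hS
  have h1 : H.copyCount F.coe ≤ S.card := by
    rw [copyCount_eq_keys]
    refine Finset.card_le_card_of_injOn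
      (fun κ => (κ.1.image f₀, κ.2.image (Sym2.map f₀))) ?_ ?_
    · intro κ hκ
      obtain ⟨hκ1, hκ2⟩ := Finset.mem_filter.1 hκ
      obtain ⟨g, -, rfl⟩ := Finset.mem_image.1 hκ1
      refine Finset.mem_filter.2 ⟨Finset.mem_image.2 ⟨g.trans f₀, Finset.mem_univ _, ?_⟩, ?_⟩
      · simp only [key, Finset.image_image]
        refine Prod.ext ?_ ?_
        · rfl
        · refine Finset.image_congr fun e _ => ?_
          simp only [Function.comp, Sym2.map_map]
          rfl
      · intro e he
        obtain ⟨e', he', rfl⟩ := Finset.mem_image.1 he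
        exact Finset.mem_image.2 ⟨e', hκ2 he', rfl⟩
    · intro a _ b _ hab
      simp only [Prod.mk.injEq] at hab
      exact Prod.ext (Finset.image_injective f₀.injective hab.1)
        (Finset.image_injective (Sym2.map.injective f₀.injective) hab.2)
  let Fib : Finset (Fin n) × Finset (Sym2 (Fin n)) → Finset (Equiv.Perm (Fin n)) := fun κ =>
    Finset.univ.filter fun g => key F.coe (f.trans g.toEmbedding) = κ
  have hfib : ∀ κ ∈ K, (Fib κ).card = (Fib (key F.coe f)).card := by
    intro κ hκ
    obtain ⟨f', -, rfl⟩ := Finset.mem_image.1 hκ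
    obtain ⟨σ, hσ⟩ := exists_perm_trans f f'
    have hf' : f.trans σ.toEmbedding = f' := DFunLike.ext _ _ hσ
    have hact : ∀ (τ g : Equiv.Perm (Fin n)), key F.coe (f.trans (τ * g).toEmbedding) =
        ((key F.coe (f.trans g.toEmbedding)).1.image τ,
          τ • (key F.coe (f.trans g.toEmbedding)).2) := by
      intro τ g
      refine Prod.ext ?_ ?_
      · simp only [key, Finset.image_image]
        rfl
      · rw [smul_key]
        rfl
    have h0 : key F.coe (f.trans (1 : Equiv.Perm (Fin n)).toEmbedding) = key F.coe f := rfl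
    refine Finset.card_bij' (fun g _ => σ⁻¹ * g) (fun g _ => σ * g) ?_ ?_ ?_ ?_
    · intro g hg
      have hg' := (Finset.mem_filter.1 hg).2
      refine Finset.mem_filter.2 ⟨Finset.mem_univ _, ?_⟩
      rw [hact, hg', ← hf']
      have := hact σ⁻¹ σ
      rw [inv_mul_cancel, h0] at this
      exact this.symm
    · intro g hg
      have hg' := (Finset.mem_filter.1 hg).2
      refine Finset.mem_filter.2 ⟨Finset.mem_univ _, ?_⟩
      rw [hact, hg', ← hf']
      have := hact σ 1
      rw [mul_one, h0] at this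
      exact this.symm
    · intro g _; simp
    · intro g _; simp
  have htotal : Fintype.card (Equiv.Perm (Fin n)) = K.card * (Fib (key F.coe f)).card := by
    have h := Finset.card_eq_sum_card_fiberwise (s := (Finset.univ : Finset (Equiv.Perm (Fin n))))
      (f := fun g : Equiv.Perm (Fin n) => key F.coe (f.trans g.toEmbedding)) (t := K)
      (fun g _ => Finset.mem_image.2 ⟨f.trans g.toEmbedding, Finset.mem_univ _, rfl⟩)
    rw [Finset.card_univ] at h
    rw [h, Finset.sum_congr rfl hfib, Finset.sum_const, smul_eq_mul]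
  have h3 : S.card * (Fib (key F.coe f)).card ≤
      cnt (Equiv.Perm (Fin n)) (key F.coe f).2 (imageEdges H f₀) := by
    have hb : (S.biUnion Fib).card = S.card * (Fib (key F.coe f)).card := by
      rw [Finset.card_biUnion, Finset.sum_congr rfl fun κ hκ => hfib κ (Finset.mem_filter.1 hκ).1,
        Finset.sum_const, smul_eq_mul]
      intro a _ b _ hab
      simp only [Function.onFun, Finset.disjoint_left]
      intro g hga hgb
      exact hab ((Finset.mem_filter.1 hga).2.symm.trans (Finset.mem_filter.1 hgb).2)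
    rw [← hb]
    refine Finset.card_le_card fun g hg => ?_
    obtain ⟨κ, hκ, hgκ⟩ := Finset.mem_biUnion.1 hg
    refine Finset.mem_filter.2 ⟨Finset.mem_univ _, ?_⟩
    rw [smul_key, (Finset.mem_filter.1 hgκ).2]
    exact (Finset.mem_filter.1 hκ).2
  calc H.copyCount F.coe * Fintype.card (Equiv.Perm (Fin n))
      ≤ S.card * (K.card * (Fib (key F.coe f)).card) := by
        rw [htotal]; exact Nat.mul_le_mul_right _ h1
    _ = K.card * (S.card * (Fib (key F.coe f)).card) := Nat.mul_left_comm _ _ _
    _ ≤ _ := Nat.mul_le_mul_left _ h3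

lemma one_mem_pE (H : SimpleGraph V) (hn : Fintype.card V ≤ n) (F : H.Subgraph) :
    1 / 2 ≤ expCopies n 1 F.coe := by
  obtain ⟨f₀⟩ : Nonempty (V ↪ Fin n) :=
    Function.Embedding.nonempty_of_card_le (by simpa using hn)
  rw [expCopies_eq, one_pow, mul_one]
  have : 0 < (keys (Fin n) F.coe).card :=
    Finset.card_pos.2 ⟨_, Finset.mem_image.2
      ⟨(Function.Embedding.subtype _).trans f₀, Finset.mem_univ _, rfl⟩⟩
  have : (1 : ℝ) ≤ (keys (Fin n) F.coe).card := by exact_mod_cast this
  linarith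

lemma pEtilde_le {H : SimpleGraph V} (hn : Fintype.card V ≤ n) {p : ℝ} (hp : 0 ≤ p)
    (h : ∀ F : H.Subgraph, 1 / 2 ≤ expCopies n p F.coe) :
    pEtilde n H ≤ spreadConst H.edgeFinset.card * p := by
  obtain ⟨f₀⟩ : Nonempty (V ↪ Fin n) :=
    Function.Embedding.nonempty_of_card_le (by simpa using hn)
  set c := spreadConst H.edgeFinset.card with hc
  have hc0 := spreadConst_pos H.edgeFinset.card
  set p' := min 1 (c * p) with hp'
  have hp'0 : 0 ≤ p' := le_min zero_le_one (mul_nonneg hc0.le hp)
  refine (csInf_le ⟨0, fun x hx => hx.1⟩ ?_).trans (min_le_right 1 (c * p))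
  refine ⟨hp'0, min_le_left _ _, fun F => ?_⟩
  set f : F.verts ↪ Fin n := (Function.Embedding.subtype _).trans f₀ with hf
  have hN : (0 : ℝ) < (Fintype.card (Equiv.Perm (Fin n)) : ℝ) := by
    exact_mod_cast Fintype.card_pos
  have hbound : (H.copyCount F.coe : ℝ) ≤
      ((keys (Fin n) F.coe).card : ℝ) * p' ^ F.coe.edgeFinset.card := by
    have hmul : (H.copyCount F.coe : ℝ) * (Fintype.card (Equiv.Perm (Fin n)) : ℝ) ≤
        ((keys (Fin n) F.coe).card : ℝ) *
          (cnt (Equiv.Perm (Fin n)) (key F.coe f).2 (imageEdges H f₀) : ℝ) := by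
      exact_mod_cast copies_mul_le H f₀ F
    have hcnt : (cnt (Equiv.Perm (Fin n)) (key F.coe f).2 (imageEdges H f₀) : ℝ) ≤
        (Fintype.card (Equiv.Perm (Fin n)) : ℝ) * p' ^ F.coe.edgeFinset.card := by
      rcases min_cases 1 (c * p) with ⟨h1, -⟩ | ⟨h1, -⟩
      · rw [hp', h1, one_pow, mul_one]
        exact_mod_cast cnt_le_card _ _
      · rw [hp', h1]
        have := cnt_le_spread hp (sparse_of_pE f₀ hp h) (key F.coe f).2
        rw [key_card] at this
        simp only [imageEdges, key_card, hc] at this ⊢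
        refine le_of_le_of_eq this ?_
        congr 3
    refine le_of_mul_le_mul_right ?_ hN
    calc (H.copyCount F.coe : ℝ) * (Fintype.card (Equiv.Perm (Fin n)) : ℝ)
        ≤ _ := hmul
      _ ≤ ((keys (Fin n) F.coe).card : ℝ) *
          ((Fintype.card (Equiv.Perm (Fin n)) : ℝ) * p' ^ F.coe.edgeFinset.card) :=
          mul_le_mul_of_nonneg_left hcnt (Nat.cast_nonneg _)
      _ = _ := by ring
  rw [expCopies_eq]
  have h0 : (0 : ℝ) ≤ (H.copyCount F.coe : ℝ) := Nat.cast_nonneg _
  refine le_of_le_of_eq ((half_le_self h0).trans hbound) ?_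
  congr 3

lemma ex_one {X : Type*} [DecidableEq X] (E : Finset X) (f : Finset X → ℝ) :
    ex E 1 f = f E := by
  induction E using Finset.induction_on generalizing f with
  | empty => simp [ex_empty]
  | @insert x E hx ih => rw [ex_insert hx, ih f, ih]; ring

lemma pc_le {H : SimpleGraph V} (hn : Fintype.card V ≤ n) (hne : H.edgeSet.Nonempty)
    {p : ℝ} (hp : 0 ≤ p) (h : ∀ F : H.Subgraph, 1 / 2 ≤ expCopies n p F.coe) :
    pc n H ≤ 16 * ((Nat.log 2 H.edgeFinset.card : ℝ) + 2) *
      spreadConst H.edgeFinset.card * p := by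
  obtain ⟨f₀⟩ : Nonempty (V ↪ Fin n) :=
    Function.Embedding.nonempty_of_card_le (by simpa using hn)
  set m := H.edgeFinset.card with hm
  have hsp := sparse_of_pE f₀ hp h
  have hm0 : 0 < m := Finset.card_pos.2 ⟨_, SimpleGraph.mem_edgeFinset.2 hne.choose_spec⟩
  have hcard : (imageEdges H f₀).card = m := key_card H f₀
  have hppos : 0 < p := by
    rcases eq_or_lt_of_le hp with h0 | h0
    · exfalso
      have h1 := hsp (imageEdges H f₀) le_rfl
      have h2 : (1 : ℝ) ≤ (stab (Equiv.Perm (Fin n)) (imageEdges H f₀) : ℝ) := by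
        exact_mod_cast Finset.card_pos.2 ⟨1, by simp⟩
      rw [← h0, hcard, zero_pow hm0.ne', mul_zero, zero_mul] at h1
      linarith
    · exact h0
  set k := Nat.log 2 m + 1 with hk
  set x := spreadConst m * p with hx
  have hx0 : 0 < x := mul_pos (spreadConst_pos m) hppos
  set P := 16 * ((k : ℝ) + 1) * x with hP
  have hPpos : 0 < P := by positivity
  have hPeq : P = 16 * ((Nat.log 2 m : ℝ) + 2) * spreadConst m * p := by
    rw [hP, hx, hk]; push_cast; ring
  rw [← hPeq]
  set S : Equiv.Perm (Fin n) → Finset (Sym2 (Fin n)) := fun g => g • imageEdges H f₀ with hS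
  have hSE : ∀ g, S g ⊆ allEdges n := by
    intro g
    rw [hS]
    simp only [imageEdges, smul_key]
    exact keys_subset_allEdges (Finset.mem_image.2 ⟨_, Finset.mem_univ _, rfl⟩)
  have hk2 : ∀ g, (S g).card ≤ 2 ^ k := fun g => by
    rw [hS]
    simp only [Finset.card_smul_finset, hcard]
    exact (Nat.lt_pow_succ_log_self (by norm_num) m).le
  have hspread : ∀ T : Finset (Sym2 (Fin n)), T.Nonempty →
      ((Finset.univ.filter fun g => T ⊆ S g).card : ℝ) ≤
        (Fintype.card (Equiv.Perm (Fin n)) : ℝ) * x ^ T.card := by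
    intro T _
    refine le_trans (Nat.cast_le.2 (Finset.card_le_card_of_injOn (t := Finset.univ.filter
      fun g : Equiv.Perm (Fin n) => g • T ⊆ imageEdges H f₀) (fun g => g⁻¹) ?_ ?_)) ?_
    · intro g hg
      refine Finset.mem_filter.2 ⟨Finset.mem_univ _, ?_⟩
      rw [← Finset.subset_smul_finset_iff]
      exact (Finset.mem_filter.1 hg).2
    · intro a _ b _ hab
      exact inv_injective hab
    · have := cnt_le_spread hp hsp T
      rw [hcard] at this
      exact this
  set Q := min 1 P with hQ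
  have hQ0 : 0 ≤ Q := le_min zero_le_one hPpos.le
  have hQ1 : Q ≤ 1 := min_le_left _ _
  have hfail : ex (allEdges n) Q (failInd Finset.univ S) ≤ 1 / 2 := by
    rcases le_total P 1 with hle | hle
    · rw [hQ, min_eq_right hle]
      exact spread_lemma (allEdges n) S hSE hx0.le hk2 hspread hPpos hle le_rfl
    · rw [hQ, min_eq_left hle, ex_one]
      have : ∃ i ∈ (Finset.univ : Finset (Equiv.Perm (Fin n))), S i ⊆ allEdges n :=
        ⟨1, Finset.mem_univ _, hSE 1⟩
      simp only [failInd, if_pos this]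
      norm_num
  refine (csInf_le ⟨0, fun y hy => hy.1⟩ ?_).trans (min_le_right 1 P)
  refine ⟨hQ0, hQ1, ?_⟩
  have hfs : ∀ G : SimpleGraph (Fin n), gnpWeight n Q G * (1 - failInd Finset.univ S G.edgeFinset) ≤
      (if H ⊑ G then gnpWeight n Q G else 0) := by
    intro G
    have hw : 0 ≤ gnpWeight n Q G :=
      mul_nonneg (pow_nonneg hQ0 _) (pow_nonneg (by linarith) _)
    by_cases hex : ∃ i ∈ (Finset.univ : Finset (Equiv.Perm (Fin n))), S i ⊆ G.edgeFinset
    · obtain ⟨g, -, hg⟩ := hex
      have hcont : H ⊑ G := by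
        have hg' : (key H (f₀.trans g.toEmbedding)).2 ⊆ G.edgeFinset := by
          rw [← smul_key]; exact hg
        let hom : H →g G := ⟨f₀.trans g.toEmbedding,
          fun {a b} hab => (key_edges_subset_iff H (f₀.trans g.toEmbedding) G).1 hg' a b hab⟩
        exact ⟨hom.toCopy (f₀.trans g.toEmbedding).injective⟩
      rw [if_pos hcont]
      have := failInd_nonneg Finset.univ S G.edgeFinset
      exact mul_le_of_le_one_right hw (by linarith)
    · have hone : failInd Finset.univ S G.edgeFinset = 1 := by simp only [failInd, if_neg hex]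
      rw [hone, sub_self, mul_zero]
      split <;> linarith
  have hsum : ∑ G : SimpleGraph (Fin n),
      gnpWeight n Q G * (1 - failInd Finset.univ S G.edgeFinset) ≤ probContains n Q H :=
    Finset.sum_le_sum fun G _ => hfs G
  rw [sum_graphs n Q (fun E => 1 - failInd Finset.univ S E)] at hsum
  have hadd := ex_add (allEdges n) Q (fun E => 1 - failInd Finset.univ S E) (failInd Finset.univ S)
  simp only [sub_add_cancel, ex_const] at hadd
  linarith

end Vale.Agent.P064
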