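import Mathlib
import Vale.Agent.P064.Graph

/-! The thresholds of a graph from an arbitrary spread factor for its edge image. -/

namespace Vale.Agent.P064

open Finset SimpleGraph

open scoped Pointwise

open scoped Classical

variable {V : Type} [Fintype V] {n : ℕ}

lemma pEtilde_le_of_spread {H : SimpleGraph V} (f₀ : V ↪ Fin n) {p c : ℝ} (hp : 0 ≤ p)
    (hc0 : 0 < c)
    (hspread : ∀ F : Finset (Sym2 (Fin n)), (cnt (Equiv.Perm (Fin n)) F (imageEdges H f₀) : ℝ) ≤
      (Fintype.card (Equiv.Perm (Fin n)) : ℝ) * (c * p) ^ F.card) :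
    pEtilde n H ≤ c * p := by
  set p' := min 1 (c * p) with hp'
  have hp'0 : 0 ≤ p' := le_min zero_le_one (mul_nonneg hc0.le hp)
  refine (csInf_le ⟨0, fun x hx => hx.1⟩ ?_).trans (min_le_right 1 (c * p))
  refine ⟨hp'0, min_le_left _ _, fun F => ?_⟩
  set f : F.verts ↪ Fin n := (Function.Embedding.subtype _).trans f₀ with hf
  have hN : (0 : ℝ) < (Fintype.card (Equiv.Perm (Fin n)) : ℝ) := by
    exact_mod_cast Fintype.card_pos
  have hbound : (H.copyCount F.coe : ℝ) ≤
      ((keys (Fin n) F.coe).card : ℝ) * p' ^ F.coe.edgeFinset.card := by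
    have hmul : (H.copyCount F.coe : ℝ) * (Fintype.card (Equiv.Perm (Fin n)) : ℝ) ≤
        ((keys (Fin n) F.coe).card : ℝ) *
          (cnt (Equiv.Perm (Fin n)) (key F.coe f).2 (imageEdges H f₀) : ℝ) := by
      exact_mod_cast copies_mul_le H f₀ F
    have hcnt : (cnt (Equiv.Perm (Fin n)) (key F.coe f).2 (imageEdges H f₀) : ℝ) ≤
        (Fintype.card (Equiv.Perm (Fin n)) : ℝ) * p' ^ F.coe.edgeFinset.card := by
      rcases min_cases 1 (c * p) with ⟨h1, -⟩ | ⟨h1, -⟩
      · rw [hp', h1, one_pow, mul_one]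
        exact_mod_cast cnt_le_card _ _
      · rw [hp', h1]
        have := hspread (key F.coe f).2
        rw [key_card] at this
        exact this
    refine le_of_mul_le_mul_right ?_ hN
    calc (H.copyCount F.coe : ℝ) * (Fintype.card (Equiv.Perm (Fin n)) : ℝ)
        ≤ _ := hmul
      _ ≤ ((keys (Fin n) F.coe).card : ℝ) *
          ((Fintype.card (Equiv.Perm (Fin n)) : ℝ) * p' ^ F.coe.edgeFinset.card) :=
          mul_le_mul_of_nonneg_left hcnt (Nat.cast_nonneg _)
      _ = _ := by ring
  rw [expCopies_eq]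
  have h0 : (0 : ℝ) ≤ (H.copyCount F.coe : ℝ) := Nat.cast_nonneg _
  refine le_of_le_of_eq ((half_le_self h0).trans hbound) ?_
  congr 3

lemma pc_le_of_spread {H : SimpleGraph V} (f₀ : V ↪ Fin n) (hne : H.edgeSet.Nonempty)
    {p c : ℝ} (hp : 0 ≤ p) (hc0 : 0 < c) (hsp : Sparse (Equiv.Perm (Fin n)) p (imageEdges H f₀))
    (hsp' : ∀ F : Finset (Sym2 (Fin n)), (cnt (Equiv.Perm (Fin n)) F (imageEdges H f₀) : ℝ) ≤
      (Fintype.card (Equiv.Perm (Fin n)) : ℝ) * (c * p) ^ F.card) :
    pc n H ≤ 16 * ((Nat.log 2 H.edgeFinset.card : ℝ) + 2) * c * p := by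
  set m := H.edgeFinset.card with hm
  have hm0 : 0 < m := Finset.card_pos.2 ⟨_, SimpleGraph.mem_edgeFinset.2 hne.choose_spec⟩
  have hcard : (imageEdges H f₀).card = m := key_card H f₀
  have hppos : 0 < p := by
    rcases eq_or_lt_of_le hp with h0 | h0
    · exfalso
      have h1 := hsp (imageEdges H f₀) le_rfl
      have h2 : (1 : ℝ) ≤ (stab (Equiv.Perm (Fin n)) (imageEdges H f₀) : ℝ) := by
        exact_mod_cast Finset.card_pos.2 ⟨1, by simp⟩
      rw [← h0, hcard, zero_pow hm0.ne', mul_zero, zero_mul] at h1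
      linarith
    · exact h0
  set k := Nat.log 2 m + 1 with hk
  set x := c * p with hx
  have hx0 : 0 < x := mul_pos hc0 hppos
  set P := 16 * ((k : ℝ) + 1) * x with hP
  have hPpos : 0 < P := by positivity
  have hPeq : P = 16 * ((Nat.log 2 m : ℝ) + 2) * c * p := by
    rw [hP, hx, hk]; push_cast; ring
  rw [← hPeq]
  set S : Equiv.Perm (Fin n) → Finset (Sym2 (Fin n)) := fun g => g • imageEdges H f₀ with hS
  have hSE : ∀ g, S g ⊆ allEdges n := by
    intro g
    rw [hS]
    simp only [imageEdges, smul_key]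
    exact keys_subset_allEdges (Finset.mem_image.2 ⟨_, Finset.mem_univ _, rfl⟩)
  have hk2 : ∀ g, (S g).card ≤ 2 ^ k := fun g => by
    rw [hS]
    simp only [Finset.card_smul_finset, hcard]
    exact (Nat.lt_pow_succ_log_self (by norm_num) m).le
  have hspread : ∀ T : Finset (Sym2 (Fin n)), T.Nonempty →
      ((Finset.univ.filter fun g => T ⊆ S g).card : ℝ) ≤
        (Fintype.card (Equiv.Perm (Fin n)) : ℝ) * x ^ T.card := by
    intro T _
    refine le_trans (Nat.cast_le.2 (Finset.card_le_card_of_injOn (t := Finset.univ.filter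
      fun g : Equiv.Perm (Fin n) => g • T ⊆ imageEdges H f₀) (fun g => g⁻¹) ?_ ?_)) ?_
    · intro g hg
      refine Finset.mem_filter.2 ⟨Finset.mem_univ _, ?_⟩
      rw [← Finset.subset_smul_finset_iff]
      exact (Finset.mem_filter.1 hg).2
    · intro a _ b _ hab
      exact inv_injective hab
    · exact hsp' T
  set Q := min 1 P with hQ
  have hQ0 : 0 ≤ Q := le_min zero_le_one hPpos.le
  have hQ1 : Q ≤ 1 := min_le_left _ _
  have hfail : ex (allEdges n) Q (failInd Finset.univ S) ≤ 1 / 2 := by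
    rcases le_total P 1 with hle | hle
    · rw [hQ, min_eq_right hle]
      exact spread_lemma (allEdges n) S hSE hx0.le hk2 hspread hPpos hle le_rfl
    · rw [hQ, min_eq_left hle, ex_one]
      have : ∃ i ∈ (Finset.univ : Finset (Equiv.Perm (Fin n))), S i ⊆ allEdges n :=
        ⟨1, Finset.mem_univ _, hSE 1⟩
      simp only [failInd, if_pos this]
      norm_num
  refine (csInf_le ⟨0, fun y hy => hy.1⟩ ?_).trans (min_le_right 1 P)
  refine ⟨hQ0, hQ1, ?_⟩
  have hfs : ∀ G : SimpleGraph (Fin n), gnpWeight n Q G * (1 - failInd Finset.univ S G.edgeFinset) ≤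
      (if H ⊑ G then gnpWeight n Q G else 0) := by
    intro G
    have hw : 0 ≤ gnpWeight n Q G :=
      mul_nonneg (pow_nonneg hQ0 _) (pow_nonneg (by linarith) _)
    by_cases hex : ∃ i ∈ (Finset.univ : Finset (Equiv.Perm (Fin n))), S i ⊆ G.edgeFinset
    · obtain ⟨g, -, hg⟩ := hex
      have hcont : H ⊑ G := by
        have hg' : (key H (f₀.trans g.toEmbedding)).2 ⊆ G.edgeFinset := by
          rw [← smul_key]; exact hg
        let hom : H →g G := ⟨f₀.trans g.toEmbedding,
          fun {a b} hab => (key_edges_subset_iff H (f₀.trans g.toEmbedding) G).1 hg' a b hab⟩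
        exact ⟨hom.toCopy (f₀.trans g.toEmbedding).injective⟩
      rw [if_pos hcont]
      have := failInd_nonneg Finset.univ S G.edgeFinset
      exact mul_le_of_le_one_right hw (by linarith)
    · have hone : failInd Finset.univ S G.edgeFinset = 1 := by simp only [failInd, if_neg hex]
      rw [hone, sub_self, mul_zero]
      split <;> linarith
  have hsum : ∑ G : SimpleGraph (Fin n),
      gnpWeight n Q G * (1 - failInd Finset.univ S G.edgeFinset) ≤ probContains n Q H :=
    Finset.sum_le_sum fun G _ => hfs G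
  rw [sum_graphs n Q (fun E => 1 - failInd Finset.univ S E)] at hsum
  have hadd := ex_add (allEdges n) Q (fun E => 1 - failInd Finset.univ S E) (failInd Finset.univ S)
  simp only [sub_add_cancel, ex_const] at hadd
  linarith

end Vale.Agent.P064
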